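import Crest.Agent.X212.Taub88.Spn

/-!
# Row 212, TAUB (helper88): spin^c modules (real rank 8) at a point
-/

set_option autoImplicit false
set_option linter.unusedSectionVars false

open Finset InnerProductSpace
open scoped InnerProductSpace

noncomputable section
namespace Crest.Agent.X212.Taub88
open Wz78

variable {ι : Type*} [Fintype ι] {V V' W : Type*} [NormedAddCommGroup V] [InnerProductSpace ℝ V]
  [FiniteDimensional ℝ V] [NormedAddCommGroup V'] [InnerProductSpace ℝ V'] [FiniteDimensional ℝ V']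
  [NormedAddCommGroup W] [NormedSpace ℝ W]

/-- the trace -/
def tr (T : V →L[ℝ] V) : ℝ := LinearMap.trace ℝ V (T : V →ₗ[ℝ] V)

theorem tr_add (S T : V →L[ℝ] V) : tr (S + T) = tr S + tr T := by simp [tr]
theorem tr_sub (S T : V →L[ℝ] V) : tr (S - T) = tr S - tr T := by simp [tr]
theorem tr_neg (S : V →L[ℝ] V) : tr (-S) = -tr S := by simp [tr]
theorem tr_smul (r : ℝ) (T : V →L[ℝ] V) : tr (r • T) = r * tr T := by simp [tr]
theorem tr_sum {κ : Type*} (s : Finset κ) (T : κ → V →L[ℝ] V) :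
    tr (∑ i ∈ s, T i) = ∑ i ∈ s, tr (T i) := by simp [tr]
theorem tr_comm (S T : V →L[ℝ] V) : tr (S * T) = tr (T * S) :=
  LinearMap.trace_mul_comm ℝ (S : V →ₗ[ℝ] V) T
theorem tr_rk (x y : V) : tr (rankOne ℝ x y) = ⟪y, x⟫_ℝ := trace_rankOne x y

/-- an orthogonal projector of trace zero vanishes -/
theorem zero_of_tr {T : V →L[ℝ] V} (hi : ∀ v, T (T v) = T v) (hs : ∀ v w, ⟪T v, w⟫_ℝ = ⟪v, T w⟫_ℝ)
    (ht : tr T = 0) : T = 0 := by
  let b := stdOrthonormalBasis ℝ V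
  rw [tr, LinearMap.trace_eq_sum_inner _ b] at ht
  have h : ∀ i, ⟪b i, (T : V →ₗ[ℝ] V) (b i)⟫_ℝ = ⟪T (b i), T (b i)⟫_ℝ := fun i => by
    rw [hs, hi]; rfl
  simp only [h] at ht
  have := (sum_eq_zero_iff_of_nonneg fun i _ => real_inner_self_nonneg).1 ht
  exact ContinuousLinearMap.coe_injective (b.toBasis.ext fun i =>
    inner_self_eq_zero.1 (this i (mem_univ i)))

/-- complex Clifford modules at a point -/
structure PC (P : ι → ι → ℝ) (o : ι → ι → ι → ι → ℝ) (p J : V →L[ℝ] V) (ρ : ι → V →L[ℝ] V) :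
    Prop where
  pr : Pr P
  on : ∃ U, On P o U
  cl : Cl P p ρ
  ps : ∀ v w, ⟪p v, w⟫_ℝ = ⟪v, p w⟫_ℝ
  ρs : ∀ a v w, ⟪ρ a v, w⟫_ℝ = -⟪v, ρ a w⟫_ℝ
  Js : ∀ v w, ⟪J v, w⟫_ℝ = -⟪v, J w⟫_ℝ
  Jρ : ∀ a, J * ρ a = ρ a * J
  Jp : J * p = p * J
  JJ : J * J * p = -p

/-- spin^c modules at a point -/
structure P8 (P : ι → ι → ℝ) (o : ι → ι → ι → ι → ℝ) (p J : V →L[ℝ] V) (ρ : ι → V →L[ℝ] V) :
    Prop extends PC P o p J ρ where
  rk : tr p = 8

/-- the projector onto positive spinors -/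
def pp (o : ι → ι → ι → ι → ℝ) (p : V →L[ℝ] V) (ρ : ι → V →L[ℝ] V) : V →L[ℝ] V :=
  (1 / 2 : ℝ) • (p - omA o ρ)

/-- the projector onto negative spinors -/
def pm (o : ι → ι → ι → ι → ℝ) (p : V →L[ℝ] V) (ρ : ι → V →L[ℝ] V) : V →L[ℝ] V :=
  (1 / 2 : ℝ) • (p + omA o ρ)

variable {P θ : ι → ι → ℝ} {o : ι → ι → ι → ι → ℝ} {p J : V →L[ℝ] V} {ρ : ι → V →L[ℝ] V}
  {p' J' : V' →L[ℝ] V'} {ρ' : ι → V' →L[ℝ] V'} {u v w : V} {u' : V'}

namespace PC
variable (h : PC P o p J ρ)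
include h

theorem four : ∑ a, P a a = 4 := by
  obtain ⟨U, hU⟩ := h.on
  simp only [← hU.pr]
  rw [sum_comm]
  simp [hU.on]

theorem p_p : p * p = p := by
  obtain ⟨U, hU⟩ := h.on
  exact (hU.cl4 h.cl).PP

theorem sum_sq : ∑ a, ρ a * ρ a = (-4 : ℝ) • p := by
  have e : ∀ a, ρ a * ρ a = (-P a a) • p := fun a => by
    refine smul_right_injective _ (two_ne_zero (α := ℝ)) ?_
    simp only [two_smul ℝ (ρ a * ρ a), h.cl.rel, smul_smul]
    ring_nf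
  simp only [e, ← sum_smul, sum_neg_distrib, h.four]

theorem p_om : p * omA o ρ = omA o ρ := by
  simp only [omA, mul_smul_comm, mul_sum, ← mul_assoc, h.cl.pl]

theorem om_p : omA o ρ * p = omA o ρ := by
  simp only [omA, smul_mul_assoc, sum_mul, mul_assoc, h.cl.pr]

theorem om_om : omA o ρ * omA o ρ = p := h.on.elim fun _ hU => hU.om_om h.cl

theorem om_ρ (a : ι) : omA o ρ * ρ a = -(ρ a * omA o ρ) := h.on.elim fun _ hU => hU.om_rho h.cl a

theorem J_om : J * omA o ρ = omA o ρ * J := by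
  simp only [omA, mul_smul_comm, smul_mul_assoc, mul_sum, sum_mul, ← mul_assoc, h.Jρ]
  simp only [mul_assoc, h.Jρ]

theorem om_s (v w : V) : ⟪omA o ρ v, w⟫_ℝ = ⟪v, omA o ρ w⟫_ℝ := by
  obtain ⟨U, hU⟩ := h.on
  have D := hU.cl4 h.cl
  have s : ∀ i v w, ⟪rr U ρ i v, w⟫_ℝ = -⟪v, rr U ρ i w⟫_ℝ := fun i v w => by
    simp [rr, sum_inner, inner_sum, real_inner_smul_left, real_inner_smul_right, h.ρs]
  have e : rr U ρ 3 * (rr U ρ 2 * (rr U ρ 1 * rr U ρ 0)) = Ind95.om (rr U ρ) := by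
    simp [Ind95.om, D.anti 1 0 (by decide), D.s20, D.s30, D.anti 2 1 (by decide), D.s31,
      D.anti 3 2 (by decide)]
  rw [hU.om_eq h.cl]
  nth_rewrite 2 [← e]
  simp only [Ind95.om, mul_apply_eq_comp, s, neg_neg]

theorem tr_anti {X : V →L[ℝ] V} (h1 : ∀ a, X * ρ a = -(ρ a * X)) (h2 : X * p = X) : tr X = 0 := by
  have e1 : ∑ a, tr (ρ a * (X * ρ a)) = -4 * tr X := by
    simp only [fun a => tr_comm (ρ a), mul_assoc]
    rw [← tr_sum, ← mul_sum, h.sum_sq, mul_smul_comm, h2, tr_smul]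
  have e2 : ∑ a, tr (ρ a * (X * ρ a)) = 4 * tr X := by
    simp only [h1, mul_neg, ← mul_assoc, tr_neg, sum_neg_distrib]
    rw [← tr_sum, ← sum_mul, h.sum_sq, smul_mul_assoc, tr_smul, tr_comm, h2]
    ring
  linarith

theorem pp_pp : pp o p ρ * pp o p ρ = pp o p ρ := by
  simp only [pp, smul_mul_smul_comm, sub_mul, mul_sub, h.p_p, h.p_om, h.om_p, h.om_om]
  module

theorem pm_pm : pm o p ρ * pm o p ρ = pm o p ρ := by
  simp only [pm, smul_mul_smul_comm, add_mul, mul_add, h.p_p, h.p_om, h.om_p, h.om_om]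
  module

theorem pm_pp : pm o p ρ * pp o p ρ = 0 := by
  simp only [pm, pp, smul_mul_smul_comm, add_mul, mul_sub, h.p_p, h.p_om, h.om_p, h.om_om]
  module

theorem p_pp : p * pp o p ρ = pp o p ρ := by
  simp only [pp, mul_smul_comm, mul_sub, h.p_p, h.p_om]

theorem p_pm : p * pm o p ρ = pm o p ρ := by
  simp only [pm, mul_smul_comm, mul_add, h.p_p, h.p_om]

omit h in
theorem pp_add : pp o p ρ + pm o p ρ = p := by
  simp only [pp, pm]; module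

theorem pp_s (v w : V) : ⟪pp o p ρ v, w⟫_ℝ = ⟪v, pp o p ρ w⟫_ℝ := by
  simp [pp, inner_sub_left, inner_sub_right, real_inner_smul_left, real_inner_smul_right, h.ps,
    h.om_s]

theorem pm_s (v w : V) : ⟪pm o p ρ v, w⟫_ℝ = ⟪v, pm o p ρ w⟫_ℝ := by
  simp [pm, inner_add_left, inner_add_right, real_inner_smul_left, real_inner_smul_right, h.ps,
    h.om_s]

theorem ρ_pp (a : ι) : ρ a * pp o p ρ = pm o p ρ * ρ a := by
  simp only [pp, pm, mul_smul_comm, smul_mul_assoc, mul_sub, add_mul, h.cl.pl, h.cl.pr, h.om_ρ,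
    ← sub_eq_add_neg]

theorem ρ_pm (a : ι) : ρ a * pm o p ρ = pp o p ρ * ρ a := by
  simp only [pp, pm, mul_smul_comm, smul_mul_assoc, mul_add, sub_mul, h.cl.pl, h.cl.pr, h.om_ρ,
    sub_neg_eq_add]

theorem J_pp : J * pp o p ρ = pp o p ρ * J := by
  simp only [pp, mul_smul_comm, smul_mul_assoc, mul_sub, sub_mul, h.Jp, h.J_om]

theorem p_of (hv : pp o p ρ v = v) : p v = v := by
  rw [← hv, ← mul_apply_eq_comp, h.p_pp]

theorem pm_ρ (hv : pp o p ρ v = v) (a : ι) : pm o p ρ (ρ a v) = ρ a v := by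
  rw [← mul_apply_eq_comp, ← h.ρ_pp, mul_apply_eq_comp, hv]

theorem pp_ρ (hv : pm o p ρ v = v) (a : ι) : pp o p ρ (ρ a v) = ρ a v := by
  rw [← mul_apply_eq_comp, ← h.ρ_pm, mul_apply_eq_comp, hv]

theorem pp_J (hv : pp o p ρ v = v) : pp o p ρ (J v) = J v := by
  rw [← mul_apply_eq_comp, ← h.J_pp, mul_apply_eq_comp, hv]

theorem orth (hv : pp o p ρ v = v) (hw : pm o p ρ w = w) : ⟪w, v⟫_ℝ = 0 := by
  rw [← hw, h.pm_s, ← hv, ← mul_apply_eq_comp, h.pm_pp]; simp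

theorem J_ρ (a : ι) (v : V) : J (ρ a v) = ρ a (J v) := congrArg (· v) (h.Jρ a)

theorem J_J (hv : p v = v) : J (J v) = -v := by
  have := congrArg (· v) h.JJ
  simpa [hv] using this

theorem rel (a b : ι) (v : V) : ρ a (ρ b v) = -ρ b (ρ a v) - (2 * P a b) • p v :=
  congrArg (· v) (h.cl.swap b a) |>.trans (by simp [h.pr.symm a b])

theorem inner_ρ (a b : ι) (hv : p v = v) : ⟪ρ a v, ρ b v⟫_ℝ = P a b * ⟪v, v⟫_ℝ := by
  have e1 := h.ρs a v (ρ b v)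
  have e2 := h.ρs b v (ρ a v)
  rw [h.rel, hv, inner_sub_right, inner_neg_right, real_inner_smul_right] at e1
  rw [real_inner_comm] at e2
  linarith

theorem sum_ρ (a : ι) (v : V) : ∑ b, P a b • ρ b v = ρ a v := by
  rw [← h.cl.proj a]; simp

end PC

namespace P8
variable (h : P8 P o p J ρ)
include h

theorem tr_pp : tr (pp o p ρ) = 4 := by
  rw [pp, tr_smul, tr_sub, h.rk, h.tr_anti h.om_ρ h.om_p]; norm_num

theorem tr_pm : tr (pm o p ρ) = 4 := by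
  rw [pm, tr_smul, tr_add, h.rk, h.tr_anti h.om_ρ h.om_p]; norm_num

/-- Parseval identity on negative spinors -/
theorem par1 (hu : pp o p ρ u = u) (w : V) :
    ∑ b, ⟪ρ b u, w⟫_ℝ • ρ b u = ⟪u, u⟫_ℝ • pm o p ρ w := by
  rcases eq_or_ne u 0 with rfl | h0
  · simp
  have n0 : ⟪u, u⟫_ℝ ≠ 0 := inner_self_ne_zero.2 h0
  set R := (⟪u, u⟫_ℝ)⁻¹ • ∑ b, rankOne ℝ (ρ b u) (ρ b u) with hR
  have Ra : ∀ w, R w = (⟪u, u⟫_ℝ)⁻¹ • ∑ b, ⟪ρ b u, w⟫_ℝ • ρ b u := fun w => by simp [hR]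
  have Rs : ∀ v w, ⟪R v, w⟫_ℝ = ⟪v, R w⟫_ℝ := fun v w => by
    simp only [Ra, real_inner_smul_left, real_inner_smul_right, sum_inner, inner_sum,
      real_inner_comm v, mul_comm]
  have R1 : ∀ a, R (ρ a u) = ρ a u := fun a => by
    simp only [Ra, h.inner_ρ _ _ (h.p_of hu), mul_comm (P _ _), mul_smul, ← smul_sum,
      h.pr.symm _ a, h.sum_ρ, inv_smul_smul₀ n0]
  have R2 : ∀ w, R (R w) = R w := fun w => by
    rw [Ra w]; simp only [map_smul, map_sum, R1]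
  have R3 : ∀ w, pm o p ρ (R w) = R w := fun w => by
    rw [Ra w]; simp only [map_smul, map_sum, h.pm_ρ hu]
  have R4 : ∀ w, R (pm o p ρ w) = R w := fun w =>
    ext_inner_left ℝ fun v => by rw [← Rs, ← h.pm_s, R3, Rs]
  have z := zero_of_tr (T := pm o p ρ - R)
    (fun v => by
      have e : pm o p ρ (pm o p ρ v) = pm o p ρ v := congrArg (· v) h.pm_pm
      simp only [sub_apply, map_sub, R2, R3, R4, e, sub_self, sub_zero])
    (fun v w => by simp only [sub_apply, inner_sub_left, inner_sub_right, Rs, h.pm_s])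
    (by
      rw [tr_sub, h.tr_pm, hR, tr_smul, tr_sum]
      simp only [tr_rk, h.inner_ρ _ _ (h.p_of hu), ← sum_mul, h.four]
      field_simp
      ring)
  rw [sub_eq_zero.1 z, Ra, smul_inv_smul₀ n0]

/-- Parseval identity on positive spinors -/
theorem par2 (hu : pp o p ρ u = u) (v : V) :
    ∑ a, ∑ b, ⟪ρ a (ρ b u), v⟫_ℝ • ρ a (ρ b u) = (4 * ⟪u, u⟫_ℝ) • pp o p ρ v := by
  have e : ∀ a, ∑ b, ⟪ρ a (ρ b u), v⟫_ℝ • ρ a (ρ b u) =
      -(⟪u, u⟫_ℝ • (ρ a * ρ a) (pp o p ρ v)) := fun a => by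
    have := congrArg (ρ a) (h.par1 hu (ρ a v))
    rw [← mul_apply_eq_comp (pm o p ρ), ← h.ρ_pp] at this
    simp only [map_sum, map_smul, mul_apply_eq_comp] at this
    simp only [h.ρs a, neg_smul, sum_neg_distrib, this, mul_apply_eq_comp]
  simp only [e, sum_neg_distrib, ← smul_sum]
  rw [← _root_.sum_apply, h.sum_sq, smul_apply, ← mul_apply_eq_comp, h.p_pp]
  module

/-- Fierz identity -/
theorem fierz (hu : pp o p ρ u = u) (hv : pp o p ρ v = v) :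
    ∑ a, ∑ b, ⟪u, J (ρ a (ρ b u))⟫_ℝ * ⟪u, J (ρ a (ρ b v))⟫_ℝ = 4 * ⟪u, u⟫_ℝ * ⟪u, v⟫_ℝ := by
  have e0 : ⟪u, J u⟫_ℝ = 0 := by linarith [h.Js u u, real_inner_comm u (J u)]
  have e1 : ∀ a b, ⟪u, J (ρ a (ρ b v))⟫_ℝ = ⟪ρ b (ρ a u), J v⟫_ℝ := fun a b => by
    rw [h.J_ρ, h.J_ρ, h.ρs b, h.ρs a, neg_neg]
  have e2 : ∀ a b, ⟪u, J (ρ a (ρ b u))⟫_ℝ = ⟪ρ b (ρ a u), J u⟫_ℝ := fun a b => by
    rw [h.J_ρ, h.J_ρ, h.ρs b, h.ρs a, neg_neg]
  have e3 := congrArg (⟪·, J v⟫_ℝ) (h.par2 hu (J u))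
  simp only [sum_inner, real_inner_smul_left, h.pp_J hu, h.Js u, h.J_J (h.p_of hv),
    inner_neg_right, neg_neg] at e3
  simp only [e1, e2]
  rw [sum_comm, e3]

/-- a map which kills the generators vanishes -/
theorem ext8 (hu : pp o p ρ u = u) (h1 : ⟪u, u⟫_ℝ = 1) {X : V →L[ℝ] W}
    (x1 : ∀ a, X (ρ a u) = 0) (x2 : ∀ a b, X (ρ a (ρ b u)) = 0) (v : V) : X (p v) = 0 := by
  have e1 := congrArg X (h.par1 hu v)
  have e2 := congrArg X (h.par2 hu v)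
  simp only [map_sum, map_smul, x1, x2, smul_zero, sum_const_zero, h1, one_smul, mul_one] at e1 e2
  rw [← PC.pp_add (o := o) (p := p) (ρ := ρ), add_apply, map_add, ← e1, add_zero]
  exact (smul_eq_zero.1 e2.symm).resolve_left four_ne_zero

end P8

end Crest.Agent.X212.Taub88
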