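import Crest.Agent.X212.Taub88.Pt8

/-!
# Row 212, TAUB (helper88): the projector onto pure spinors at a point
-/

set_option autoImplicit false
set_option linter.unusedSectionVars false

open Finset InnerProductSpace
open scoped InnerProductSpace

noncomputable section
namespace Crest.Agent.X212.Taub88
open Wz78

variable {ι : Type*} [Fintype ι] {V : Type*} [NormedAddCommGroup V] [InnerProductSpace ℝ V]
  [FiniteDimensional ℝ V]

/-- the projector onto the positive spinors on which `θ` acts by `J` -/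
def Qt (o : ι → ι → ι → ι → ℝ) (p J : V →L[ℝ] V) (ρ : ι → V →L[ℝ] V) (θ : ι → ι → ℝ) :
    V →L[ℝ] V := (1 / 2 : ℝ) • (pp o p ρ - spin ρ θ * J)

/-- the bilinear moment map -/
def mm (J : V →L[ℝ] V) (ρ : ι → V →L[ℝ] V) (v w : V) (a b : ι) : ℝ := ⟪ρ a (ρ b (J v)), w⟫_ℝ

/-- vectors in a submodule of rank eight -/
def In8 (P : ι → ι → ℝ) (o : ι → ι → ι → ι → ℝ) (J : V →L[ℝ] V) (ρ : ι → V →L[ℝ] V) (v : V) :
    Prop := ∃ π : V →L[ℝ] V, P8 P o π J (fun a => ρ a * π) ∧ (∀ a, π * ρ a = ρ a * π) ∧ π v = v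

variable {P θ X Y : ι → ι → ℝ} {o : ι → ι → ι → ι → ℝ} {p J T : V →L[ℝ] V}
  {ρ : ι → V →L[ℝ] V} {u v w : V}

theorem dot_mm (X : ι → ι → ℝ) (v w : V) : dot X (mm J ρ v w) = 4 * ⟪spin ρ X (J v), w⟫_ℝ := by
  simp [dot, mm, spin, sum_inner, real_inner_smul_left]

theorem mm_add (u v w : V) : mm J ρ u (v + w) = fun a b => mm J ρ u v a b + mm J ρ u w a b := by
  funext a b; simp [mm, inner_add_right]

theorem mm_add' (u v w : V) : mm J ρ (u + v) w = fun a b => mm J ρ u w a b + mm J ρ v w a b := by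
  funext a b; simp [mm, inner_add_left]

theorem dot_nonneg (X : ι → ι → ℝ) : 0 ≤ dot X X :=
  sum_nonneg fun _ _ => sum_nonneg fun _ _ => mul_self_nonneg _

theorem dot_add (X Y Z : ι → ι → ℝ) : dot X (fun a b => Y a b + Z a b) = dot X Y + dot X Z := by
  simp only [dot, mul_add, sum_add_distrib]

theorem dot_mul (t : ℝ) (X Y : ι → ι → ℝ) : dot X (fun a b => t * Y a b) = t * dot X Y := by
  simp only [dot, mul_sum, mul_left_comm t]

theorem eq_zero_of_dot (h : dot X X = 0) (a b : ι) : X a b = 0 :=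
  mul_self_eq_zero.1 ((sum_eq_zero_iff_of_nonneg fun _ _ => mul_self_nonneg _).1
    ((sum_eq_zero_iff_of_nonneg fun _ _ => sum_nonneg fun _ _ => mul_self_nonneg _).1 h a
      (mem_univ a)) b (mem_univ b))

theorem dot_le (t : ℝ) (X Y : ι → ι → ℝ) : 2 * t * dot X Y ≤ dot X X + t ^ 2 * dot Y Y := by
  simp only [dot, mul_sum, ← sum_add_distrib]
  exact sum_le_sum fun a _ => sum_le_sum fun b _ => by nlinarith [sq_nonneg (X a b - t * Y a b)]

theorem dot_add_le (X Y : ι → ι → ℝ) :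
    dot (fun a b => X a b + Y a b) (fun a b => X a b + Y a b) ≤ 2 * dot X X + 2 * dot Y Y := by
  simp only [dot, mul_sum, ← sum_add_distrib]
  exact sum_le_sum fun a _ => sum_le_sum fun b _ => by nlinarith [sq_nonneg (X a b - Y a b)]

theorem comm_spin (hT : ∀ a, T * ρ a = ρ a * T) (X : ι → ι → ℝ) : T * spin ρ X = spin ρ X * T :=
  (Commute.sum_right _ _ _ fun a _ => Commute.sum_right _ _ _ fun b _ =>
    (Commute.mul_right (hT a) (hT b)).smul_right _).smul_right _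

theorem comm_om (hT : ∀ a, T * ρ a = ρ a * T) : T * omA o ρ = omA o ρ * T :=
  (Commute.sum_right _ _ _ fun a _ => Commute.sum_right _ _ _ fun b _ =>
    Commute.sum_right _ _ _ fun c _ => Commute.sum_right _ _ _ fun d _ =>
    ((((Commute.mul_right (hT a) (hT b))).mul_right (hT c)).mul_right (hT d)).smul_right
      _).smul_right _

theorem comm_pp (hT : ∀ a, T * ρ a = ρ a * T) (hp : T * p = p * T) :
    T * pp o p ρ = pp o p ρ * T := (Commute.sub_right hp (comm_om hT)).smul_right _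

theorem comm_Q (hT : ∀ a, T * ρ a = ρ a * T) (hp : T * p = p * T) (hJ : T * J = J * T) :
    T * Qt o p J ρ θ = Qt o p J ρ θ * T :=
  (Commute.sub_right (comm_pp hT hp) (Commute.mul_right (comm_spin hT θ) hJ)).smul_right _

namespace PC
variable (h : PC P o p J ρ)
include h

theorem om_spin (X : ι → ι → ℝ) : omA o ρ * spin ρ X = spin ρ X * omA o ρ :=
  (Commute.sum_right _ _ _ fun a _ => Commute.sum_right _ _ _ fun b _ => Commute.smul_right (by
    change _ * _ = _ * _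
    rw [← mul_assoc, h.om_ρ, neg_mul, mul_assoc, h.om_ρ, mul_neg, neg_neg, mul_assoc]) _).smul_right _

theorem pp_spin (X : ι → ι → ℝ) : pp o p ρ * spin ρ X = spin ρ X * pp o p ρ := by
  simp only [pp, mul_smul_comm, smul_mul_assoc, mul_sub, sub_mul, h.om_spin, h.cl.p_spin,
    h.cl.spin_p]

theorem spin_s (hX : ∀ a b, X a b = -X b a) (v w : V) :
    ⟪spin ρ X v, w⟫_ℝ = -⟪v, spin ρ X w⟫_ℝ := by
  simp only [spin, smul_apply, _root_.sum_apply, mul_apply_eq_comp, real_inner_smul_left,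
    real_inner_smul_right, sum_inner, inner_sum, h.ρs, neg_neg, ← mul_neg, ← sum_neg_distrib]
  rw [sum_comm]
  exact congrArg _ (sum_congr rfl fun a _ => sum_congr rfl fun b _ => by rw [hX b a]; ring)

theorem J_spin (X : ι → ι → ℝ) : J * spin ρ X = spin ρ X * J := comm_spin h.Jρ X

theorem JJ' (hT : p * T = T) : J * (J * T) = -T := by
  rw [← hT, ← mul_assoc, ← mul_assoc, h.JJ, neg_mul]

theorem inner_J (v : V) : ⟪J v, v⟫_ℝ = 0 := by linarith [h.Js v v, real_inner_comm v (J v)]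

theorem p_p' (v : V) : p (p v) = p v := congrArg (· v) h.p_p

theorem norm_p (v : V) : ‖p v‖ ≤ ‖v‖ := by
  have h1 := real_inner_le_norm v (p v)
  have h2 := h.ps v (p v)
  rw [h.p_p', real_inner_self_eq_norm_sq] at h2
  by_contra! h3
  nlinarith [norm_nonneg v]

theorem norm_J (hv : p v = v) : ‖J v‖ = ‖v‖ := by
  rw [← sq_eq_sq₀ (norm_nonneg _) (norm_nonneg _), ← real_inner_self_eq_norm_sq, h.Js, h.J_J hv,
    inner_neg_right, neg_neg, real_inner_self_eq_norm_sq]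

theorem norm_ρ_sq (a : ι) (v : V) : ‖ρ a v‖ ^ 2 = P a a * ‖p v‖ ^ 2 := by
  rw [← h.cl.pr, mul_apply_eq_comp, ← real_inner_self_eq_norm_sq, h.inner_ρ a a (h.p_p' v),
    real_inner_self_eq_norm_sq]

theorem P_nonneg (a : ι) : 0 ≤ P a a := by
  rw [← h.pr.idem]
  exact sum_nonneg fun k _ => by rw [h.pr.symm k a]; exact mul_self_nonneg _

theorem norm_ρ (a : ι) (v : V) : ‖ρ a v‖ ≤ ‖v‖ := by
  have h1 : P a a * P a a ≤ P a a := by
    conv_rhs => rw [← h.pr.idem]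
    exact single_le_sum (f := fun k => P a k * P k a)
      (fun k _ => by rw [h.pr.symm k a]; exact mul_self_nonneg _) (mem_univ a)
  have h2 : P a a ≤ 1 := by nlinarith
  refine (abs_le_of_sq_le_sq' ?_ (norm_nonneg v)).2
  rw [h.norm_ρ_sq]
  nlinarith [h.norm_p v, norm_nonneg (p v), sq_nonneg ‖p v‖]

theorem norm_spin (X : ι → ι → ℝ) (v : V) : ‖spin ρ X v‖ ≤ (∑ a, ∑ b, |X a b|) / 4 * ‖v‖ := by
  simp only [spin, smul_apply, _root_.sum_apply, mul_apply_eq_comp, norm_smul]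
  rw [div_mul_eq_mul_div, div_eq_inv_mul (_ * _), sum_mul]
  refine mul_le_mul (by norm_num) ((norm_sum_le _ _).trans (sum_le_sum fun a _ => ?_))
    (norm_nonneg _) (by norm_num)
  rw [sum_mul]
  refine (norm_sum_le _ _).trans (sum_le_sum fun b _ => ?_)
  rw [norm_smul]
  exact mul_le_mul_of_nonneg_left ((h.norm_ρ a _).trans (h.norm_ρ b v)) (abs_nonneg _)

theorem mm_le (hv : p v = v) (w : V) :
    dot (mm J ρ v w) (mm J ρ v w) ≤ 16 * (‖v‖ ^ 2 * ‖w‖ ^ 2) := by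
  have e : ∀ a b, mm J ρ v w a b * mm J ρ v w a b ≤ P a a * P b b * (‖v‖ ^ 2 * ‖w‖ ^ 2) :=
    fun a b => by
      have e1 : p (ρ b (J v)) = ρ b (J v) := congrArg (· (J v)) (h.cl.pl b)
      have e2 : p (J v) = J v := by rw [← mul_apply_eq_comp, ← h.Jp, mul_apply_eq_comp, hv]
      have := real_inner_mul_inner_self_le (ρ a (ρ b (J v))) w
      rw [real_inner_self_eq_norm_sq, real_inner_self_eq_norm_sq, h.norm_ρ_sq, e1, h.norm_ρ_sq,
        e2, h.norm_J hv] at this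
      exact this.trans_eq (by ring)
  refine (sum_le_sum fun a _ => sum_le_sum fun b _ => e a b).trans_eq ?_
  simp only [← sum_mul, ← mul_sum, h.four]
  norm_num

theorem mm_skew (hv : p v = v) (a b : ι) : mm J ρ v v a b = -mm J ρ v v b a := by
  have e2 : p (J v) = J v := by rw [← mul_apply_eq_comp, ← h.Jp, mul_apply_eq_comp, hv]
  rw [mm, mm, h.rel, e2, inner_sub_left, inner_neg_left, real_inner_smul_left, h.inner_J]
  ring

theorem spin_sd (hX : ∀ a b, X a b = -X b a) : spin ρ (sdp o X) = spin ρ X * pp o p ρ :=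
  h.on.elim fun _ hU => spin_sdp hU h.cl hX

theorem fierz8 (h8 : In8 P o J ρ u) (hu : pp o p ρ u = u) (hv : pp o p ρ v = v)
    (hπ : ∀ π : V →L[ℝ] V, (∀ a, π * ρ a = ρ a * π) → π * J = J * π → π u = u → π v = v) :
    dot (mm J ρ u u) (mm J ρ v u) = 4 * ‖u‖ ^ 2 * ⟪u, v⟫_ℝ := by
  obtain ⟨π, h1, h2, h3⟩ := h8
  have h4 := hπ π h2 h1.Jp.symm h3
  have c : ∀ a w, π w = w → π (ρ a w) = ρ a w := fun a w hw => by
    rw [← mul_apply_eq_comp, h2, mul_apply_eq_comp, hw]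
  have e : ∀ w, π w = w → pp o p ρ w = w → pp o π (fun a => ρ a * π) w = w := fun w hw hw' => by
    have : omA o (fun a => ρ a * π) w = omA o ρ w := by simp [omA, c, hw]
    rw [← hw']
    conv_lhs => rw [hw']
    simp only [pp, smul_apply, sub_apply, this, hw, h.p_of hw']
  have := h1.fierz (e u h3 hu) (e v h4 hv)
  simp only [mul_apply_eq_comp, h3, h4, c, h.J_ρ, real_inner_comm _ u] at this
  rw [← real_inner_self_eq_norm_sq, real_inner_comm v u, ← this]
  rfl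

variable (hθ : Cx P θ) (hs : SD o θ)
include hθ hs

theorem S_pp : spin ρ θ * pp o p ρ = spin ρ θ := by
  rw [← h.spin_sd hθ.skew]
  congr 1
  funext a b
  rw [sdp, hs]; ring

theorem acomm (hX : ∀ a b, X a b = -X b a) :
    spin ρ X * spin ρ θ + spin ρ θ * spin ρ X = (-dot X θ / 2) • pp o p ρ := by
  obtain ⟨U, hU⟩ := h.on
  rw [spin_acomm hU h.cl h.pr hX hθ.sk, hs, pp]
  module

theorem S_S : spin ρ θ * spin ρ θ = -pp o p ρ := by
  refine smul_right_injective _ (two_ne_zero (α := ℝ)) ?_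
  simp only [two_smul ℝ (spin ρ θ * _), h.acomm hθ hs hθ.skew, hθ.dot_self h.four]
  module

theorem pp_Q : pp o p ρ * Qt o p J ρ θ = Qt o p J ρ θ := by
  simp only [Qt, mul_smul_comm, mul_sub, h.pp_pp, ← mul_assoc, h.pp_spin, h.S_pp hθ hs]

omit hθ hs in
theorem p_Q : p * Qt o p J ρ θ = Qt o p J ρ θ := by
  simp only [Qt, mul_smul_comm, mul_sub, h.p_pp, ← mul_assoc, h.cl.p_spin]

omit hθ hs in
theorem J_Q : J * Qt o p J ρ θ = Qt o p J ρ θ * J := comm_Q h.Jρ h.Jp rfl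

theorem S_Q : spin ρ θ * Qt o p J ρ θ = J * Qt o p J ρ θ := by
  have e : J * spin ρ θ * J = -spin ρ θ := by
    rw [mul_assoc, ← h.J_spin, ← mul_assoc, ← h.cl.p_spin, ← mul_assoc, h.JJ, neg_mul]
  simp only [Qt, mul_smul_comm, mul_sub, ← mul_assoc, h.S_pp hθ hs, h.S_S hθ hs, e, h.J_pp]
  rw [neg_mul, sub_neg_eq_add, sub_neg_eq_add, add_comm]

theorem Q_S : Qt o p J ρ θ * spin ρ θ = J * Qt o p J ρ θ := by
  rw [← h.S_Q hθ hs]
  simp only [Qt, mul_smul_comm, smul_mul_assoc, mul_sub, sub_mul, mul_assoc, h.pp_spin, h.J_spin]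

theorem Q_Q : Qt o p J ρ θ * Qt o p J ρ θ = Qt o p J ρ θ := by
  nth_rewrite 1 [Qt]
  rw [smul_mul_assoc, sub_mul, h.pp_Q hθ hs, mul_assoc, h.J_Q, ← mul_assoc, h.S_Q hθ hs, mul_assoc,
    ← h.J_Q, h.JJ' h.p_Q]
  module

omit hs in
theorem Q_s (v w : V) : ⟪Qt o p J ρ θ v, w⟫_ℝ = ⟪v, Qt o p J ρ θ w⟫_ℝ := by
  simp only [Qt, smul_apply, sub_apply, real_inner_smul_left, real_inner_smul_right,
    inner_sub_left, inner_sub_right, h.pp_s]
  rw [mul_apply_eq_comp, h.spin_s hθ.skew, h.Js, neg_neg, ← mul_apply_eq_comp, h.J_spin]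

theorem Q_spin_Q (hX : ∀ a b, X a b = -X b a) :
    Qt o p J ρ θ * spin ρ X * Qt o p J ρ θ = (dot X θ / 4) • (J * Qt o p J ρ θ) := by
  set Q := Qt o p J ρ θ
  have e1 := congrArg (fun T => J * (Q * T * Q)) (h.acomm hθ hs hX)
  have e2 : Q * (spin ρ X * spin ρ θ) * Q = J * (Q * spin ρ X * Q) := by
    rw [mul_assoc, mul_assoc, h.S_Q hθ hs, ← mul_assoc (spin ρ X), ← h.J_spin, ← mul_assoc,
      ← mul_assoc, ← h.J_Q]
    simp only [mul_assoc]; rfl
  have e3 : Q * (spin ρ θ * spin ρ X) * Q = J * (Q * spin ρ X * Q) := by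
    rw [← mul_assoc, h.Q_S hθ hs]
    simp only [mul_assoc]; rfl
  have e4 : J * (J * (Q * spin ρ X * Q)) = -(Q * spin ρ X * Q) :=
    h.JJ' (by rw [← mul_assoc, ← mul_assoc, h.p_Q])
  simp only [mul_add, add_mul, e2, e3, e4, mul_smul_comm, smul_mul_assoc, mul_assoc Q (pp o p ρ),
    h.pp_Q hθ hs, h.Q_Q hθ hs, Q] at e1
  linear_combination (norm := module) (-1 / 2 : ℝ) • e1

theorem dot_mm_θ (hv : pp o p ρ v = v) :
    dot θ (mm J ρ v v) = 4 * (‖v‖ ^ 2 - 2 * ‖Qt o p J ρ θ v‖ ^ 2) := by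
  rw [dot_mm, ← real_inner_self_eq_norm_sq (Qt o p J ρ θ v), h.Q_s hθ, ← mul_apply_eq_comp (Qt ..),
    h.Q_Q hθ hs, Qt, smul_apply, sub_apply, hv, real_inner_smul_right, inner_sub_right,
    real_inner_self_eq_norm_sq, mul_apply_eq_comp, real_inner_comm]
  ring

theorem mm_Q (hu : Qt o p J ρ θ u = u) (a b : ι) : mm J ρ u u a b = -‖u‖ ^ 2 * θ a b := by
  have p1 : p u = u := by rw [← hu, ← mul_apply_eq_comp, h.p_Q]
  have e : ∀ X : ι → ι → ℝ, (∀ a b, X a b = -X b a) →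
      dot X (fun a b => mm J ρ u u a b + ‖u‖ ^ 2 * θ a b) = 0 := fun X hX => by
    have e1 := congrArg (fun T => ⟪T (J u), u⟫_ℝ) (h.Q_spin_Q hθ hs hX)
    have e2 : Qt o p J ρ θ (J u) = J u := by
      rw [← mul_apply_eq_comp, ← h.J_Q, mul_apply_eq_comp, hu]
    simp only [mul_apply_eq_comp, h.Q_s hθ, hu, e2, smul_apply, h.J_J p1, real_inner_smul_left,
      inner_neg_left, real_inner_self_eq_norm_sq] at e1
    rw [dot_add, dot_mul, dot_mm, e1]
    ring
  have := eq_zero_of_dot (e _ fun a b => by rw [h.mm_skew p1, hθ.skew]; ring) a b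
  linarith

end PC

end Crest.Agent.X212.Taub88
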