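import Crest.Agent.X212.Taub88.Tb
import Crest.Agent.X212.Abel74.Red

/-!
# Row 212, TAUB (helper88): canonical configurations, uniqueness on `An/Gauge`
-/

set_option autoImplicit false
set_option linter.unusedSectionVars false
noncomputable section
open scoped Manifold ContDiff Topology InnerProductSpace
open MeasureTheory Finset

namespace Crest.Agent.X212.Taub88
open An Wz78 Abel74
open Eq82 (SWs)

variable {E : Type} [NormedAddCommGroup E] [NormedSpace ℝ E] [FiniteDimensional ℝ E]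
  [MeasurableSpace E] [BorelSpace E]
  {HM : Type} [TopologicalSpace HM] {I : ModelWithCorners ℝ E HM}
  {M : Type} [TopologicalSpace M] [ChartedSpace HM M] [IsManifold I ∞ M]
  [MeasurableSpace M] {ι : Type} [Fintype ι] {lam : Type} [Fintype lam]
  {B : Base M ι lam} {G : Geo I M ι lam} {m : Md M ι lam} {W : m.Cn} {θ : ι → ι → M → ℝ} {x : M}

theorem pc_of (hB : B.OK I) (H : Std94.PMx B m x) :
    PC (fun a b => B.P a b x) (fun a b c d => B.o a b c d x) (m.p x) m.J fun a => m.ρ a x :=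
  ⟨hB.pr x, b_on hB x, H.cl, H.psym, H.ρsk, H.Jsk, H.Jρ, H.Jp, by rw [H.Jsq, neg_mul, one_mul]⟩

theorem pc (hB : B.OK I) (H : m.OK I B) (x : M) :
    PC (fun a b => B.P a b x) (fun a b c d => B.o a b c d x) (m.p x) m.J fun a => m.ρ a x :=
  pc_of hB (Std94.pmx H x)

theorem tm_of (hB : B.OK I) (hG : G.OK B) (H : m.OK I B) (C : m.IsConn B G W) (A : Ak B G.F θ) :
    TM I G.F.e B.P G.F.c G.F.Gam B.o θ m.p m.J m.ρ W :=
  ⟨gfrm hG, glc hG, gsep hG, fun a b c d x => hB.so a b c d x, ⟨fun a b x => A.sm a b x, A.cx, A.cl⟩,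
    A.sd, C.cc, pc hB H, C.J, C.sk⟩

theorem sd_sum (hB : B.OK I) {f : ι → ι → ℝ} (h : Sk (fun a b => B.P a b x) f) (s : ι × ι) :
    ∑ t, B.sd x s t * f t.1 t.2 = sdp (fun a b c d => B.o a b c d x) f s.1 s.2 := by
  have e := a2_fix (B := B) (x := x) h.skew (h.proj' (hB.pr x)) s
  simp only [smul_eq_mul] at e
  simp only [Base.sd, Base.st, add_mul, sum_add_distrib, div_mul_eq_mul_div, ← sum_div, e]
  simp only [sdp, hs2, Fintype.sum_prod_type, o_pair hB s.1 s.2, mul_comm]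

theorem sk_of {P f : ι → ι → ℝ} (hP : Pr P) (h1 : ∀ a b, f a b = -f b a)
    (h2 : ∀ a b, ∑ k, P a k * f k b = f a b) : Sk P f :=
  ⟨h1, fun a b => by
    rw [h1 a b, ← h2 b a, ← sum_neg_distrib]
    exact sum_congr rfl fun k _ => by rw [h1 a k, hP.symm k b]; ring⟩

theorem sk_fF (hB : B.OK I) (hG : G.OK B) (C : m.IsConn B G W) (ξ : M → m.A) (x : M) :
    Sk (fun a b => B.P a b x) fun a b => fF G.F m W ξ a b x :=
  sk_of (hB.pr x) (fun a b => fF_swap hG C a b x) fun a b => fF_proj hG C a b x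

theorem Th.sdp_eq (h : Th I B θ) (x : M) :
    sdp (fun a b c d => B.o a b c d x) (fun a b => θ a b x) = fun a b => θ a b x := by
  funext a b
  rw [sdp, h.sd x]
  ring

theorem p8 {F : Fr I M ι} {ξ : M → m.A} (hB : B.OK I) (H : m.OK I B) (R : Red F m W ξ) (x : M) :
    P8 (fun a b => B.P a b x) (fun a b c d => B.o a b c d x) (hf m x (ξ x)) m.J
      fun a => m.ρ a x * hf m x (ξ x) := by
  have hξ := R.mem x
  have h2 := hf_hf H hξ (R.sq x)
  have hρ := rho_hf H hξ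
  have ap : ∀ a w, m.ρ a x (hf m x (ξ x) w) = hf m x (ξ x) (m.ρ a x w) := fun a w => by
    rw [← mul_apply_eq_comp, hρ, mul_apply_eq_comp]
  refine ⟨⟨hB.pr x, b_on hB x, ⟨fun a b => ?_, fun a => ?_, fun a => ?_, fun a => ?_⟩,
    hf_sym H hξ, fun a v w => ?_, H.Jsk, fun a => ?_, J_hf H hξ, ?_⟩,
    (trE_eq _).symm.trans (R.tr_hf H hB x)⟩
  · rw [mul_assoc, mul_assoc, ← mul_assoc (hf _ _ _), ← mul_assoc (hf _ _ _), ← hρ, ← hρ, mul_assoc,
      mul_assoc, h2, ← mul_assoc, ← mul_assoc, ← add_mul, (H.cl x).rel, smul_mul_assoc, p_hf H hξ]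
  · rw [← mul_assoc, ← hρ, mul_assoc, h2]
  · rw [mul_assoc, h2]
  · simp only [← smul_mul_assoc, ← sum_mul, (H.cl x).proj]
  · rw [mul_apply_eq_comp, mul_apply_eq_comp, H.ρsk, hf_sym H hξ, ap]
  · rw [← mul_assoc, H.Jρ, mul_assoc, J_hf H hξ, mul_assoc]
  · rw [H.Jsq, neg_mul, one_mul]

theorem in8 {F : Fr I M ι} {ξ : M → m.A} (hB : B.OK I) (H : m.OK I B) (R : Red F m W ξ) {v : m.V}
    (hv : hf m x (ξ x) v = v) :
    In8 (fun a b => B.P a b x) (fun a b c d => B.o a b c d x) m.J (fun a => m.ρ a x) v :=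
  ⟨hf m x (ξ x), p8 hB H R x, fun a => (rho_hf H (R.mem x) a).symm, hv⟩

theorem inner_rp (hB : B.OK I) (H : m.OK I B) {v : m.V} (hv : m.pp B x v = v) (w : m.V)
    (s : ι × ι) : ⟪m.J (rp m B x s v), w⟫_ℝ =
      mm m.J (fun a => m.ρ a x) v w s.1 s.2 + B.P s.1 s.2 x * ⟪m.J v, w⟫_ℝ := by
  have P := pc hB H x
  rw [rp, mul_apply_eq_comp, hv, rb_eq H, add_apply, smul_apply, mul_apply_eq_comp, P.p_of hv,
    map_add, map_smul, inner_add_left, real_inner_smul_left, P.J_ρ, P.J_ρ]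
  rfl

variable {c c₀ : Cfg M ι lam 0} {ξ : M → c.m.A} {ξ₀ : M → c₀.m.A} {r : ℝ}

theorem tw_Φ (hB : B.OK I) (hG : G.OK B) (A : c.Adm B G) (S : SPt G.F c ξ) (a b : ι) (x : M) :
    tw I G.F.e G.F.c G.F.Gam c.m.p c.m.ρ c.W a b x (c.Φ x) =
      (fL B G x (a, b) / 2 + fF G.F c.m c.W ξ a b x) • c.m.J (c.Φ x) := by
  have e := congrArg (· (c.Φ x)) (S.toRed.tw_hf hB hG A.ok A.conn a b x)
  simp only [mul_apply_eq_comp, smul_apply, S.hf_Φ A] at e
  rw [e]
  congr 1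
  ring

/-- the curvature equation in components -/
theorem sw_iff (hB : B.OK I) (hG : G.OK B) (A : c.Adm B G) (S : SPt G.F c ξ) (η : ι × ι → ℝ) :
    c.m.p2 B x (c.m.Fg G.F c.W x) - c.m.mu B x (c.Φ x) (c.Φ x) =
      c.m.p2 B x (WithLp.toLp 2 fun s => η s • ξ x) ↔ ∀ s,
    ∑ t, B.sd x s t * (fF G.F c.m c.W ξ t.1 t.2 x - η t) =
      mm c.m.J (fun a => c.m.ρ a x) (c.Φ x) (c.Φ x) s.1 s.2 / 16 := by
  rw [S.toRed.p2_Fg hB hG A.ok A.conn, S.mu_eq A hB, p2_smul (S.mem x), PiLp.ext_iff]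
  refine forall_congr' fun s => ?_
  simp only [PiLp.sub_apply, ← sub_smul, inner_rp hB A.ok (A.pos x), (pc hB A.ok x).inner_J, mul_zero,
    add_zero, mul_sub, sum_sub_distrib]
  exact ⟨fun h => by linarith [S.toRed.smul_inj A.ok h], fun h => by congr 1; linarith⟩

variable (B G θ r) in
/-- canonical configurations -/
structure Cn (c : Cfg M ι lam 0) (ξ : M → c.m.A) : Prop where
  adm : c.Adm B G
  spt : SPt G.F c ξ
  Q : ∀ x, Qm B c.m θ x (c.Φ x) = c.Φ x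
  nrm : ∀ x, ‖c.Φ x‖ ^ 2 = r
  par : ∀ a x, Qm B c.m θ x (nab I G.F.e c.W a c.Φ x) = 0

/-- Taubes' perturbation -/
def eta (F : Fr I M ι) (c : Cfg M ι lam 0) (ξ : M → c.m.A) (θ : ι → ι → M → ℝ) (r : ℝ) (x : M)
    (s : ι × ι) : ℝ := fF F c.m c.W ξ s.1 s.2 x + r / 16 * θ s.1 s.2 x

variable (hB : B.OK I) (hG : G.OK B) (K : Ak B G.F θ)
include hB hG K

theorem Cn.fF_eq (h : Cn B G θ r c ξ) (hr : 0 < r) (a b : ι) (x : M) :
    fF G.F c.m c.W ξ a b x = -(fL B G x (a, b) / 2 + uF G.F θ a b x) := by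
  have e := (tm_of hB hG h.adm.ok h.adm.conn K).flat h.adm.sm h.Q h.par a b x
  rw [tw_Φ hB hG h.adm h.spt, ← sub_eq_zero, ← sub_smul, smul_eq_zero] at e
  refine e.elim (fun e => by linarith) fun e => ?_
  have P := pc hB h.adm.ok x
  have := P.norm_J (P.p_of (h.adm.pos x))
  have e' := h.nrm x
  rw [← this, e, norm_zero] at e'
  linarith

theorem Cn.sws (h : Cn B G θ r c ξ) : SWs B G (eta G.F c ξ θ r) c ξ :=
  ⟨h.adm, h.spt, (tm_of hB hG h.adm.ok h.adm.conn K).dir_eq h.adm.sm h.Q h.par, fun x =>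
    (sw_iff hB hG h.adm h.spt _).2 fun s => by
      have e := sd_sum hB (K.cx x).sk s
      simp only [K.sdp_eq] at e
      rw [(pc hB h.adm.ok x).mm_Q (K.cx x) (K.sd x) (h.Q x), h.nrm, ← e, mul_sum, sum_div]
      exact sum_congr rfl fun t _ => by simp only [eta]; ring⟩

variable [I.Boundaryless] [T2Space M] [BorelSpace M] [SecondCountableTopology M] [CompactSpace M]

/-- **uniqueness** -/
theorem Cn.deg (h : Cn B G θ r c₀ ξ₀) {b : ℝ} (hb : ∀ x, bnd I G.F.e G.F.Gam θ x ≤ b) (b0 : 0 ≤ b)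
    (hr : 16 * b < r) (S : SWs B G (eta G.F c₀ ξ₀ θ r) c ξ)
    (hd : ∫ x, dot (fun a b => fF G.F c.m c.W ξ a b x - fF G.F c₀.m c₀.W ξ₀ a b x)
      (fun a b => θ a b x) ∂G.F.μ ≤ 0) : Cn B G θ r c ξ := by
  have T := tm_of hB hG S.adm.ok S.adm.conn K
  obtain ⟨R, hR⟩ := (isCompact_range (S.adm.sm.continuous.norm.pow 2)).bddAbove
  have := Sob92.openPos G.F.toPre
  have u := TM.err (F := G.F) (hG.P ▸ T) (riem_of_vol hG.vol) (k := 1 / 16) (r := r) (R := R)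
    (ε := 0) (by norm_num) hb b0 (by linarith) ⟨by norm_num, by simpa using sq_nonneg _⟩ S.adm.sm
    S.adm.pos (fun x => hG.P ▸ in8 hB S.adm.ok S.spt.toRed (S.spt.hf_Φ S.adm x)) S.D
    (fun x => hR ⟨x, rfl⟩) (er := 0)
    (f := fun x a b => fL B G x (a, b) / 2 + fF G.F c.m c.W ξ a b x)
    (fun x a b => by rw [fF_swap hG S.adm.conn, ← neg_neg (fL B G x (a, b)), ← fL_swap hG]; simp; ring)
    (fun x a b => tw_Φ hB hG S.adm S.spt a b x) (fun _ _ => continuous_const)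
    (g := fun x a b => fF G.F c.m c.W ξ a b x - fF G.F c₀.m c₀.W ξ₀ a b x)
    (fun x => by funext a b; rw [h.fF_eq hB hG K (by linarith)]; ring)
    (fun x => by
      funext a b
      have e := (sw_iff hB hG S.adm S.spt _).1 (S.C x) (a, b)
      have e1 := sd_sum hB (K.cx x).sk (a, b)
      have e2 := sd_sum hB ((sk_fF hB hG S.adm.conn ξ x).add
        ((sk_fF hB hG h.adm.conn ξ₀ x).mul (-1))) (a, b)
      simp only [K.sdp_eq] at e1
      simp only [neg_mul, one_mul, ← sub_eq_add_neg] at e2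
      simp only [eta, ← sub_sub, mul_sub (B.sd x _ _) (_ - _), sum_sub_distrib, e2, mul_left_comm
        (B.sd x _ _), ← mul_sum, e1] at e
      simp only [Pi.zero_apply]
      linarith)
    (by simp [dot]) hd
  exact ⟨S.adm, S.spt, fun x => (u x).1, fun x => (u x).2.1, fun a x => (u x).2.2.1 a⟩

end Crest.Agent.X212.Taub88
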