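import Crest.Agent.X212.Wz78.Alg

/-!
# Row 212, TAUB (helper88): Clifford algebra of an almost Kaehler form
-/

set_option autoImplicit false

open Finset

noncomputable section
namespace Crest.Agent.X212.Taub88
open Wz78

variable {ι : Type*} [Fintype ι] {𝔸 : Type*} [Ring 𝔸] [Algebra ℝ 𝔸]

/-- a two-form which is an orthogonal complex structure -/
structure Cx (P ω : ι → ι → ℝ) : Prop where
  skew : ∀ a b, ω a b = -ω b a
  proj : ∀ a b, ∑ k, ω a k * P k b = ω a b
  sq : ∀ a b, ∑ k, ω a k * ω k b = -P a b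

/-- the algebraic properties of the covariant derivative of a closed such form -/
structure Dx (P ω : ι → ι → ℝ) (T : ι → ι → ι → ℝ) : Prop where
  skew : ∀ a b m, T a b m = -T a m b
  proj : ∀ a b m, ∑ k, T a b k * P k m = T a b m
  anti : ∀ a b m, ∑ k, ω b k * T a k m = -∑ k, T a b k * ω k m
  cyc : ∀ a b m, T a b m + T b m a + T m a b = 0

variable {P ω : ι → ι → ℝ} {T : ι → ι → ι → ℝ} {p : 𝔸} {ρ : ι → 𝔸}

theorem Dx.div (h : Dx P ω T) (c : Cx P ω) (l : ι) : ∑ a, T a a l = 0 := by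
  have h1 : ∀ m, ∑ a, ∑ b, ω a b * T m a b = 0 := fun m => by
    have e1 : ∑ a, ∑ k, ω a k * T m k a = -∑ a, ∑ k, T m a k * ω k a := by
      simp only [h.anti, sum_neg_distrib]
    have e2 : ∑ a, ∑ k, T m a k * ω k a = ∑ a, ∑ k, ω a k * T m k a := by
      rw [sum_comm]
      exact sum_congr rfl fun a _ => sum_congr rfl fun b _ => mul_comm _ _
    have e3 : ∑ a, ∑ b, ω a b * T m a b = -∑ a, ∑ k, ω a k * T m k a := by
      rw [sum_comm, ← sum_neg_distrib]
      refine sum_congr rfl fun a _ => ?_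
      rw [← sum_neg_distrib]
      exact sum_congr rfl fun b _ => by rw [c.skew b a]; ring
    linarith
  have h2 : ∀ m, ∑ a, ∑ b, ω a b * T b m a = ∑ a, ∑ b, ω a b * T a b m := fun m => by
    rw [sum_comm]
    exact sum_congr rfl fun a _ => sum_congr rfl fun b _ => by rw [c.skew b a, h.skew a m b]; ring
  have h3 : ∀ m, ∑ k, (∑ a, T a a k) * ω k m = 0 := fun m => by
    have e1 : ∑ a, ∑ b, ω a b * (T a b m + T b m a + T m a b) = 0 := by simp [h.cyc]
    simp only [mul_add, sum_add_distrib, h1, h2, h.anti, sum_neg_distrib] at e1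
    simp only [sum_mul]
    rw [sum_comm]
    linarith
  have h4 : ∑ m, (∑ k, (∑ a, T a a k) * ω k m) * ω m l = -∑ a, T a a l := by
    have e : ∑ k, (∑ a, T a a k) * P k l = ∑ a, T a a l := by
      simp only [sum_mul]
      rw [sum_comm]
      simp only [h.proj]
    rw [← e]
    calc _ = ∑ m, ∑ k, (∑ a, T a a k) * (ω k m * ω m l) :=
          sum_congr rfl fun m _ => by rw [sum_mul]; exact sum_congr rfl fun k _ => mul_assoc _ _ _
      _ = _ := by rw [sum_comm]; simp only [← mul_sum, c.sq, mul_neg, sum_neg_distrib]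
  simpa [h3] using h4

/-- `∑ ρ_a ρ(∇_a ω) = ρ(d ω + d^* ω) = 0` -/
theorem Dx.har (h : Dx P ω T) (c : Cx P ω) (hP : Pr P) (C : Cl P p ρ) :
    ∑ a, ρ a * spin ρ (T a) = 0 := by
  have h1 := C.bianchi3 hP (R := fun a b m => T m a b) (fun a b m => h.skew m a b)
    fun a b m => by rw [← h.cyc m a b]
  have h2 : ∀ a, ∑ b, ∑ m, T m a b * P b m = 0 := fun a => by
    rw [sum_comm]
    simp only [h.proj, fun m => h.skew m a m, sum_neg_distrib, h.div c, neg_zero]
  have h3 : ∑ m, spin ρ (T m) * ρ m = 0 := by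
    simp only [h2, zero_smul, sum_const_zero, smul_zero] at h1
    simp only [spin, smul_mul_assoc, sum_mul, ← smul_sum]
    rw [sum_comm, sum_congr rfl fun a _ => sum_comm, h1, smul_zero]
  have h4 := sum_congr rfl fun m (_ : m ∈ univ) => C.spin_comm (h.skew m) (h.proj m) m
  rw [sum_sub_distrib, h3, sum_comm] at h4
  simpa [← sum_smul, h.div c] using h4

end Crest.Agent.X212.Taub88
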