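import Crest.Agent.X212.Taub88.Defs

/-!
# Row 212, TAUB (helper88): complex scalars, Leibniz rules, the master identity
-/

set_option autoImplicit false
set_option linter.unusedSectionVars false

open scoped Manifold ContDiff Topology RealInnerProductSpace ComplexConjugate
open MeasureTheory

noncomputable section

namespace Crest.Agent.X212.Taub88

open Crest.Agent.X212.Sob92

variable {E H : Type*} [NormedAddCommGroup E] [NormedSpace ℝ E] [TopologicalSpace H]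
  {I : ModelWithCorners ℝ E H} {M : Type*} [TopologicalSpace M] [ChartedSpace H M]
  [MeasurableSpace M] {ι V : Type*} [Fintype ι] [NormedAddCommGroup V] [InnerProductSpace ℝ V]
  [IsManifold I 1 M]

theorem md {X : Type*} [NormedAddCommGroup X] [NormedSpace ℝ X] {f : M → X}
    (h : ContMDiff I 𝓘(ℝ, X) ∞ f) (x : M) : MDifferentiableAt I 𝓘(ℝ, X) f x :=
  h.mdifferentiableAt (by simp)

theorem sm_re {α : M → ℂ} (h : ContMDiff I 𝓘(ℝ, ℂ) ∞ α) :
    ContMDiff I 𝓘(ℝ, ℝ) ∞ fun x => (α x).re := Complex.reCLM.contMDiff.comp h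

theorem sm_im {α : M → ℂ} (h : ContMDiff I 𝓘(ℝ, ℂ) ∞ α) :
    ContMDiff I 𝓘(ℝ, ℝ) ∞ fun x => (α x).im := Complex.imCLM.contMDiff.comp h

theorem sm_conj {α : M → ℂ} (h : ContMDiff I 𝓘(ℝ, ℂ) ∞ α) :
    ContMDiff I 𝓘(ℝ, ℂ) ∞ fun x => conj (α x) :=
  (Complex.conjCLE : ℂ →L[ℝ] ℂ).contMDiff.comp h

theorem sm_ofReal {f : M → ℝ} (h : ContMDiff I 𝓘(ℝ, ℝ) ∞ f) :
    ContMDiff I 𝓘(ℝ, ℂ) ∞ fun x => (f x : ℂ) := Complex.ofRealCLM.contMDiff.comp h

theorem sm_inner {φ ψ : M → V} (h : ContMDiff I 𝓘(ℝ, V) ∞ φ) (h' : ContMDiff I 𝓘(ℝ, V) ∞ ψ) :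
    ContMDiff I 𝓘(ℝ, ℝ) ∞ fun x => ⟪φ x, ψ x⟫ := smooth_bil (innerSL ℝ) h h'

namespace Dat

variable (d : Dat I M ι V)

/-- multiplication by a complex number -/
def cm (x : M) (z : ℂ) (v : V) : V := z.re • v + z.im • d.J x v

/-- multiplication by a complex function -/
def cf (α : M → ℂ) (φ : M → V) : M → V := fun x => d.cm x (α x) (φ x)

/-- the covariant derivative of a complex function -/
def dA (a : ι → M → ℝ) (b : ι) (α : M → ℂ) : M → ℂ :=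
  fun x => dv I (d.e b) α x + Complex.I * a b x * α x

variable {d} {a : ι → M → ℝ} {φ ψ : M → V} {α α' : M → ℂ} {x : M} {v w : V}

theorem one_zero : d.One 0 := ⟨fun _ => contMDiff_const, fun _ => ⟨0, fun _ => rfl⟩⟩

theorem Cov.add {y y' : ι → ℝ} (h : d.Cov x y) (h' : d.Cov x y') : d.Cov x (y + y') := by
  obtain ⟨ξ, h⟩ := h
  obtain ⟨ξ', h'⟩ := h'
  exact ⟨ξ + ξ', fun b => by simp [h, h']⟩

theorem Cov.smul {y : ι → ℝ} (h : d.Cov x y) (t : ℝ) : d.Cov x (t • y) := by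
  obtain ⟨ξ, h⟩ := h
  exact ⟨t • ξ, fun b => by simp [h]⟩

theorem cov_dv (f : M → ℝ) (x : M) : d.Cov x fun b => dv I (d.e b) f x :=
  ⟨mfderiv I 𝓘(ℝ, ℝ) f x, fun _ => rfl⟩

theorem nab_eq (a : ι → M → ℝ) (b : ι) (φ : M → V) (x : M) :
    d.nab a b φ x = d.nab 0 b φ x + a b x • d.J x (φ x) := by
  simp [nab]

namespace Cl

variable (h : d.Cl)
include h

theorem cm_mem (z : ℂ) (hv : v ∈ d.F x) : d.cm x z v ∈ d.F x :=
  add_mem (Submodule.smul_mem _ _ hv) (Submodule.smul_mem _ _ (h.J_mem x v hv))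

theorem inner_J (hv : v ∈ d.F x) : ⟪v, d.J x v⟫ = 0 := by
  have := h.J_skew x v hv v hv
  rw [real_inner_comm] at this
  linarith

theorem inner_JJ (hv : v ∈ d.F x) (hw : w ∈ d.F x) : ⟪d.J x v, d.J x w⟫ = ⟪v, w⟫ := by
  rw [h.J_skew x v hv _ (h.J_mem x w hw), h.J_sq x w hw, inner_neg_right, neg_neg]

theorem inner_cm (z : ℂ) (hv : v ∈ d.F x) (hw : w ∈ d.F x) :
    ⟪d.cm x z v, w⟫ = ⟪v, d.cm x (conj z) w⟫ := by
  simp only [cm, inner_add_left, inner_add_right, real_inner_smul_left, real_inner_smul_right,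
    h.J_skew x v hv w hw, Complex.conj_re, Complex.conj_im]
  ring

theorem inner_cm_cm (z z' : ℂ) (hv : v ∈ d.F x) :
    ⟪d.cm x z v, d.cm x z' v⟫ = (z.re * z'.re + z.im * z'.im) * ⟪v, v⟫ := by
  simp only [cm, inner_add_left, inner_add_right, real_inner_smul_left, real_inner_smul_right,
    h.inner_J hv, h.inner_JJ hv hv, h.J_skew x v hv v hv]
  ring

theorem sec_J (hφ : d.Sec φ) : d.Sec fun x => d.J x (φ x) :=
  ⟨h.sm_J.clm_apply hφ.sm, fun x => h.J_mem x _ (hφ.mem x)⟩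

theorem sec_cf (hα : ContMDiff I 𝓘(ℝ, ℂ) ∞ α) (hφ : d.Sec φ) : d.Sec (d.cf α φ) :=
  ⟨((sm_re hα).smul hφ.sm).add ((sm_im hα).smul (h.sec_J hφ).sm),
    fun x => h.cm_mem _ (hφ.mem x)⟩

theorem sm_nab (ha : d.One a) (hφ : d.Sec φ) (b : ι) : ContMDiff I 𝓘(ℝ, V) ∞ (d.nab a b φ) :=
  ((dv_smooth (h.sm_e b) hφ.sm).add ((h.sm_W b).clm_apply hφ.sm)).add
    ((ha.sm b).smul (h.sec_J hφ).sm)

theorem sec_nab (ha : d.One a) (hφ : d.Sec φ) (b : ι) : d.Sec (d.nab a b φ) :=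
  ⟨h.sm_nab ha hφ b, fun x => by
    rw [nab_eq]
    exact add_mem (h.nab_mem b φ hφ x) (Submodule.smul_mem _ _ (h.J_mem x _ (hφ.mem x)))⟩

theorem sm_D (ha : d.One a) (hφ : d.Sec φ) : ContMDiff I 𝓘(ℝ, V) ∞ (d.D a φ) :=
  contMDiff_finsetSum fun b _ => (h.sm_ρ b).clm_apply (h.sm_nab ha hφ b)

theorem sm_dA (ha : d.One a) (hα : ContMDiff I 𝓘(ℝ, ℂ) ∞ α) (b : ι) :
    ContMDiff I 𝓘(ℝ, ℂ) ∞ (d.dA a b α) :=
  (dv_smooth (h.sm_e b) hα).add (smooth_bil (ContinuousLinearMap.mul ℝ ℂ)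
    (smooth_bil (ContinuousLinearMap.mul ℝ ℂ) contMDiff_const (sm_ofReal (ha.sm b))) hα)

theorem nab_J (hφ : d.Sec φ) (b : ι) (x : M) :
    d.nab 0 b (fun x => d.J x (φ x)) x = d.J x (d.nab 0 b φ x) := by
  simp only [nab, dv_app (md h.sm_J x) (md hφ.sm x), Pi.zero_apply, zero_smul, add_zero, map_add,
    ← h.J_par b x _ (hφ.mem x)]
  abel

theorem nab_cf (hα : ContMDiff I 𝓘(ℝ, ℂ) ∞ α) (hφ : d.Sec φ) (a : ι → M → ℝ) (b : ι) (x : M) :
    d.nab a b (d.cf α φ) x = d.cm x (d.dA a b α x) (φ x) + d.cm x (α x) (d.nab 0 b φ x) := by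
  have h1 := dv_add (e := d.e b) (md ((sm_re hα).smul hφ.sm) x)
    (md ((sm_im hα).smul (h.sec_J hφ).sm) x)
  have h2 := dv_smul (e := d.e b) (md (sm_re hα) x) (md hφ.sm x)
  have h3 := dv_smul (e := d.e b) (md (sm_im hα) x) (md (h.sec_J hφ).sm x)
  have h4 : dv I (d.e b) (fun y => (α y).re) x = (dv I (d.e b) α x).re :=
    dv_clm Complex.reCLM (md hα x)
  have h5 : dv I (d.e b) (fun y => (α y).im) x = (dv I (d.e b) α x).im :=
    dv_clm Complex.imCLM (md hα x)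
  have h6 := h.nab_J hφ b x
  have h7 : dv I (d.e b) (d.cf α φ) x = _ := h1.trans (congrArg₂ (· + ·) h2 h3)
  simp only [nab, Pi.zero_apply, zero_smul, add_zero] at h6
  rw [← eq_sub_iff_add_eq] at h6
  simp only [nab, h7, h4, h5, h6, cf, cm, dA, Pi.zero_apply, zero_smul, add_zero, map_add,
    map_smul, h.J_sq x _ (hφ.mem x), Complex.add_re, Complex.add_im, Complex.mul_re,
    Complex.mul_im, Complex.I_re, Complex.I_im, Complex.ofReal_re, Complex.ofReal_im]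
  module

theorem dv_inner (hφ : d.Sec φ) (hψ : d.Sec ψ) (b : ι) (x : M) :
    dv I (d.e b) (fun y => ⟪φ y, ψ y⟫) x = ⟪d.nab 0 b φ x, ψ x⟫ + ⟪φ x, d.nab 0 b ψ x⟫ := by
  have h1 : dv I (d.e b) (fun y => ⟪φ y, ψ y⟫) x =
      ⟪dv I (d.e b) φ x, ψ x⟫ + ⟪φ x, dv I (d.e b) ψ x⟫ :=
    dv_bil (e := d.e b) (innerSL ℝ) (md hφ.sm x) (md hψ.sm x)
  simp only [h1, nab, Pi.zero_apply, zero_smul, add_zero, inner_add_left, inner_add_right,
    h.W_skew b x]
  ring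

theorem inner_nab (hφ : d.Sec φ) (hψ : d.Sec ψ) {t : ℝ} (e : ∀ y, ⟪φ y, ψ y⟫ = t) (b : ι) (x : M) :
    ⟪φ x, d.nab 0 b ψ x⟫ = -⟪d.nab 0 b φ x, ψ x⟫ := by
  have h1 := h.dv_inner hφ hψ b x
  simp only [e, dv_const, Pi.zero_apply] at h1
  linarith

theorem ρ_cm (z : ℂ) (hv : v ∈ d.F x) (b : ι) :
    d.ρ b x (d.cm x z v) = d.cm x z (d.ρ b x v) := by
  simp only [cm, map_add, map_smul, h.ρ_J b x v hv]

end Cl

theorem nab_add (hφ : d.Sec φ) (hψ : d.Sec ψ) (a : ι → M → ℝ) (b : ι) (x : M) :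
    d.nab a b (φ + ψ) x = d.nab a b φ x + d.nab a b ψ x := by
  simp only [nab, dv_add (md hφ.sm x) (md hψ.sm x), Pi.add_apply, map_add, smul_add]
  abel

theorem D_add (hφ : d.Sec φ) (hψ : d.Sec ψ) (a : ι → M → ℝ) (x : M) :
    d.D a (φ + ψ) x = d.D a φ x + d.D a ψ x := by
  simp only [D, nab_add hφ hψ, map_add, Finset.sum_add_distrib]

theorem D_eq (a : ι → M → ℝ) (φ : M → V) (x : M) :
    d.D a φ x = d.D 0 φ x + d.cl x (fun b => a b x) (d.J x (φ x)) := by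
  simp only [D, cl, nab_eq a, map_add, map_smul, Finset.sum_add_distrib]

namespace OK

variable (h : d.OK)
include h

theorem D_cf (hα : ContMDiff I 𝓘(ℝ, ℂ) ∞ α) (a : ι → M → ℝ) (x : M) :
    d.D a (d.cf α d.u) x = d.cl x (fun b => (d.dA a b α x).re) (d.u x) +
      d.cl x (fun b => (d.dA a b α x).im) (d.J x (d.u x)) := by
  have h1 : ∑ b, d.ρ b x (d.nab 0 b d.u x) = 0 := congrFun h.u_har x
  have h2 : ∑ b, d.ρ b x (d.cm x (α x) (d.nab 0 b d.u x)) = 0 := by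
    simp only [h.ρ_cm _ (h.nab_mem _ _ h.u_sec x)]
    simp only [cm, Finset.sum_add_distrib, ← Finset.smul_sum, ← map_sum, h1, map_zero, smul_zero,
      add_zero]
  simp only [D, h.nab_cf hα h.u_sec, map_add, Finset.sum_add_distrib, h2, add_zero]
  simp only [cm, cl, map_add, map_smul, Finset.sum_add_distrib]

theorem inner_b_u (b : ι) (x : M) : ⟪d.nab 0 b d.u x, d.u x⟫ = 0 := by
  have h1 := h.inner_nab h.u_sec h.u_sec h.u_one b x
  rw [real_inner_comm] at h1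
  linarith

theorem inner_b_cm (b : ι) (x : M) (z : ℂ) : ⟪d.nab 0 b d.u x, d.cm x z (d.u x)⟫ = 0 := by
  simp only [cm, inner_add_right, real_inner_smul_right, h.inner_b_u, h.u_can, mul_zero, add_zero]

theorem K_cm (z : ℂ) (hv : v ∈ d.F x) : d.K x (d.cm x z v) = d.cm x z (d.K x v) := by
  simp only [cm, map_add, map_smul, h.K_J x v hv]

end OK

variable [CompactSpace M] [OpensMeasurableSpace M] [IsFiniteMeasure d.μ]

theorem int_of_cont {f : M → ℝ} (hf : Continuous f) : Integrable f d.μ :=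
  hf.integrable_of_hasCompactSupport (HasCompactSupport.of_compactSpace f)

/-- **the master identity** -/
theorem OK.master (h : d.OK) (ha : d.One a) (hα : ContMDiff I 𝓘(ℝ, ℂ) ∞ α) (hψ : d.Sec ψ) :
    ∫ x, ⟪d.D a (d.cf α d.u) x, d.D a ψ x⟫ ∂d.μ =
      ∫ x, (∑ b, (⟪d.cm x (d.dA a b α x) (d.u x), d.nab a b ψ x⟫ -
        ⟪d.cm x (d.dA a b α x) (d.nab 0 b d.u x), ψ x⟫) + ⟪d.T a x (d.cf α d.u x), ψ x⟫) ∂d.μ := by
  have s1 := h.sec_cf hα h.u_sec
  have s2 := h.sec_cf (sm_conj hα) hψ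
  have h1 := h.weitz 0 _ _ one_zero h.u_sec s2
  simp only [h.u_har, Pi.zero_apply, inner_zero_left, integral_zero, h.T_zero,
    zero_apply, add_zero] at h1
  have c1 : Continuous fun x => ∑ b, ⟪d.nab a b (d.cf α d.u) x, d.nab a b ψ x⟫ +
      ⟪d.K x (d.cf α d.u x) + d.T a x (d.cf α d.u x), ψ x⟫ :=
    (continuous_finsetSum _ fun b _ => (h.sm_nab ha s1 b).continuous.inner
      (h.sm_nab ha hψ b).continuous).add (((h.K_cont.clm_apply s1.sm.continuous).add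
        ((h.T_cont a ha).clm_apply s1.sm.continuous)).inner hψ.sm.continuous)
  have c2 : Continuous fun x => ∑ b, ⟪d.nab 0 b d.u x, d.nab 0 b (d.cf (fun y => conj (α y)) ψ) x⟫ +
      ⟪d.K x (d.u x), d.cf (fun y => conj (α y)) ψ x⟫ :=
    (continuous_finsetSum _ fun b _ => (h.sm_nab one_zero h.u_sec b).continuous.inner
      (h.sm_nab one_zero s2 b).continuous).add
        ((h.K_cont.clm_apply h.u_sec.sm.continuous).inner s2.sm.continuous)
  rw [h.weitz a _ _ ha s1 hψ, ← sub_zero (∫ x, _ ∂d.μ), h1,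
    ← integral_sub (int_of_cont c1) (int_of_cont c2)]
  refine integral_congr_ae (Filter.Eventually.of_forall fun x => ?_)
  have e1 : ⟪d.K x (d.cf α d.u x), ψ x⟫ = ⟪d.K x (d.u x), d.cf (fun y => conj (α y)) ψ x⟫ := by
    rw [cf, h.K_cm _ (h.u_sec.mem x), h.inner_cm _ (h.K_mem x _ (h.u_sec.mem x)) (hψ.mem x)]
    rfl
  have e2 : ∀ b, ⟪d.nab a b (d.cf α d.u) x, d.nab a b ψ x⟫ -
      ⟪d.nab 0 b d.u x, d.nab 0 b (d.cf (fun y => conj (α y)) ψ) x⟫ =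
      ⟪d.cm x (d.dA a b α x) (d.u x), d.nab a b ψ x⟫ -
        ⟪d.cm x (d.dA a b α x) (d.nab 0 b d.u x), ψ x⟫ := fun b => by
    have m1 := h.nab_mem b _ h.u_sec x
    have m2 := h.nab_mem b _ hψ x
    have m3 := hψ.mem x
    have e3 : dv I (d.e b) (fun y => conj (α y)) x = conj (dv I (d.e b) α x) :=
      dv_clm (Complex.conjCLE : ℂ →L[ℝ] ℂ) (md hα x)
    rw [h.nab_cf hα h.u_sec, h.nab_cf (sm_conj hα) hψ, inner_add_left, add_sub_assoc,
      sub_eq_add_neg _ ⟪d.cm x (d.dA a b α x) (d.nab 0 b d.u x), ψ x⟫, add_right_inj,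
      h.inner_cm _ m1 ((h.sec_nab ha hψ b).mem x), h.inner_cm _ m1 m3, ← inner_sub_right,
      ← inner_neg_right, nab_eq a]
    congr 1
    simp only [cm, dA, e3, map_add, map_smul, h.J_sq x _ m3, Complex.add_re, Complex.add_im,
      Complex.mul_re, Complex.mul_im, Complex.I_re, Complex.I_im, Complex.ofReal_re,
      Complex.ofReal_im, Complex.conj_re, Complex.conj_im, Pi.zero_apply]
    module
  simp only [← e2, Finset.sum_sub_distrib, inner_add_left, e1]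
  ring

end Dat

end Crest.Agent.X212.Taub88
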