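import Crest.Agent.X212.Taub88.Reg
import Crest.Agent.X212.Mod61.Hs
import Crest.Agent.X212.Spn45.Conn
import Crest.Agent.X212.Std94.Loc
import Crest.Agent.X212.Wz78.Sy

/-!
# Row 212, TAUB (helper88): existence and uniqueness of canonical configurations
-/

set_option autoImplicit false
set_option linter.unusedSectionVars false
noncomputable section
open scoped Manifold ContDiff Topology InnerProductSpace
open MeasureTheory Finset

namespace Crest.Agent.X212.Taub88
open An Wz78 Abel74 Sob92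
open Pj41 (Iso0 Par0 OK.on)

section alg
variable {ι : Type*} [Fintype ι] {V : Type*} [NormedAddCommGroup V] [InnerProductSpace ℝ V]
  [FiniteDimensional ℝ V] {P θ θ' : ι → ι → ℝ} {o : ι → ι → ι → ι → ℝ} {p J π : V →L[ℝ] V}
  {ρ : ι → V →L[ℝ] V} {u v : V} (h : PC P o p J ρ) (hθ : Cx P θ) (hs : SD o θ)
include h hθ hs

theorem PC.Q_J (hu : Qt o p J ρ θ u = u) : Qt o p J ρ θ (J u) = J u := by
  rw [← mul_apply_eq_comp, ← h.J_Q, mul_apply_eq_comp, hu]

theorem PC.pp_of_Q (hu : Qt o p J ρ θ u = u) : pp o p ρ u = u := by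
  rw [← hu, h.pp_Q' hθ hs]

/-- pure spinors of a module of rank eight form a complex line -/
theorem PC.line (h1 : P8 P o π J fun a => ρ a * π) (h2 : ∀ a, π * ρ a = ρ a * π)
    (hu : Qt o p J ρ θ u = u) (hv : Qt o p J ρ θ v = v) (πu : π u = u) (πv : π v = v) (u0 : u ≠ 0)
    (o1 : ⟪u, v⟫_ℝ = 0) (o2 : ⟪J u, v⟫_ℝ = 0) : v = 0 := by
  have pu := h.p_of (h.pp_J (h.pp_of_Q hθ hs hu))
  have e := congrArg (fun T => ⟪T (J u), v⟫_ℝ) (h.Q_spin_Q hθ hs (X := mm J ρ u v) fun a b => by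
    simp only [mm, h.rel a b, pu, inner_sub_left, inner_neg_left, real_inner_smul_left, o2]; ring)
  simp only [mul_apply_eq_comp, h.Q_s hθ, hv, h.Q_J hθ hs hu, smul_apply, real_inner_smul_left,
    h.J_J (h.p_of (h.pp_of_Q hθ hs hu)), inner_neg_left, o1] at e
  have e' := h.dot_mm8 h1 h2 (h.pp_of_Q hθ hs hu) (h.pp_of_Q hθ hs hv) πu πv v
  rw [dot_mm, e] at e'
  simpa [u0] using e'.symm

theorem PC.norm_Q (hθ' : Cx P θ') (hs' : SD o θ') (hu : Qt o p J ρ θ u = u) :
    ‖Qt o p J ρ θ' u‖ ^ 2 = ‖u‖ ^ 2 * (4 + dot θ θ') / 8 := by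
  have e := h.dot_mm_θ hθ' hs' (h.pp_of_Q hθ hs hu)
  rw [funext₂ (h.mm_Q hθ hs hu), dot_mul, dot_comm] at e
  linarith

end alg

variable {E : Type} [NormedAddCommGroup E] [NormedSpace ℝ E] [FiniteDimensional ℝ E]
  [MeasurableSpace E] [BorelSpace E]
  {HM : Type} [TopologicalSpace HM] {I : ModelWithCorners ℝ E HM}
  {M : Type} [TopologicalSpace M] [ChartedSpace HM M] [IsManifold I ∞ M]
  [MeasurableSpace M] {ι : Type} [Fintype ι] {lam : Type} [Fintype lam]
  {B : Base M ι lam} {G : Geo I M ι lam} {m : Md M ι lam} {θ θ' : ι → ι → M → ℝ} {u : M → m.V}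
  {ξ : M → m.A} {r : ℝ}

variable (I B m θ) in
/-- a module with a unit pure spinor and the complex structure of the complement -/
structure Xi (u : M → m.V) (ξ : M → m.A) : Prop where
  ok : m.OK I B
  th : Th I B θ
  pu : Pu I B m θ Set.univ u
  sm : Sm I ξ
  mem : ∀ x, ξ x ∈ m.gS x
  sq : ∀ x, opL (ξ x) * opL (ξ x) = -m.p x
  fix : ∀ x, opL (ξ x) (u x) = m.J (u x)

theorem exists_xi (hI : IsoStmt I M ι lam) (hB : B.OK I) (h : Th I B θ) (H : m.OK I B)
    (U : Pu I B m θ Set.univ u) : ∃ ξ, Xi I B m θ u ξ := by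
  have pu := fun x => (pc hB H x).p_of ((pc hB H x).pp_of_Q (h.cx x) (h.sd x) (U.Q x trivial))
  obtain ⟨T, h1, h2⟩ := hI B θ m m _ u (fun x => m.J (u x)) hB h isOpen_univ (OK.on H _) (OK.on H _)
    U ⟨fun x hx => SA.clm _ (U.sm x hx), fun x hx => ((pc hB H x).norm_J (pu x)).trans (U.one x hx),
      fun x hx => (pc hB H x).Q_J (h.cx x) (h.sd x) (U.Q x hx)⟩
  have k : ∀ x, hsL (T x) ∈ m.gS x ∧ ‖hsL (T x)‖ ^ 2 = 16 := fun x => by
    obtain ⟨t, η, k1, k2, k3⟩ := Std94.iso0_aut hB (Std94.pmx H x) h1 (Set.mem_univ x)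
    have e := congrArg (⟪·, u x⟫_ℝ) (h2 x trivial)
    simp only [k2, add_apply, smul_apply, pu, inner_add_left, real_inner_smul_left,
      (pc hB H x).inner_J, Skew.self (g_skw k1), real_inner_self_eq_norm_sq, U.one x trivial] at e
    have : t = 0 := by linarith
    rw [this] at k2 k3
    rw [k2, zero_smul, zero_add, hsL_opL]
    exact ⟨k1, by linarith⟩
  exact ⟨fun x => hsL (T x), H, h, U, fun x => SA.clm _ (h1.su x trivial), fun x => (k x).1,
    fun x => sq_of_norm hB H (k x).1 (k x).2, fun x => by rw [opL_hsL, h2 x trivial]⟩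

theorem g_Q (H : m.OK I B) {x : M} {η : m.A} (h : η ∈ m.gS x) (v : m.V) :
    opL η (Qm B m θ x v) = Qm B m θ x (opL η v) :=
  DFunLike.congr_fun (comm_Q (o := fun a b c d => B.o a b c d x) (θ := fun a b => θ a b x)
    (fun a => (g_ρ h a).symm) ((g_p' H h).trans (g_p h).symm) (g_J h).symm) v

theorem sm_Qm (hB : B.OK I) (H : m.OK I B) (h : Th I B θ) : Sm I (Qm B m θ) := fun x =>
  SA.smul contMDiffAt_const ((Std94.sm_pp hB H x).sub
    ((sm_sp (fun a => H.sρ a x) fun a b => h.sm a b x).mul contMDiffAt_const))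

/-- change of the complex structure -/
theorem Xi.chg (hB : B.OK I) (h : Xi I B m θ u ξ) (h' : Th I B θ')
    (hd : ∀ x, -4 < dot (fun a b => θ a b x) fun a b => θ' a b x) : ∃ v, Xi I B m θ' v ξ := by
  have P := pc hB h.ok
  have n : ∀ x, Qm B m θ' x (u x) ≠ 0 := fun x e => by
    have := (P x).norm_Q (h.th.cx x) (h.th.sd x) (h'.cx x) (h'.sd x) (h.pu.Q x trivial)
    rw [show Qt _ _ _ _ _ (u x) = 0 from e, h.pu.one x trivial, norm_zero] at this
    linarith [hd x]
  have s : ∀ x, SA I (fun y => Qm B m θ' y (u y)) x := fun x =>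
    SA.app (sm_Qm hB h.ok h' x) (h.pu.sm x trivial)
  refine ⟨fun x => ‖Qm B m θ' x (u x)‖⁻¹ • Qm B m θ' x (u x), h.ok, h', ⟨fun x _ => SA.smul
    (((contDiffAt_norm ℝ (n x)).contMDiffAt.comp x (s x)).inv₀ (norm_ne_zero_iff.2 (n x))) (s x),
    fun x _ => norm_smul_inv_norm (n x), fun x _ => ?_⟩, h.sm, h.mem, h.sq, fun x => ?_⟩
  · rw [map_smul]
    exact congrArg _ ((P x).Q_Q' (h'.cx x) (h'.sd x) _)
  · rw [map_smul, map_smul, g_Q h.ok (h.mem x), h.fix]
    exact congrArg _ (congrArg (· (u x)) (P x).J_Q).symm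

variable [I.Boundaryless] [T2Space M] [BorelSpace M] [SecondCountableTopology M]

theorem Xi.red (hB : B.OK I) (hG : G.OK B) (h : Xi I B m θ u ξ) :
    ∃ W, m.IsConn B G W ∧ Red G.F m W ξ := by
  obtain ⟨W, C⟩ := Spn45.exists_conn hB hG h.ok
  have F := gfrm hG
  have g := fun a x => nab_mem_g h.ok C a (h.sm x) h.mem
  have n := fun x => norm_sq h.ok (h.mem x) (h.sq x)
  refine ⟨_, Mod61.isConn_addC h.ok C (β := fun x => WithLp.toLp 2 fun a =>
    (-1 / 4 : ℝ) • adc (opL (ξ x)) (nab I G.F.e (m.adW W) a ξ x)) (fun a x => ?_)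
    (fun x a => Submodule.smul_mem _ _ (adc_mem (h.mem x) (g a x))) fun x a => ?_,
    h.sm, h.mem, h.sq, fun a x => ?_⟩
  · exact SA.smul contMDiffAt_const (SA.app (SA.clm adcL (SA.clm opL (h.sm x)))
      (F.sN (fun a => (con_adW C).sm a x) a (h.sm x)))
  · simp only [smul_comm (B.P _ _ x), ← smul_sum, ← map_smul, ← map_sum, F.projN (con_adW C)]
  · have e := dv_inner (e := G.F.e) (A := m.adW W) a (adW_skw C a x) (h.sm x) (h.sm x)
    simp only [real_inner_self_eq_norm_sq, n, dv_const, Pi.zero_apply, real_inner_comm (ξ x)] at e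
    have e1 := Std94.adc_adc hB (Std94.pmx h.ok x) (h.mem x) (g a x)
    rw [n, show ⟪ξ x, _⟫_ℝ = 0 by linarith] at e1
    have e2 : ∀ η : m.A, adc (opL η) (ξ x) = -adc (opL (ξ x)) η := fun η => by
      rw [adc_apply, adc_apply, ← map_neg, neg_sub]
    change dv I _ ξ x + adc (W a x + opL _) (ξ x) = 0
    rw [← adcL_apply, map_add, add_apply, ← add_assoc, adcL_apply, adcL_apply, e2, map_smul, e1]
    change nab I G.F.e (m.adW W) a ξ x + _ = 0
    module

theorem Xi.red' (hB : B.OK I) (hG : G.OK B) (h : Xi I B m θ u ξ) : ∃ W, m.IsConn B G W ∧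
    Red G.F m W ξ ∧ ∀ a x, ⟪m.J (u x), nab I G.F.e W a u x⟫_ℝ = 0 := by
  obtain ⟨W, C, R⟩ := h.red hB hG
  have F := gfrm hG
  have P := pc hB h.ok
  have su := fun x => h.pu.sm x trivial
  refine ⟨_, Mod61.isConn_addC h.ok C (β := fun x => WithLp.toLp 2 fun a =>
    -⟪m.J (u x), nab I G.F.e W a u x⟫_ℝ • ξ x) (fun a x => SA.smul ((SA.inner (SA.clm _ (su x))
      (F.sN (fun a => C.cc.sm a x) a (su x))).neg) (h.sm x))
    (fun x a => Submodule.smul_mem _ _ (h.mem x)) fun x a => ?_,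
    ⟨h.sm, h.mem, h.sq, fun a x => ?_⟩, fun a x => ?_⟩
  · simp only [smul_smul, ← sum_smul, mul_neg, ← real_inner_smul_right, sum_neg_distrib,
      ← inner_sum, F.projN C.cc.toCon]
  · change dv I _ ξ x + adc (W a x + opL (-⟪m.J (u x), nab I G.F.e W a u x⟫_ℝ • ξ x)) (ξ x) = 0
    rw [← adcL_apply, map_add, add_apply, ← add_assoc, map_smul, map_smul, smul_apply, adcL_apply,
      adcL_apply, adc_apply (opL _), sub_self, map_zero, smul_zero, add_zero]
    exact R.par a x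
  · change ⟪_, dv I _ u x + (W a x + opL (-⟪m.J (u x), nab I G.F.e W a u x⟫_ℝ • ξ x)) (u x)⟫_ℝ = 0
    rw [add_apply, ← add_assoc, map_smul, smul_apply, h.fix, inner_add_right,
      real_inner_smul_right, real_inner_self_eq_norm_sq, (P x).norm_J ((P x).p_of
        ((P x).pp_of_Q (h.th.cx x) (h.th.sd x) (h.pu.Q x trivial))), h.pu.one x trivial]
    change ⟪_, nab I G.F.e W a u x⟫_ℝ + _ = 0
    ring

/-- **existence** -/
theorem Xi.cn (hB : B.OK I) (hG : G.OK B) (h : Xi I B m θ u ξ) (hr : 0 ≤ r) :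
    ∃ W, Cn B G θ r ⟨m, W, fun x => √r • u x, 0⟩ ξ := by
  obtain ⟨W, C, R, k⟩ := h.red' hB hG
  have P := pc hB h.ok
  have su := fun x => h.pu.sm x trivial
  have pp := fun x => (P x).pp_of_Q (h.th.cx x) (h.th.sd x) (h.pu.Q x trivial)
  have hu := fun x => hf_fix h.ok (h.mem x) ((P x).p_of (pp x)) (h.fix x)
  refine ⟨W, ⟨h.ok, C, fun x => SA.smul contMDiffAt_const (su x), fun x => ?_, .inl rfl⟩,
    ⟨R, fun x => ?_⟩, fun x => ?_, fun x => ?_, fun a x => ?_⟩
  · exact (map_smul _ _ _).trans (congrArg _ (pp x))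
  · exact (map_smul _ _ _).trans ((congrArg _ (h.fix x)).trans (map_smul _ _ _).symm)
  · exact (map_smul _ _ _).trans (congrArg _ (h.pu.Q x trivial))
  · change ‖√r • u x‖ ^ 2 = r
    rw [norm_smul, h.pu.one x trivial, mul_one, Real.norm_eq_abs, sq_abs, Real.sq_sqrt hr]
  · change Qm B m θ x (nab I G.F.e W a (fun y => √r • u y) x) = 0
    rw [nab_csmul a _ (su x), map_smul, smul_eq_zero]
    refine .inr ((P x).line (h.th.cx x) (h.th.sd x) (p8 hB h.ok R x)
      (fun a => (rho_hf h.ok (h.mem x) a).symm) (h.pu.Q x trivial)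
      ((P x).Q_Q' (h.th.cx x) (h.th.sd x) _) (hu x) ?_
      (norm_ne_zero_iff.1 ((h.pu.one x trivial).symm ▸ one_ne_zero)) ?_ ?_)
    · have e := nab_app' (e := G.F.e) (A := W) a (R.sm_hf h.ok x) (su x)
      rw [R.hf_par h.ok C, funext hu, zero_apply, zero_add] at e
      rw [← mul_apply_eq_comp, Qm, Qf, comm_Q (fun a => (rho_hf h.ok (h.mem x) a).symm)
        (hf_comm h.ok (h.mem x) rfl (h.ok.Jp x).symm ((g_p (h.mem x)).trans
          (g_p' h.ok (h.mem x)).symm)).symm (J_hf h.ok (h.mem x)).symm, mul_apply_eq_comp, ← e]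
    · have e := dv_inner (e := G.F.e) a (C.sk a x) (su x) (su x)
      simp only [real_inner_self_eq_norm_sq, h.pu.one _ trivial, dv_const, Pi.zero_apply,
        real_inner_comm (u x)] at e
      rw [Qm, Qf, ← (P x).Q_s (h.th.cx x), show Qt _ _ _ _ _ (u x) = u x from h.pu.Q x trivial]
      linarith
    · rw [Qm, Qf, ← (P x).Q_s (h.th.cx x), (P x).Q_J (h.th.cx x) (h.th.sd x) (h.pu.Q x trivial), k]

theorem nabH_itw {V V' : Type} [NormedAddCommGroup V] [InnerProductSpace ℝ V]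
    [NormedAddCommGroup V'] [InnerProductSpace ℝ V'] {e : ι → (x : M) → TangentSpace I x}
    {A : ι → M → V →L[ℝ] V} {A' : ι → M → V' →L[ℝ] V'} {U : M → V →L[ℝ] V'} {S : M → V →L[ℝ] V}
    {S' : M → V' →L[ℝ] V'} {x : M} (a : ι) (hU : SA I U x) (hS : SA I S x) (hS' : SA I S' x)
    (h : ∀ y, S' y ∘L U y = U y ∘L S y) (h' : nabE I e A' a S' x ∘L U x = U x ∘L nabE I e A a S x)
    (v : V) : nabH I e A A' a U x (S x v) = S' x (nabH I e A A' a U x v) := by
  have e1 := nabH_comp (e := e) (A := A) (A' := A') (A'' := A') a hS' hU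
  rw [funext h, nabH_comp (A' := A) a hU hS, nabH_self, nabH_self, h', add_comm] at e1
  exact DFunLike.congr_fun (add_left_cancel e1) v

variable {m' : Md M ι lam} {W : m.Cn} {W' : m'.Cn} {U : M → CL m.V m'.V}

theorem itx_nabH (C : m.IsConn B G W) (C' : m'.IsConn B G W') (H : m.OK I B) (H' : m'.OK I B)
    (h : Iso0 I m m' Set.univ U) (a : ι) (x : M) : Std94.Itx m m' x (nabH I G.F.e W W' a U x) := by
  have s := h.su x trivial
  have j : ∀ {m : Md M ι lam} {W : m.Cn}, m.IsConn B G W → m.OK I B → ∀ t,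
      nabE I G.F.e W a (fun y => m.j y t) x = m.j x (nab I G.F.e G.a a (fun _ => t) x) :=
    fun C H t => nabE_j C H a contMDiffAt_const
  have one : ∀ {m : Md M ι lam} {W : m.Cn}, nabE I G.F.e W a (fun _ => 1) x = 0 := by simp [nabE]
  refine ⟨fun v => (nabH_itw (S := fun _ => 1) a s contMDiffAt_const (H'.sp x)
      (fun y => (h.iso y trivial).left) ?_ v).symm,
    fun v => nabH_itw (S' := fun _ => 1) a s (H.sp x) contMDiffAt_const
      (fun y => (h.iso y trivial).idem.symm) ?_ v,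
    fun b => nabH_itw a s (H.sρ b x) (H'.sρ b x) (fun y => h.ρ y trivial b) ?_,
    nabH_itw a s contMDiffAt_const contMDiffAt_const (fun y => h.J y trivial) ?_,
    fun t => nabH_itw a s (SA.app (H.sj x) contMDiffAt_const) (SA.app (H'.sj x) contMDiffAt_const)
      (fun y => h.j y trivial t) ?_⟩
  · rw [one, show nabE I G.F.e W' a m'.p x = 0 from C'.cc.par a x]
    simp
  · rw [one, show nabE I G.F.e W a m.p x = 0 from C.cc.par a x]
    simp
  · rw [show nabE I G.F.e W' a _ x = _ from C'.cc.comp a b x,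
      show nabE I G.F.e W a _ x = _ from C.cc.comp a b x]
    simp only [ContinuousLinearMap.finsetSum_comp, ContinuousLinearMap.comp_finsetSum,
      ContinuousLinearMap.smul_comp, ContinuousLinearMap.comp_smul, h.ρ x trivial]
  · rw [nabE_J C, nabE_J C']
    simp
  · rw [j C H, j C' H', h.j x trivial]

/-- **canonical configurations are isomorphic** -/
theorem Cn.iso (hI : IsoStmt I M ι lam) (hB : B.OK I) (hG : G.OK B) (K : Ak B G.F θ)
    {c c' : Cfg M ι lam 0} {ξ : M → c.m.A} {ξ' : M → c'.m.A} (h : Cn B G θ r c ξ)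
    (h' : Cn B G θ r c' ξ') (hr : 0 < r) : Cfg.Iso B G.F c c' := by
  have s0 : √r ≠ 0 := (Real.sqrt_pos.2 hr).ne'
  have pu : ∀ {c : Cfg M ι lam 0} {ξ : M → c.m.A}, Cn B G θ r c ξ →
      Pu I B c.m θ Set.univ fun x => (√r)⁻¹ • c.Φ x := fun {c ξ} h =>
    ⟨fun x _ => SA.smul contMDiffAt_const (h.adm.sm x), fun x _ => by
      rw [norm_smul, ← h.nrm x, Real.sqrt_sq (norm_nonneg _), norm_inv, norm_norm, inv_mul_cancel₀]
      rwa [← h.nrm x, Real.sqrt_sq (norm_nonneg _)] at s0, fun x _ => by rw [map_smul, h.Q]⟩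
  have H := h.adm.ok
  have H' := h'.adm.ok
  obtain ⟨U, h1, h2⟩ := hI B θ c.m c'.m _ _ _ hB K.toTh isOpen_univ (OK.on H _) (OK.on H' _)
    (pu h) (pu h')
  have h3 : ∀ x, U x (c.Φ x) = c'.Φ x := fun x =>
    smul_right_injective _ (inv_ne_zero s0) ((map_smul _ _ _).symm.trans (h2 x trivial))
  refine ⟨U, 1, h1.mEq (OK.on H _) (OK.on H' _), (Pj41.par0_iff fun a x _ => ?_).1 fun x _ a => ?_,
    fun x _ => by simp [cs, h3], Subsingleton.elim _ _⟩
  · simp only [(hB.pr x).symm _ a, h'.adm.conn.cc.proj]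
  · have T := tm_of hB hG H h.adm.conn K
    have T' := tm_of hB hG H' h'.adm.conn K
    have e := nab_hom (e := G.F.e) (A := c.W) (A' := c'.W) a (h1.su x trivial) (h.adm.sm x)
    have ρ : ∀ b v, U x (c.m.ρ b x v) = c'.m.ρ b x (U x v) := fun b v =>
      (DFunLike.congr_fun (h1.ρ x trivial b) v).symm
    have J : U x (c.m.J (c.Φ x)) = c'.m.J (c'.Φ x) :=
      (DFunLike.congr_fun (h1.J x trivial) _).symm.trans (congrArg _ (h3 x))
    rw [funext h3, T.nab_eq h.adm.sm h.Q h.par, T'.nab_eq h'.adm.sm h'.Q h'.par, T.N_eq,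
      T'.N_eq] at e
    simp only [sp, spin, smul_apply, mul_apply_eq_comp, _root_.sum_apply, map_smul, map_sum, ρ, J,
      right_eq_add] at e
    have n := (Std94.itx_norm hB (Std94.pmx H x) (Std94.pmx H' x)
      (itx_nabH h.adm.conn h'.adm.conn H H' h1 a x)).1
    have e1 := DFunLike.congr_fun n (c.Φ x)
    rw [ContinuousLinearMap.comp_apply, e, map_zero, smul_apply, (pc hB H x).p_of (h.adm.pos x),
      eq_comm, smul_eq_zero] at e1
    rw [e1.resolve_right fun e2 => by have := h.nrm x; rw [e2] at this; simp [← this] at hr,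
      zero_smul] at n
    rw [add_sub_assoc]
    exact ContinuousLinearMap.adjoint_comp_self_eq_zero_iff.1 n

end Crest.Agent.X212.Taub88
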