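import Crest.Agent.X212.Sob92.Der

/-!
# Row 212, TAUB (helper88): data of the Taubes point

`Dat` : frame `e`, measure, connection `dv e_b + W_b`, complex structure `J`, Clifford action `ρ`,
fibres `F` of the positive spinors, a unit spinor `u`, the curvature terms `K` and `T a`.
-/

set_option autoImplicit false

open scoped Manifold ContDiff Topology RealInnerProductSpace
open MeasureTheory

noncomputable section

namespace Crest.Agent.X212.Taub88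

open Crest.Agent.X212.Sob92

/-- the data -/
structure Dat {E H : Type*} [NormedAddCommGroup E] [NormedSpace ℝ E] [TopologicalSpace H]
    (I : ModelWithCorners ℝ E H) (M : Type*) [TopologicalSpace M] [ChartedSpace H M]
    [MeasurableSpace M] (ι V : Type*) [NormedAddCommGroup V] [InnerProductSpace ℝ V] where
  e : ι → (x : M) → TangentSpace I x
  μ : Measure M
  W : ι → M → V →L[ℝ] V
  J : M → V →L[ℝ] V
  ρ : ι → M → V →L[ℝ] V
  F : M → Submodule ℝ V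
  u : M → V
  K : M → V →L[ℝ] V
  T : (ι → M → ℝ) → M → V →L[ℝ] V

variable {E H : Type*} [NormedAddCommGroup E] [NormedSpace ℝ E] [TopologicalSpace H]
  {I : ModelWithCorners ℝ E H} {M : Type*} [TopologicalSpace M] [ChartedSpace H M]
  [MeasurableSpace M] {ι V : Type*} [Fintype ι] [NormedAddCommGroup V] [InnerProductSpace ℝ V]

namespace Dat

variable (d : Dat I M ι V)

/-- smooth sections -/
structure Sec (φ : M → V) : Prop where
  sm : ContMDiff I 𝓘(ℝ, V) ∞ φ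
  mem : ∀ x, φ x ∈ d.F x

/-- frame components of a covector -/
def Cov (x : M) (y : ι → ℝ) : Prop := ∃ ξ : TangentSpace I x →L[ℝ] ℝ, ∀ b, y b = ξ (d.e b x)

/-- smooth one-forms -/
structure One (a : ι → M → ℝ) : Prop where
  sm : ∀ b, ContMDiff I 𝓘(ℝ, ℝ) ∞ (a b)
  cov : ∀ x, d.Cov x fun b => a b x

/-- the covariant derivative of the connection `∇ + i a` -/
def nab (a : ι → M → ℝ) (b : ι) (φ : M → V) : M → V :=
  fun x => dv I (d.e b) φ x + d.W b x (φ x) + a b x • d.J x (φ x)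

/-- the Dirac operator of the connection `∇ + i a` -/
def D (a : ι → M → ℝ) (φ : M → V) : M → V := fun x => ∑ b, d.ρ b x (d.nab a b φ x)

/-- Clifford multiplication by a covector -/
def cl (x : M) (y : ι → ℝ) (v : V) : V := ∑ b, y b • d.ρ b x v

/-- the trace free part of `φ ψ^*` -/
def q (x : M) (φ ψ v : V) : V :=
  ⟪ψ, v⟫ • φ + ⟪d.J x ψ, v⟫ • d.J x φ - (⟪φ, ψ⟫ / 2) • v

/-- properties of the data which do not involve the unit spinor -/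
structure Cl [IsManifold I 1 M] : Prop where
  sm_e : ∀ b, ContMDiff I I.tangent ∞ fun x => (⟨x, d.e b x⟩ : TangentBundle I M)
  sm_W : ∀ b, ContMDiff I 𝓘(ℝ, V →L[ℝ] V) ∞ (d.W b)
  sm_J : ContMDiff I 𝓘(ℝ, V →L[ℝ] V) ∞ d.J
  sm_ρ : ∀ b, ContMDiff I 𝓘(ℝ, V →L[ℝ] V) ∞ (d.ρ b)
  W_skew : ∀ b x v w, ⟪d.W b x v, w⟫ = -⟪v, d.W b x w⟫
  J_mem : ∀ x, ∀ v ∈ d.F x, d.J x v ∈ d.F x
  J_sq : ∀ x, ∀ v ∈ d.F x, d.J x (d.J x v) = -v
  J_skew : ∀ x, ∀ v ∈ d.F x, ∀ w ∈ d.F x, ⟪d.J x v, w⟫ = -⟪v, d.J x w⟫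
  J_par : ∀ b x, ∀ v ∈ d.F x, dv I (d.e b) d.J x v + d.W b x (d.J x v) = d.J x (d.W b x v)
  nab_mem : ∀ b φ, d.Sec φ → ∀ x, d.nab 0 b φ x ∈ d.F x
  ρ_J : ∀ b x, ∀ v ∈ d.F x, d.ρ b x (d.J x v) = d.J x (d.ρ b x v)
  cliff : ∀ x y, d.Cov x y → ∀ v ∈ d.F x, ∀ w ∈ d.F x,
    ⟪d.cl x y v, d.cl x y w⟫ = (∑ b, y b ^ 2) * ⟪v, w⟫

/-- properties of the data -/
structure OK [IsManifold I 1 M] : Prop extends d.Cl where
  K_cont : Continuous d.K
  K_J : ∀ x, ∀ v ∈ d.F x, d.K x (d.J x v) = d.J x (d.K x v)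
  K_mem : ∀ x, ∀ v ∈ d.F x, d.K x v ∈ d.F x
  T_cont : ∀ a, d.One a → Continuous (d.T a)
  T_zero : d.T 0 = 0
  weitz : ∀ a φ ψ, d.One a → d.Sec φ → d.Sec ψ →
    ∫ x, ⟪d.D a φ x, d.D a ψ x⟫ ∂d.μ =
      ∫ x, (∑ b, ⟪d.nab a b φ x, d.nab a b ψ x⟫ + ⟪d.K x (φ x) + d.T a x (φ x), ψ x⟫) ∂d.μ
  u_sec : d.Sec d.u
  u_one : ∀ x, ⟪d.u x, d.u x⟫ = 1
  u_can : ∀ b x, ⟪d.nab 0 b d.u x, d.J x (d.u x)⟫ = 0
  u_har : d.D 0 d.u = 0

/-- the Seiberg-Witten equations with Taubes' perturbation -/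
structure SW (c r : ℝ) (a : ι → M → ℝ) (φ : M → V) : Prop where
  one : d.One a
  sec : d.Sec φ
  dir : d.D a φ = 0
  cur : ∀ x, ∀ v ∈ d.F x, d.T a x v = c • (d.q x (φ x) (φ x) v - r • d.q x (d.u x) (d.u x) v)

/-- their linearisation at `(0, s u)` -/
structure Lin (c s : ℝ) (a : ι → M → ℝ) (ψ : M → V) : Prop where
  one : d.One a
  sec : d.Sec ψ
  dir : ∀ x, d.D 0 ψ x + s • d.cl x (fun b => a b x) (d.J x (d.u x)) = 0
  cur : ∀ x, ∀ v ∈ d.F x, d.T a x v = (c * s) • (d.q x (d.u x) (ψ x) v + d.q x (ψ x) (d.u x) v)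

end Dat

end Crest.Agent.X212.Taub88
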