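import Crest.Agent.X212.Taub88.Key

/-!
# Row 212, TAUB (helper88): the degree inequality, with an error term
-/

set_option autoImplicit false
set_option linter.unusedSectionVars false

open scoped Manifold ContDiff Topology InnerProductSpace
open Finset Filter MeasureTheory

noncomputable section
namespace Crest.Agent.X212.Taub88
open Wz78 Sob92 An

section alg
variable {ι : Type*} [Fintype ι] {V : Type*} [NormedAddCommGroup V] [InnerProductSpace ℝ V]
  [FiniteDimensional ℝ V] {P θ : ι → ι → ℝ} {o : ι → ι → ι → ι → ℝ} {p J : V →L[ℝ] V}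
  {ρ : ι → V →L[ℝ] V} {v : V}

theorem PC.spin_mm (h : PC P o p J ρ) {g : ι → ι → ℝ} (hg : ∀ a b, g a b = -g b a)
    (hv : pp o p ρ v = v) (w : V) : dot g (mm J ρ v w) = dot (sdp o g) (mm J ρ v w) := by
  rw [dot_mm, dot_mm, h.spin_sd hg, mul_apply_eq_comp, h.pp_J hv]

variable (h : PC P o p J ρ) (hθ : Cx P θ) (hs : SD o θ) (hv : pp o p ρ v = v)
include h hθ hs hv

omit hv in
theorem PC.pp_Q' (v : V) : pp o p ρ (Qt o p J ρ θ v) = Qt o p J ρ θ v :=
  congrArg (· v) (h.pp_Q hθ hs)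

omit hv in
theorem PC.Q_Q' (v : V) : Qt o p J ρ θ (Qt o p J ρ θ v) = Qt o p J ρ θ v :=
  congrArg (· v) (h.Q_Q hθ hs)

omit hv in
theorem PC.inner_Q (v : V) : ⟪v, Qt o p J ρ θ v⟫_ℝ = ‖Qt o p J ρ θ v‖ ^ 2 := by
  rw [← real_inner_self_eq_norm_sq, h.Q_s hθ, h.Q_Q' hθ hs]

omit hv in
theorem PC.dot_θ_Q (v w : V) : dot θ (mm J ρ (Qt o p J ρ θ v) w) = -4 * ⟪Qt o p J ρ θ v, w⟫_ℝ := by
  have e1 : J (Qt o p J ρ θ v) = Qt o p J ρ θ (J v) := congrArg (· v) h.J_Q
  have e2 : spin ρ θ (Qt o p J ρ θ (J v)) = J (Qt o p J ρ θ (J v)) :=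
    congrArg (· (J v)) (h.S_Q hθ hs)
  rw [dot_mm, e1, e2, ← e1, h.J_J (by rw [← mul_apply_eq_comp, h.p_Q]), inner_neg_left]
  ring

theorem PC.fierz_Q (h8 : In8 P o J ρ v) :
    dot (mm J ρ v v) (mm J ρ (Qt o p J ρ θ v) v) = 4 * ‖v‖ ^ 2 * ‖Qt o p J ρ θ v‖ ^ 2 := by
  rw [h.fierz8 h8 hv (h.pp_Q' hθ hs v) fun π h1 h2 h3 => ?_, h.inner_Q hθ hs]
  have e1 : π (omA o ρ v) = omA o ρ v := by
    rw [← mul_apply_eq_comp, comm_om h1, mul_apply_eq_comp, h3]
  have e2 : π (spin ρ θ (J v)) = spin ρ θ (J v) := by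
    rw [← mul_apply_eq_comp, comm_spin h1, mul_apply_eq_comp, ← mul_apply_eq_comp π, h2,
      mul_apply_eq_comp, h3]
  simp only [Qt, smul_apply, sub_apply, hv, map_smul, map_sub, h3, mul_apply_eq_comp, e2]

theorem PC.eqT (h8 : In8 P o J ρ v) {g er : ι → ι → ℝ} {k r : ℝ} (hg : ∀ a b, g a b = -g b a)
    (eq : sdp o g = fun a b => k * (mm J ρ v v a b + r * θ a b) + er a b) :
    dot g (mm J ρ (Qt o p J ρ θ v) v) / 2 = 4 * k / 2 * (‖Qt o p J ρ θ v‖ ^ 2 * (‖v‖ ^ 2 - r)) +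
      dot er (mm J ρ (Qt o p J ρ θ v) v) / 2 := by
  rw [h.spin_mm hg (h.pp_Q' hθ hs _), eq, dot_comm]
  simp only [dot_add, dot_mul]
  simp only [dot_comm (mm J ρ (Qt o p J ρ θ v) v), h.fierz_Q hθ hs hv h8, h.dot_θ_Q hθ hs,
    real_inner_comm v, h.inner_Q hθ hs]
  ring

theorem PC.eqC {g er : ι → ι → ℝ} {k r : ℝ}
    (eq : sdp o g = fun a b => k * (mm J ρ v v a b + r * θ a b) + er a b) :
    dot g θ = dot er θ - 4 * k * (‖Qt o p J ρ θ v‖ ^ 2 - ‖v - Qt o p J ρ θ v‖ ^ 2 - r) := by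
  obtain ⟨U, hU⟩ := h.on
  rw [← hs.dot_sdp hU, eq, dot_comm, norm_sub_sq_real, h.inner_Q hθ hs]
  simp only [dot_add, dot_mul, h.dot_mm_θ hθ hs hv, hθ.dot_self h.four, dot_comm θ er]
  ring

/-- the two error tensors -/
theorem PC.err_le {r R : ℝ} (hR : ‖v‖ ^ 2 ≤ R) : let α := Qt o p J ρ θ v
    let X := (‖α‖ ^ 2 - r) ^ 2 + ‖v - α‖ ^ 2
    dot (fun a b => mm J ρ α v a b + r * θ a b) (fun a b => mm J ρ α v a b + r * θ a b) ≤
      (8 + 32 * R) * X ∧
    dot (fun a b => mm J ρ v v a b + r * θ a b) (fun a b => mm J ρ v v a b + r * θ a b) ≤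
      (16 + 96 * R) * X := by
  intro α X
  have pα : p α = α := congrArg (· v) h.p_Q
  have py : ‖v‖ ^ 2 = ‖α‖ ^ 2 + ‖v - α‖ ^ 2 := by
    rw [norm_sub_sq_real, h.inner_Q hθ hs]; ring
  have e1 : (fun a b => mm J ρ α v a b + r * θ a b) =
      fun a b => (r - ‖α‖ ^ 2) * θ a b + mm J ρ α (v - α) a b := by
    funext a b
    conv_lhs => rw [← add_sub_cancel α v, mm_add]
    simp only [h.mm_Q hθ hs (h.Q_Q' hθ hs v), α]
    ring
  have e2 : (fun a b => mm J ρ v v a b + r * θ a b) =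
      fun a b => (mm J ρ α v a b + r * θ a b) + mm J ρ (v - α) v a b := by
    funext a b
    nth_rewrite 1 [← add_sub_cancel α v]
    rw [mm_add']
    ring
  have b1 := h.mm_le pα (v - α)
  have b2 := h.mm_le (v := v - α) (by rw [map_sub, pα, h.p_of hv]) v
  have n1 := sq_nonneg ‖α‖
  have n2 := sq_nonneg ‖v - α‖
  have n3 := sq_nonneg (‖α‖ ^ 2 - r)
  have b3 : ‖α‖ ^ 2 * ‖v - α‖ ^ 2 ≤ R * ‖v - α‖ ^ 2 := by nlinarith
  have b4 : ‖v - α‖ ^ 2 * ‖v‖ ^ 2 ≤ R * ‖v - α‖ ^ 2 := by nlinarith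
  have b5 : 0 ≤ R * (‖α‖ ^ 2 - r) ^ 2 := mul_nonneg (by linarith) n3
  have b6 : dot (fun a b => mm J ρ α v a b + r * θ a b) (fun a b => mm J ρ α v a b + r * θ a b) ≤
      8 * (‖α‖ ^ 2 - r) ^ 2 + 32 * (R * ‖v - α‖ ^ 2) := by
    rw [e1]
    refine (dot_add_le _ _).trans ?_
    rw [dot_mul, dot_comm, dot_mul, hθ.dot_self h.four]
    nlinarith
  refine ⟨by simp only [X]; nlinarith, ?_⟩
  rw [e2]
  refine (dot_add_le _ _).trans ?_
  simp only [X]
  nlinarith

end alg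

variable {E : Type} [NormedAddCommGroup E] [NormedSpace ℝ E] [FiniteDimensional ℝ E]
  [MeasurableSpace E] [BorelSpace E]
  {HM : Type} [TopologicalSpace HM] {I : ModelWithCorners ℝ E HM}
  {M : Type} [TopologicalSpace M] [ChartedSpace HM M] [IsManifold I ∞ M]
  [MeasurableSpace M] {ι : Type} [Fintype ι]
  {V : Type} [NormedAddCommGroup V] [InnerProductSpace ℝ V] [FiniteDimensional ℝ V]
  [T2Space M] [BorelSpace M] [CompactSpace M]
  {F : Fr I M ι} {Γ : ι → ι → ι → M → ℝ} {A ρ : ι → M → V →L[ℝ] V} {p : M → V →L[ℝ] V}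
  {J : V →L[ℝ] V} {o : ι → ι → ι → ι → M → ℝ} {θ : ι → ι → M → ℝ} {Φ : M → V}

theorem cont_dot {X Y : M → ι → ι → ℝ} (hX : ∀ a b, Continuous fun x => X x a b)
    (hY : ∀ a b, Continuous fun x => Y x a b) : Continuous fun x => dot (X x) (Y x) :=
  continuous_finsetSum _ fun a _ => continuous_finsetSum _ fun b _ => (hX a b).mul (hY a b)

/-- admissible sizes of the error -/
def Small (k r R B ε : ℝ) : Prop :=
  ε ^ 2 ≤ 1 / 4 ∧ ε ^ 2 * k ^ 2 * (16 + 96 * R) * (8 + 32 * R) ≤ (min k (k * r - B)) ^ 2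

theorem exists_small {k r B : ℝ} (hk : 0 < k) (hr : B < k * r) (R : ℝ) :
    ∃ ε₀ > 0, ∀ ε, |ε| ≤ ε₀ → Small k r R B ε := by
  have c : ContinuousAt (fun ε : ℝ => ε ^ 2 * k ^ 2 * (16 + 96 * R) * (8 + 32 * R)) 0 := by fun_prop
  have c' : ContinuousAt (fun ε : ℝ => ε ^ 2) 0 := by fun_prop
  have m : 0 < min k (k * r - B) := lt_min hk (by linarith)
  have := (c'.eventually_le_const (show (fun ε : ℝ => ε ^ 2) 0 < 1 / 4 by norm_num)).and
    (c.eventually_le_const (show _ < (min k (k * r - B)) ^ 2 by simpa using pow_pos m 2))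
  obtain ⟨ε, h0, h⟩ := Metric.eventually_nhds_iff.1 this
  exact ⟨ε / 2, half_pos h0, fun t ht => h (by simpa using ht.trans_lt (half_lt_self h0))⟩

/-- **Taubes' theorem with an error term** -/
theorem TM.err [F.μ.IsOpenPosMeasure] (h : TM I F.e F.P F.c Γ o θ p J ρ A) (hR : Riem F)
    {k r R B ε : ℝ} (hk : 0 < k) (hB : ∀ x, bnd I F.e Γ θ x ≤ B) (hB0 : 0 ≤ B) (hr : B < k * r)
    (hε : Small k r R B ε) (hΦ : Sm I Φ) (pos : ∀ x, ppf o p ρ x (Φ x) = Φ x)
    (h8 : ∀ x, In8 (fun a b => F.P a b x) (fun a b c d => o a b c d x) J (fun a => ρ a x) (Φ x))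
    (hD : ∀ x, dir I F.e ρ A Φ x = 0) (hle : ∀ x, ‖Φ x‖ ^ 2 ≤ R) {f er : M → ι → ι → ℝ}
    (hf : ∀ x a b, f x a b = -f x b a)
    (htw : ∀ x a b, tw I F.e F.c Γ p ρ A a b x (Φ x) = f x a b • J (Φ x))
    (cE : ∀ a b, Continuous fun x => er x a b) {g : M → ι → ι → ℝ}
    (hg : ∀ x, g x = fun a b => f x a b + un I F.e F.c Γ θ a b x)
    (eq : ∀ x, sdp (fun a b c d => o a b c d x) (g x) = fun a b =>
      k * (mm J (fun a => ρ a x) (Φ x) (Φ x) a b + r * θ a b x) + er x a b)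
    (hE : ∫ x, dot (er x) (er x) ∂F.μ ≤ ε ^ 2 * ∫ x, dot (sdp (fun a b c d => o a b c d x) (g x))
      (sdp (fun a b c d => o a b c d x) (g x)) ∂F.μ)
    (deg : ∫ x, dot (g x) (fun a b => θ a b x) ∂F.μ ≤ 0) (x : M) :
    Qf o p J ρ θ x (Φ x) = Φ x ∧ ‖Φ x‖ ^ 2 = r ∧
      (∀ a, Qf o p J ρ θ x (nab I F.e A a Φ x) = 0) ∧ g x = 0 := by
  have i : ∀ {f : M → ℝ}, Continuous f → Integrable f F.μ :=
    fun hf => hf.integrable_of_hasCompactSupport (HasCompactSupport.of_compactSpace _)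
  set Q := Qf o p J ρ θ with hQ
  have cΦ := hΦ.continuous
  have cQ : Continuous Q := (show Sm I Q from h.op.sm).continuous
  have cρ : ∀ a, Continuous (ρ a) := fun a => (show Sm I (ρ a) from h.C.sρ a).continuous
  have cθ : ∀ a b, Continuous (θ a b) := fun a b => (show Sm I (θ a b) from h.ak.sm a b).continuous
  have cm : ∀ {u w : M → V}, Continuous u → Continuous w →
      ∀ a b, Continuous fun x => mm J (fun a => ρ a x) (u x) (w x) a b := fun hu hw a b => by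
    unfold mm; fun_prop
  have cα : Continuous fun x => Q x (Φ x) := by fun_prop
  have gs : ∀ x a b, g x a b = -g x b a := fun x a b => by
    rw [hg]; simp only [hf x a b, un_skew h.F h.L h.S a b x]; ring
  set δ := min k (k * r - B) with hδ
  have δ0 : 0 < δ := lt_min hk (by linarith)
  have R0 : 0 ≤ R := (sq_nonneg _).trans (hle x)
  set X := fun y => (‖Q y (Φ y)‖ ^ 2 - r) ^ 2 + ‖Φ y - Q y (Φ y)‖ ^ 2 with hX
  have cX : Continuous X := by fun_prop
  set Y := fun y a b => mm J (fun a => ρ a y) (Q y (Φ y)) (Φ y) a b + r * θ a b y with hY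
  have cY : ∀ a b, Continuous fun y => Y y a b := fun a b =>
    (cm cα cΦ a b).add (continuous_const.mul (cθ a b))
  have le := fun y => (h.pc y).err_le (h.cx y) (h.sd y) (pos y) (r := r) (hle y)
  have X0 : 0 ≤ ∫ y, X y ∂F.μ := integral_nonneg fun y => by positivity
  have cEE := cont_dot cE cE
  have b1 : ∫ y, dot (er y) (er y) ∂F.μ ≤ 4 * ε ^ 2 * k ^ 2 * (16 + 96 * R) * ∫ y, X y ∂F.μ := by
    have b : ∫ x, dot (sdp (fun a b c d => o a b c d x) (g x))
        (sdp (fun a b c d => o a b c d x) (g x)) ∂F.μ ≤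
        2 * k ^ 2 * (16 + 96 * R) * ∫ y, X y ∂F.μ + 2 * ∫ y, dot (er y) (er y) ∂F.μ := by
      rw [← integral_const_mul, ← integral_const_mul,
        ← integral_add (i (by fun_prop)) (i (by fun_prop))]
      have c1 : ∀ a b, Continuous fun x =>
          k * (mm J (fun a => ρ a x) (Φ x) (Φ x) a b + r * θ a b x) + er x a b := fun a b =>
        (continuous_const.mul ((cm cΦ cΦ a b).add (continuous_const.mul (cθ a b)))).add (cE a b)
      simp only [eq]
      refine integral_mono (i (cont_dot c1 c1)) (i (by fun_prop)) fun y => (dot_add_le _ _).trans ?_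
      rw [dot_mul, dot_comm, dot_mul]
      have := mul_le_mul_of_nonneg_left (le y).2 (sq_nonneg k)
      simp only [hX, hQ, Qf]
      nlinarith
    have n : 0 ≤ ∫ y, dot (er y) (er y) ∂F.μ := integral_nonneg fun y => dot_nonneg _
    have := mul_le_mul_of_nonneg_left b (sq_nonneg ε)
    nlinarith [hε.1]
  have eC : ∀ y, dot (g y) (fun a b => θ a b y) = dot (er y) (fun a b => θ a b y) -
      4 * k * (‖Q y (Φ y)‖ ^ 2 - ‖Φ y - Q y (Φ y)‖ ^ 2 - r) :=
    fun y => (h.pc y).eqC (h.cx y) (h.sd y) (pos y) (eq y)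
  have r0 : 0 < r := (mul_pos_iff_of_pos_left hk).1 (by linarith)
  have u := h.op.uniq h.C h.L hR h.sk (fun a x => (h.pc x).ρs a) hΦ
    (fun y v => congrArg (· v) (h.pc y).p_Q) hD (c := 4 * k) (r := r) (B := B) (δ := δ)
    (by linarith [min_le_left k (k * r - B)]) δ0.le (by linarith [min_le_right k (k * r - B)])
    (ε := fun y => dot (er y) (mm J (fun a => ρ a y) (Q y (Φ y)) (Φ y)) / 2)
    ((cont_dot cE (cm cα cΦ)).div_const 2)
    (fun y => (h.N_le y _).trans (mul_le_mul_of_nonneg_right (hB y) (sq_nonneg _)))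
    (fun y => by
      rw [h.key (hR.hg h.L y) (htw y), ← hg]
      exact (h.pc y).eqT (h.cx y) (h.sd y) (pos y) (h8 y) (gs y) (eq y))
    (by
      have e1 : ∀ y, 4 * k / 2 * r * (‖Q y (Φ y)‖ ^ 2 - ‖Φ y - Q y (Φ y)‖ ^ 2 - r) +
          dot (er y) (mm J (fun a => ρ a y) (Q y (Φ y)) (Φ y)) / 2 =
          dot (er y) (Y y) / 2 - r / 2 * dot (g y) fun a b => θ a b y := fun y => by
        rw [eC, hY, dot_add, dot_mul]
        ring
      have c2 : Continuous fun y => dot (g y) fun a b => θ a b y := by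
        have := cont_dot cE cθ
        simp only [eC]
        fun_prop
      have cEY := cont_dot cE cY
      simp only [← hQ, e1]
      rw [integral_sub (i (by fun_prop)) (i (by fun_prop)), integral_const_mul, integral_div]
      set t := 2 * δ / (8 + 32 * R) with ht
      have t0 : 0 < t := by positivity
      have t1 : t * (8 + 32 * R) = 2 * δ := div_mul_cancel₀ _ (by positivity)
      have b2 : -(2 * t) * ∫ y, dot (er y) (Y y) ∂F.μ ≤
          ∫ y, dot (er y) (er y) ∂F.μ + t * (2 * δ) * ∫ y, X y ∂F.μ := by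
        rw [← integral_const_mul, ← integral_const_mul,
          ← integral_add (i cEE) (i (by fun_prop))]
        refine integral_mono (i (by fun_prop)) (i (by fun_prop)) fun y => ?_
        have k1 := dot_le (-t) (er y) (Y y)
        have k2 := mul_le_mul_of_nonneg_left (le y).1 (sq_nonneg t)
        simp only [hX, hY, hQ, Qf, ← t1] at k1 ⊢
        nlinarith
      have b3 : 4 * ε ^ 2 * k ^ 2 * (16 + 96 * R) ≤ t * (2 * δ) := by
        rw [ht, div_mul_eq_mul_div, le_div_iff₀ (by positivity)]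
        nlinarith [hε.2]
      have b4 := mul_le_mul_of_nonneg_right b3 X0
      have b5 : -(2 * δ) * ∫ y, X y ∂F.μ ≤ ∫ y, dot (er y) (Y y) ∂F.μ :=
        le_of_mul_le_mul_left (by nlinarith) (show 0 < 2 * t by positivity)
      nlinarith)
  refine ⟨(u x).1, (u x).2.1, (u x).2.2, ?_⟩
  funext a b
  have e := h.flat hΦ (fun y => (u y).1) (fun a y => (u y).2.2 a) a b x
  rw [htw, ← sub_eq_zero, ← sub_smul, smul_eq_zero] at e
  refine e.elim (fun e => by rw [hg]; simpa using e) fun e => ?_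
  have := (h.pc x).norm_J ((h.pc x).p_of (pos x))
  have e' := (u x).2.1
  rw [← this, e, norm_zero] at e'
  linarith

end Crest.Agent.X212.Taub88
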