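import Crest.Agent.X212.Taub88.Deg
import Crest.Agent.X212.Eq82.Leaf
import Crest.Agent.X212.Pj41.Md
import Crest.Agent.X212.Idg99.Md

/-!
# Row 212, TAUB (helper88): definitions on `An/Gauge` and the leaves of `TaubL`
-/

set_option autoImplicit false
set_option linter.unusedSectionVars false
noncomputable section
open scoped Manifold ContDiff Topology InnerProductSpace
open MeasureTheory

namespace Crest.Agent.X212.Taub88
open An Crest.Agent.R208.F
open Eq82 (Bk)
open Line51 (Ln)
open Pj41 (OKOn Iso0 FSm)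

variable {E : Type} [NormedAddCommGroup E] [NormedSpace ℝ E] [FiniteDimensional ℝ E]
  [MeasurableSpace E] [BorelSpace E]
  {HM : Type} [TopologicalSpace HM] {I : ModelWithCorners ℝ E HM}
  {M : Type} [TopologicalSpace M] [ChartedSpace HM M] [IsManifold I ∞ M]
  [MeasurableSpace M] {ι : Type} [Fintype ι] {lam : Type} [Fintype lam]

variable (I) in
/-- smooth self-dual two-forms on `T₀` which are complex structures -/
structure Th (B : Base M ι lam) (θ : ι → ι → M → ℝ) : Prop where
  sm : ∀ a b, Sm I (θ a b)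
  cx : ∀ x, Cx (fun a b => B.P a b x) fun a b => θ a b x
  sd : ∀ x, SD (fun a b c d => B.o a b c d x) fun a b => θ a b x

/-- almost Kaehler frames -/
structure Ak (B : Base M ι lam) (F : Fr I M ι) (θ : ι → ι → M → ℝ) : Prop extends Th I B θ where
  cl : ∀ a b k x, d3 I F.e F.c θ a b k x + d3 I F.e F.c θ b k a x + d3 I F.e F.c θ k a b x = 0

/-- the projector onto pure spinors -/
abbrev Qm (B : Base M ι lam) (m : Md M ι lam) (θ : ι → ι → M → ℝ) : M → En (Fin m.N) :=
  Qf B.o m.p m.J m.ρ θ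

/-- half the curvature form of the canonical line, with the opposite sign -/
abbrev uF (F : Fr I M ι) (θ : ι → ι → M → ℝ) : ι → ι → M → ℝ := un I F.e F.c F.Gam θ

variable (I) in
/-- unit pure spinors over `O` -/
structure Pu (B : Base M ι lam) (m : Md M ι lam) (θ : ι → ι → M → ℝ) (O : Set M) (u : M → m.V) :
    Prop where
  sm : ∀ x ∈ O, FSm I u x
  one : ∀ x ∈ O, ‖u x‖ = 1
  Q : ∀ x ∈ O, Qm B m θ x (u x) = u x

variable (I M ι lam) in
/-- LEAF `ISO0`: modules with unit pure spinors are isomorphic -/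
def IsoStmt : Prop := ∀ (B : Base M ι lam) (θ : ι → ι → M → ℝ) (m m' : Md M ι lam) (O : Set M)
  (u : M → m.V) (u' : M → m'.V), B.OK I → Th I B θ → IsOpen O → OKOn I B m O → OKOn I B m' O →
  Pu I B m θ O u → Pu I B m' θ O u' → ∃ U, Iso0 I m m' O U ∧ ∀ x ∈ O, U x (u x) = u' x

variable (I M ι lam) in
/-- LEAF `CAN0`: the canonical module (closed `M`) -/
def CanStmt : Prop := ∀ (B : Base M ι lam) (θ : ι → ι → M → ℝ), B.OK I → Th I B θ →
  ∃ (m : Md M ι lam) (u : M → m.V), m.OK I B ∧ Pu I B m θ Set.univ u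

variable [I.Boundaryless] [BorelSpace M] [SecondCountableTopology M] [T2Space M] [CompactSpace M]
  [DecidableEq ι] {κ : Type} [Fintype κ] [DecidableEq κ]

/-- frames compatible with the form `w` -/
structure Cp (X : Bk I M ι) (w : M → Ext E) (F : Fr I M ι) : Prop where
  pos : X.Pos F
  cx : ∀ x, Cx (fun a b => X.F.P a b x) fun a b => Num57.k2 F w a b x
  sd : ∀ x, SD (fun a b c d => X.o a b c d x) fun a b => Num57.k2 F w a b x
  dir : ∀ x, ∃ t > (0 : ℝ), sdp (fun a b c d => X.o a b c d x) (fun a b => Num57.k2 X.F w a b x) =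
    fun a b => t * Num57.k2 F w a b x

variable (X : Bk I M ι)

/-- LEAF `COMPAT` -/
def CompatStmt : Prop := ∀ w, X.Sy w w → ∃ F, Cp X w F

/-- LEAF `SQ`: the square of the canonical class -/
def SqStmt (L : Ln E M κ) : Prop := ∀ m : Md M ι (κ ⊕ κ), m.OK I (X.B L) → ∃ s : ℝ,
  ∀ F θ, X.Pos F → Ak (X.B L) F θ → ∫ x, Idg99.wf X.o (uF F θ) (uF F θ) x ∂F.μ = s

end Crest.Agent.X212.Taub88
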