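import Crest.Agent.X212.Taub88.Leaf
import Crest.Agent.X212.Pj41.Can2
import Crest.Agent.X212.Idg99.Sq
import Crest.Agent.X212.Tb46.Compat

/-!
# Row 212, TAUB (helper88): the leaf `TaubL`
-/

set_option autoImplicit false
noncomputable section
open scoped Manifold ContDiff

namespace Crest.Agent.X212.Taub88

variable {E : Type} [NormedAddCommGroup E] [NormedSpace ℝ E] [FiniteDimensional ℝ E]
  [MeasurableSpace E] [BorelSpace E]
  {HM : Type} [TopologicalSpace HM] {I : ModelWithCorners ℝ E HM} [I.Boundaryless]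
  {M : Type} [TopologicalSpace M] [ChartedSpace HM M] [IsManifold I ∞ M]
  [MeasurableSpace M] [BorelSpace M] [SecondCountableTopology M] [T2Space M] [CompactSpace M]
  {ι : Type} [Fintype ι] [DecidableEq ι]

theorem taubL_cp {X : Eq82.Bk I M ι} (h : CompatStmt X) : Eq82.TaubL X :=
  taubL_of (fun _ _ => Pj41.isoStmt) (fun _ _ => Pj41.canStmt) h
    (Idg99.sqStmt X (Line51.on_triv Dr59.Sm.zero Dr59.Dg.zero))

theorem taubL (X : Eq82.Bk I M ι) : Eq82.TaubL X := taubL_cp (Tb46.compat X)

end Crest.Agent.X212.Taub88
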