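import Crest.Agent.X212.Taub88.Alg
import Crest.Agent.X212.Wz78.Var

/-!
# Row 212, TAUB (helper88): the covariant derivative of an almost Kaehler form
-/

set_option autoImplicit false
set_option linter.unusedSectionVars false

open scoped Manifold ContDiff Topology
open Finset Filter

noncomputable section
namespace Crest.Agent.X212.Taub88
open Wz78 Sob92

variable {E H : Type*} [NormedAddCommGroup E] [NormedSpace ℝ E] [TopologicalSpace H]
  {I : ModelWithCorners ℝ E H} {M : Type*} [TopologicalSpace M] [ChartedSpace H M]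
  {V : Type*} [NormedAddCommGroup V] [NormedSpace ℝ V]
  {ι : Type*} [Fintype ι] [IsManifold I 1 M]

section defs
variable (I) (e : ι → (x : M) → TangentSpace I x)

/-- exterior derivative of a two-form, one third -/
def d3 (c : ι → ι → ι → M → ℝ) (θ : ι → ι → M → ℝ) (a b m : ι) : M → ℝ :=
  fun x => dv I (e a) (θ b m) x - ∑ k, c a b k x * θ k m x

/-- an almost Kaehler form -/
structure AK (P : ι → ι → M → ℝ) (c : ι → ι → ι → M → ℝ) (θ : ι → ι → M → ℝ) : Prop where
  sm : ∀ a b x, SA I (θ a b) x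
  cx : ∀ x, Cx (fun a b => P a b x) fun a b => θ a b x
  cl : ∀ a b m x, d3 I e c θ a b m x + d3 I e c θ b m a x + d3 I e c θ m a b x = 0

/-- covariant derivative of a two-form -/
def dT (Γ : ι → ι → ι → M → ℝ) (θ : ι → ι → M → ℝ) (a b m : ι) : M → ℝ :=
  fun x => dv I (e a) (θ b m) x - ∑ k, Γ a b k x * θ k m x - ∑ k, θ b k x * Γ a m k x

end defs

/-- the spin lift of a two-form field -/
def sp (ρ : ι → M → V →L[ℝ] V) (θ : ι → ι → M → ℝ) : M → V →L[ℝ] V :=
  fun x => spin (fun a => ρ a x) fun a b => θ a b x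

variable {e : ι → (x : M) → TangentSpace I x} {P θ : ι → ι → M → ℝ}
  {c Γ : ι → ι → ι → M → ℝ} {A ρ : ι → M → V →L[ℝ] V} {p : M → V →L[ℝ] V} {u : M → V} {x : M}

theorem Cx.proj' {P θ : ι → ι → ℝ} (h : Cx P θ) (hP : Pr P) (a b : ι) :
    ∑ k, P a k * θ k b = θ a b := by
  rw [h.skew a b, ← h.proj b a, ← sum_neg_distrib]
  exact sum_congr rfl fun k _ => by rw [h.skew b k, hP.symm k a]; ring

theorem sm_dT (F : Wz78.Frm I e P c) (L : LC I e P c Γ) (h : ∀ a b, SA I (θ a b) x) (a b m : ι) :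
    SA I (dT I e Γ θ a b m) x :=
  ((F.sD a (h b m)).sub (SA.sum _ fun k _ => (L.sm a b k x).mul (h k m))).sub
    (SA.sum _ fun k _ => (h b k).mul (L.sm a m k x))

theorem sm_sp (hρ : ∀ a, SA I (ρ a) x) (h : ∀ a b, SA I (θ a b) x) : SA I (sp ρ θ) x :=
  SA.smul contMDiffAt_const (SA.sum _ fun a _ => SA.sum _ fun b _ =>
    (h a b).smul ((hρ a).mul (hρ b)))

theorem AK.dx (h : AK I e P c θ) (F : Wz78.Frm I e P c) (L : LC I e P c Γ) (x : M) :
    Dx (fun a b => P a b x) (fun a b => θ a b x) fun a b m => dT I e Γ θ a b m x := by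
  classical
  have c1 := (h.cx x).skew
  have c2 := (h.cx x).proj
  have c3 := (h.cx x).proj' (F.pr x)
  have c4 := (h.cx x).sq
  have d1 : ∀ a b m, dv I (e a) (θ b m) x = -dv I (e a) (θ m b) x := fun a b m => by
    rw [← dv_neg]
    exact congrArg (dv I (e a) · x) (_root_.funext fun y => (h.cx y).skew b m)
  have d2 : ∀ a b m, ∑ k, (dv I (e a) (θ b k) x * P k m x + θ b k x * dv I (e a) (P k m) x) =
      dv I (e a) (θ b m) x := fun a b m => by
    rw [show θ b m = fun y => ∑ k, θ b k y * P k m y from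
      _root_.funext fun y => ((h.cx y).proj b m).symm,
      dv_sum' _ fun k => (h.sm b k x).mul (F.sP k m x)]
    exact sum_congr rfl fun k _ => (dv_mul (h.sm b k x) (F.sP k m x)).symm
  have d3' : ∀ a b m, ∑ k, (dv I (e a) (θ b k) x * θ k m x + θ b k x * dv I (e a) (θ k m) x) =
      -dv I (e a) (P b m) x := fun a b m => by
    rw [← dv_neg, show -P b m = fun y => ∑ k, θ b k y * θ k m y from
      _root_.funext fun y => ((h.cx y).sq b m).symm,
      dv_sum' _ fun k => (h.sm b k x).mul (h.sm k m x)]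
    exact sum_congr rfl fun k _ => (dv_mul (h.sm b k x) (h.sm k m x)).symm
  have key : ∀ a, let T := Matrix.of fun b m => dT I e Γ θ a b m x
      T * (Matrix.of fun a b => P a b x) = T ∧
      (Matrix.of fun a b => θ a b x) * T = -(T * (Matrix.of fun a b => θ a b x)) := fun a => by
    set Pm := Matrix.of fun a b => P a b x
    set Ω := Matrix.of fun a b => θ a b x
    set G := Matrix.of fun b k => Γ a b k x
    set D := Matrix.of fun b k => dv I (e a) (θ b k) x
    have eT : (Matrix.of fun b m => dT I e Γ θ a b m x) = D - G * Ω - Ω * G.transpose := by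
      ext b m
      simp [dT, Matrix.mul_apply, D, G, Ω]
    have m1 : Ω * Pm = Ω := by ext b m; simp [Matrix.mul_apply, Ω, Pm, c2]
    have m2 : Pm * Ω = Ω := by ext b m; simp [Matrix.mul_apply, Ω, Pm, c3]
    have m3 : Ω * Ω = -Pm := by ext b m; simp [Matrix.mul_apply, Ω, Pm, c4]
    have m4 : G * Pm = G := by ext b m; simp [Matrix.mul_apply, G, Pm, L.proj]
    have m5 : Pm * G.transpose = G.transpose := by
      ext b m
      simp [Matrix.mul_apply, G, Pm, (F.pr x).symm b, mul_comm (P _ _ x), L.proj]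
    have m6 : D * Pm + Ω * (G + G.transpose) = D := by
      ext b m
      simp [Matrix.mul_apply, G, Pm, D, Ω, ← d2 a b m, L.met, sum_add_distrib]
    have m7 : D * Ω + Ω * D = -(G + G.transpose) := by
      ext b m
      simp [Matrix.mul_apply, G, D, Ω, ← sum_add_distrib, d3', L.met]
    have m8 : Pm * (G + G.transpose) * Pm = 0 := by
      ext b m
      have := F.PdPP a b m x
      rw [sum_comm] at this
      simp [Matrix.mul_apply, G, Pm, sum_mul, ← L.met, this]
    have m9 : Ω * (G + G.transpose) * Pm = 0 := by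
      rw [← m1, Matrix.mul_assoc Ω, Matrix.mul_assoc Ω, m8, Matrix.mul_zero]
    have m10 : Ω * (G + G.transpose) * Ω = 0 := by
      rw [← m2, ← Matrix.mul_assoc, m2, m9, Matrix.zero_mul]
    intro T
    rw [show T = _ from eT]
    constructor
    · have : (D - G * Ω - Ω * G.transpose) * Pm = D * Pm - G * (Ω * Pm) + Ω * (G * Pm) -
          Ω * (G + G.transpose) * Pm := by noncomm_ring
      rw [this, m1, m4, m9, eq_sub_of_add_eq m6]
      noncomm_ring
    · have : Ω * (D - G * Ω - Ω * G.transpose) + (D - G * Ω - Ω * G.transpose) * Ω =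
          D * Ω + Ω * D - Ω * (G + G.transpose) * Ω - Ω * Ω * G.transpose - G * (Ω * Ω) := by
        noncomm_ring
      rw [eq_neg_iff_add_eq_zero, this, m7, m10, m3, Matrix.neg_mul, Matrix.mul_neg, m4, m5]
      abel
  refine ⟨fun a b m => ?_, fun a b m => congrFun (congrFun (key a).1 b) m,
    fun a b m => congrFun (congrFun (key a).2 b) m, fun a b m => ?_⟩
  · simp only [dT, d1 a b m, c1 _ m, c1 b, mul_neg, neg_mul, sum_neg_distrib, mul_comm (θ _ _ x)]
    ring
  · have t := fun a b m => L.cD (x := x) a b (T := fun k => θ k m x) fun k => c3 k m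
    have := h.cl a b m x
    simp only [d3, ← smul_eq_mul, t] at this
    have s : ∀ a b m, ∑ k, θ b k x * Γ a m k x = -∑ k, Γ a m k x * θ k b x := fun a b m => by
      simp only [c1 b, neg_mul, sum_neg_distrib, mul_comm (θ _ _ x)]
    simp only [dT, s]
    simp only [smul_eq_mul] at this
    linarith

/-- the spin lift commutes with covariant differentiation -/
theorem nabE_sp (C : CC I e P Γ p ρ A) (F : Wz78.Frm I e P c) (L : LC I e P c Γ)
    (hs : ∀ a b, SA I (θ a b) x) (h1 : ∀ a b, ∑ k, θ a k x * P k b x = θ a b x)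
    (h2 : ∀ a b, ∑ k, P a k x * θ k b x = θ a b x) (a : ι) :
    nabE I e A a (sp ρ θ) x = sp ρ (dT I e Γ θ a) x := by
  have hρ := fun a => C.sρ a x
  have e1 : ∀ b, nabE I e A a (ρ b) x = ∑ k, Γ a b k x • ρ k x := fun b => C.comp a b x
  have pr := (C.cl x).proj
  have z1 := F.dP_zero a x (T := fun b k => ρ b x * ∑ l, θ k l x • ρ l x)
    (fun b k => by simp only [← smul_mul_assoc, ← sum_mul, pr])
    fun b k => by
      simp only [← mul_smul_comm, ← mul_sum, smul_sum, smul_smul]
      rw [sum_comm]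
      simp only [← sum_smul, h2]
  have z2 := F.dP_zero a x (T := fun b k => (∑ l, θ l b x • ρ l x) * ρ k x)
    (fun b k => by
      simp only [← smul_mul_assoc, ← sum_mul, smul_sum, smul_smul]
      rw [sum_comm]
      simp only [← sum_smul, (F.pr x).symm b, mul_comm (P _ _ x), h1])
    fun b k => by simp only [← mul_smul_comm, ← mul_sum, pr]
  unfold sp spin
  rw [nabE_smul a contMDiffAt_const (SA.sum _ fun a _ => SA.sum _ fun b _ =>
    (hs a b).smul ((hρ a).mul (hρ b))), dv_const, Pi.zero_apply, zero_smul, zero_add,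
    nabE_sum a _ fun a => SA.sum _ fun b _ => (hs a b).smul ((hρ a).mul (hρ b))]
  congr 1
  simp only [fun m => nabE_sum (e := e) (A := A) a univ fun b => (hs m b).smul ((hρ m).mul (hρ b)),
    fun m b => nabE_smul (e := e) (A := A) a (hs m b) ((hρ m).mul (hρ b)),
    fun m b => nabE_mul (e := e) (A := A) a (hρ m) (hρ b), e1, dT, sub_smul, sum_sub_distrib,
    smul_add, sum_add_distrib]
  simp only [L.met, mul_sum, sum_mul, smul_sum, mul_smul_comm, smul_mul_assoc, smul_smul] at z1 z2
  simp only [add_mul, add_smul, sum_add_distrib] at z1 z2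
  simp only [mul_sum, sum_mul, smul_sum, mul_smul_comm, smul_mul_assoc, smul_smul, sum_smul]
  have r1 : ∑ b, ∑ l, ∑ k, (Γ a b k x * θ k l x) • (ρ b x * ρ l x) =
      ∑ b, ∑ k, ∑ l, (Γ a b k x * θ k l x) • (ρ b x * ρ l x) := sum_congr rfl fun _ _ => sum_comm
  have r2 : ∑ k, ∑ l, ∑ b, (θ k l x * Γ a k b x) • (ρ b x * ρ l x) =
      ∑ b, ∑ k, ∑ l, (Γ a k b x * θ k l x) • (ρ b x * ρ l x) := by
    rw [sum_congr rfl fun _ _ => sum_comm, sum_comm]
    simp only [mul_comm (θ _ _ x)]
  have r3 : ∑ l, ∑ b, ∑ k, (θ l b x * Γ a b k x) • (ρ l x * ρ k x) =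
      ∑ b, ∑ k, ∑ l, (Γ a b k x * θ l b x) • (ρ l x * ρ k x) := by
    rw [sum_comm, sum_congr rfl fun _ _ => sum_comm]
    simp only [mul_comm (θ _ _ x)]
  have r4 : ∑ l, ∑ k, ∑ b, (θ l b x * Γ a k b x) • (ρ l x * ρ k x) =
      ∑ b, ∑ k, ∑ l, (Γ a k b x * θ l b x) • (ρ l x * ρ k x) := by
    rw [sum_congr rfl fun _ _ => sum_comm, sum_comm, sum_congr rfl fun _ _ => sum_comm]
    simp only [mul_comm (θ _ _ x)]
  rw [r1, r2, r3, r4, eq_neg_of_add_eq_zero_right z1, eq_neg_of_add_eq_zero_left z2]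
  abel

/-- `∑ ρ_a ∇_a ρ(θ) = 0` for an almost Kaehler form -/
theorem AK.har (h : AK I e P c θ) (C : CC I e P Γ p ρ A) (F : Wz78.Frm I e P c) (L : LC I e P c Γ)
    (x : M) : ∑ a, ρ a x * nabE I e A a (sp ρ θ) x = 0 := by
  simp only [nabE_sp C F L (fun a b => h.sm a b x) (h.cx x).proj ((h.cx x).proj' (F.pr x))]
  exact (h.dx F L x).har (h.cx x) (F.pr x) (C.cl x)

end Crest.Agent.X212.Taub88
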