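import Crest.Agent.X212.Taub88.Har

/-!
# Row 212, TAUB (helper88): uniqueness without a global unit spinor

`Q` is an orthogonal projector field, `N_a = ∇_a Q`.
-/

set_option autoImplicit false
set_option linter.unusedSectionVars false

open scoped Manifold ContDiff Topology InnerProductSpace
open Finset Filter MeasureTheory

noncomputable section
namespace Crest.Agent.X212.Taub88
open Wz78 Sob92 An

section pointwise
variable {E H : Type*} [NormedAddCommGroup E] [NormedSpace ℝ E] [TopologicalSpace H]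
  {I : ModelWithCorners ℝ E H} {M : Type*} [TopologicalSpace M] [ChartedSpace H M]
  {V : Type*} [NormedAddCommGroup V] [InnerProductSpace ℝ V]
  {ι : Type*} [Fintype ι] [IsManifold I 1 M]

variable (I) in
/-- the value of the Weitzenboeck term on `Q`-parallel harmonic spinors -/
def K0 (e : ι → (x : M) → TangentSpace I x) (g : ι → M → ℝ) (A : ι → M → V →L[ℝ] V)
    (Q : M → V →L[ℝ] V) : M → V →L[ℝ] V := fun x =>
  ∑ a, (nabE I e A a (nabE I e A a Q) x + g a x • nabE I e A a Q x +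
    nabE I e A a Q x * nabE I e A a Q x)

variable (I) in
/-- smooth orthogonal projector fields -/
structure OP (Q : M → V →L[ℝ] V) : Prop where
  sm : ∀ x, SA I Q x
  idem : ∀ x v, Q x (Q x v) = Q x v
  symm : ∀ x v w, ⟪Q x v, w⟫_ℝ = ⟪v, Q x w⟫_ℝ

variable {e : ι → (x : M) → TangentSpace I x} {P : ι → ι → M → ℝ} {g : ι → M → ℝ}
  {c Γ : ι → ι → ι → M → ℝ} {A ρ : ι → M → V →L[ℝ] V} {p Q : M → V →L[ℝ] V} {u : M → V} {x : M}

theorem OP.nab (h : OP I Q) (hu : ∀ y, SA I u y) (hq : ∀ y, Q y (u y) = u y) (a : ι) (x : M) :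
    nab I e A a u x = nabE I e A a Q x (u x) + Q x (nab I e A a u x) := by
  rw [← nab_app' a (h.sm x) (hu x)]
  simp only [hq]

theorem OP.N_symm (h : OP I Q) (a : ι) (hA : Skew (A a x)) (v w : V) :
    ⟪nabE I e A a Q x v, w⟫_ℝ = ⟪v, nabE I e A a Q x w⟫_ℝ := by
  have c : ∀ v : V, SA I (fun _ : M => v) x := fun _ => contMDiffAt_const
  have h1 := dv_inner (e := e) a hA ((h.sm x).app (c v)) (c w)
  have h2 := dv_inner (e := e) a hA (c v) ((h.sm x).app (c w))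
  simp only [h.symm _ v w] at h1
  rw [h1, nab_app' a (h.sm x) (c v), nab_app' a (h.sm x) (c w), inner_add_left, inner_add_right,
    h.symm x, h.symm x v] at h2
  linarith

theorem OP.lap (h : OP I Q) (F : Wz78.Frm I e P c) (hA : ∀ a y, SA I (A a) y)
    (hu : ∀ y, SA I u y) (hq : ∀ y, Q y (u y) = u y) (x : M) :
    lap I e g A u x = -K0 I e g A Q x (u x) - ∑ a, nabE I e A a Q x (Q x (Wz78.nab I e A a u x))
      - ∑ a, (Wz78.nab I e A a (fun y => Q y (Wz78.nab I e A a u y)) x +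
        g a x • Q x (Wz78.nab I e A a u x)) := by
  have sN := fun a => F.sNE (fun a => hA a x) a (h.sm x)
  have h1 : ∀ a, Wz78.nab I e A a (Wz78.nab I e A a u) x =
      nabE I e A a (nabE I e A a Q) x (u x) + nabE I e A a Q x (nabE I e A a Q x (u x)) +
      nabE I e A a Q x (Q x (Wz78.nab I e A a u x)) +
      Wz78.nab I e A a (fun y => Q y (Wz78.nab I e A a u y)) x := fun a => by
    rw [add_assoc (nabE I e A a (nabE I e A a Q) x (u x)), ← map_add, ← h.nab hu hq, ← nab_app' a (sN a) (hu x),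
      ← nab_add a ((sN a).app (hu x)) ((h.sm x).app (F.sN (fun a => hA a x) a (hu x)))]
    exact congrArg (Wz78.nab I e A a · x) (_root_.funext (h.nab hu hq a))
  have h2 : ∀ a, g a x • Wz78.nab I e A a u x = g a x • nabE I e A a Q x (u x) +
      g a x • Q x (Wz78.nab I e A a u x) := fun a => by rw [← smul_add, ← h.nab hu hq]
  simp only [Wz78.lap, h1, K0, _root_.sum_apply, add_apply, smul_apply, mul_apply_eq_comp,
    sum_add_distrib]
  rw [sum_congr rfl fun a _ => h2 a, sum_add_distrib]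
  abel

/-- a `Q`-parallel harmonic section is an eigenvector -/
theorem OP.wK_eq (h : OP I Q) (C : CC I e P Γ p ρ A) (L : LC I e P c Γ) (F : Wz78.Frm I e P c)
    (hg : ∀ k, g k x = ∑ a, Γ a k a x) (hu : ∀ y, SA I u y) (hq : ∀ y, Q y (u y) = u y)
    (hp : ∀ y, p y (u y) = u y) (hn : ∀ a y, Q y (Wz78.nab I e A a u y) = 0)
    (hD : ∀ y, dir I e ρ A u y = 0) : wK I e c ρ A x (u x) = K0 I e g A Q x (u x) := by
  have h1 := C.weitz L F hg (hu x) (Eventually.of_forall hp)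
  rw [show dir I e ρ A u = fun _ => 0 from _root_.funext hD, h.lap F C.sm hu hq] at h1
  simp only [hn] at h1
  simp only [dir, Wz78.nab, dv_const, Pi.zero_apply, map_zero, add_zero, smul_zero,
    sum_const_zero, sub_zero] at h1
  exact (neg_add_eq_zero.1 h1.symm).symm

end pointwise

variable {E : Type} [NormedAddCommGroup E] [NormedSpace ℝ E] [FiniteDimensional ℝ E]
  [MeasurableSpace E] [BorelSpace E]
  {HM : Type} [TopologicalSpace HM] {I : ModelWithCorners ℝ E HM}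
  {M : Type} [TopologicalSpace M] [ChartedSpace HM M] [IsManifold I ∞ M]
  [MeasurableSpace M] {ι : Type} [Fintype ι]
  {V : Type} [NormedAddCommGroup V] [InnerProductSpace ℝ V]
  [T2Space M] [BorelSpace M] [CompactSpace M]
  {F : Fr I M ι} {Γ : ι → ι → ι → M → ℝ} {A ρ : ι → M → V →L[ℝ] V} {p Q : M → V →L[ℝ] V}
  {u w Φ : M → V}

theorem sm_K0 (hA : ∀ a, Sm I (A a)) (h : OP I Q) : Sm I (K0 I F.e F.dv A Q) := fun x =>
  have sN := fun a => (frm F).sNE (fun a => hA a x) a (h.sm x)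
  SA.sum _ fun a _ => (((frm F).sNE (fun a => hA a x) a (sN a)).add
    (SA.smul (F.dv_sm a x) (sN a))).add ((sN a).mul (sN a))

/-- **the master identity** -/
theorem OP.master (h : OP I Q) (C : CC I F.e F.P Γ p ρ A) (L : LC I F.e F.P F.c Γ) (hR : Riem F)
    (hA : ∀ a x, Skew (A a x)) (hρ : ∀ a x, Skew (ρ a x)) (hu : Sm I u) (hw : Sm I w)
    (hq : ∀ y, Q y (u y) = u y) (hp : ∀ y, p y (u y) = u y) :
    ∫ x, ⟪dir I F.e ρ A u x, dir I F.e ρ A w x⟫_ℝ ∂F.μ =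
      ∫ x, (∑ a, (⟪Q x (Wz78.nab I F.e A a u x), Wz78.nab I F.e A a w x⟫_ℝ -
        ⟪nabE I F.e A a Q x (Q x (Wz78.nab I F.e A a u x)), w x⟫_ℝ) +
        ⟪(wK I F.e F.c ρ A x - K0 I F.e F.dv A Q x) (u x), w x⟫_ℝ) ∂F.μ := by
  have cs := fun f : M → ℝ => HasCompactSupport.of_compactSpace f
  have sn : ∀ a, Sm I fun y => Q y (Wz78.nab I F.e A a u y) :=
    fun a x => (h.sm x).app (sm_nab C.sm a hu x)
  have s1 : ∀ a, Sm I fun y => ⟪Q y (Wz78.nab I F.e A a u y), w y⟫_ℝ :=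
    fun a x => SA.inner (sn a x) (hw x)
  rw [← integral_dir C L hR hA hρ (fun x => C.dir_sm (frm F) (hu x)) hw
    (HasCompactSupport.of_compactSpace w), ← add_zero (∫ x, _ ∂F.μ),
    ← integral_dvg s1 fun a => cs _, ← integral_add (integ (fun x => SA.inner
      (C.dir_sm (frm F) (C.dir_sm (frm F) (hu x))) (hw x)) (cs _)) (integ_dvg s1 fun a => cs _)]
  refine integral_congr_ae (Eventually.of_forall fun x => ?_)
  simp only [C.weitz L (frm F) (hR.hg L x) (hu x) (Eventually.of_forall hp),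
    h.lap (frm F) C.sm hu hq, dvg, fun a => dv_inner (e := F.e) a (hA a x) (sn a x) (hw x),
    inner_add_left, inner_sub_left, inner_neg_left, sum_inner, real_inner_smul_left, sub_apply,
    sum_add_distrib, sum_sub_distrib]
  ring

theorem OP.pyth (h : OP I Q) (y : M) (v : V) : ‖v‖ ^ 2 = ‖Q y v‖ ^ 2 + ‖v - Q y v‖ ^ 2 := by
  conv_lhs => rw [← add_sub_cancel (Q y v) v]
  rw [norm_add_sq_real, h.symm, map_sub, h.idem, sub_self, inner_zero_right]; ring

/-- **the basic estimate** -/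
theorem OP.core [F.μ.IsOpenPosMeasure] (h : OP I Q) (C : CC I F.e F.P Γ p ρ A)
    (L : LC I F.e F.P F.c Γ) (hR : Riem F) (hA : ∀ a x, Skew (A a x)) (hρ : ∀ a x, Skew (ρ a x))
    (hΦ : Sm I Φ) (hp : ∀ y v, p y (Q y v) = Q y v) (hD : ∀ x, dir I F.e ρ A Φ x = 0)
    {c c' r B : ℝ} (hc : 0 < c) (hc' : 2 * B < c')
    (hB : ∀ x, ∑ a, ‖nabE I F.e A a Q x (Φ x - Q x (Φ x))‖ ^ 2 ≤ B * ‖Φ x - Q x (Φ x)‖ ^ 2)
    (hT : ∫ x, (c * (‖Q x (Φ x)‖ ^ 2 - r) ^ 2 + c' * ‖Φ x - Q x (Φ x)‖ ^ 2) ∂F.μ ≤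
      ∫ x, ⟪(wK I F.e F.c ρ A x - K0 I F.e F.dv A Q x) (Q x (Φ x)), Φ x⟫_ℝ ∂F.μ) (x : M) :
    Q x (Φ x) = Φ x ∧ ‖Φ x‖ ^ 2 = r ∧ ∀ a, Q x (Wz78.nab I F.e A a Φ x) = 0 := by
  have cs := fun f : M → ℝ => HasCompactSupport.of_compactSpace f
  set α := fun y => Q y (Φ y) with hα
  set β := fun y => Φ y - Q y (Φ y) with hβ
  have sα : Sm I α := fun x => (h.sm x).app (hΦ x)
  have sβ : Sm I β := hΦ.sub sα
  have qα : ∀ y, Q y (α y) = α y := fun y => h.idem y _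
  have qβ : ∀ y, Q y (β y) = 0 := fun y => by simp [hβ, h.idem]
  have e0 : Φ = fun y => α y + β y := _root_.funext fun y => (add_sub_cancel _ _).symm
  set n := fun a y => Q y (Wz78.nab I F.e A a α y) with hn
  have sn : ∀ a, Sm I (n a) := fun a x => (h.sm x).app (sm_nab C.sm a sα x)
  have sN : ∀ a, Sm I (nabE I F.e A a Q) := fun a x => (frm F).sNE (fun a => C.sm a x) a (h.sm x)
  have e1 : ∀ a y, Q y (Wz78.nab I F.e A a β y) = -nabE I F.e A a Q y (β y) := fun a y => by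
    have := nab_app' (e := F.e) (A := A) a (h.sm y) (sβ y)
    simp only [qβ, Wz78.nab, dv_const, Pi.zero_apply, map_zero, add_zero] at this
    exact eq_neg_of_add_eq_zero_right this.symm
  have e2 : ∀ a y, Q y (Wz78.nab I F.e A a Φ y) = n a y - nabE I F.e A a Q y (β y) := fun a y => by
    rw [sub_eq_add_neg, ← e1, ← map_add, ← nab_add a (sα y) (sβ y), ← e0]
  have e4 : ∀ a y, ⟪n a y, Wz78.nab I F.e A a Φ y⟫_ℝ - ⟪nabE I F.e A a Q y (n a y), Φ y⟫_ℝ =
      ‖n a y‖ ^ 2 - 2 * ⟪n a y, nabE I F.e A a Q y (β y)⟫_ℝ := fun a y => by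
    have k1 : ⟪n a y, nabE I F.e A a Q y (α y)⟫_ℝ = 0 := by
      have := congrArg (Q y) (h.nab (e := F.e) (A := A) sα qα a y)
      rw [map_add, h.idem, right_eq_add] at this
      rw [hn, h.symm, this, inner_zero_right]
    have k2 : ⟪n a y, Wz78.nab I F.e A a Φ y⟫_ℝ = ⟪n a y, Q y (Wz78.nab I F.e A a Φ y)⟫_ℝ := by
      rw [← h.symm, hn, h.idem]
    rw [k2, e2, h.N_symm a (hA a y), congrFun e0 y, map_add, inner_add_right, k1, inner_sub_right,
      real_inner_self_eq_norm_sq]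
    ring
  have m := h.master C L hR hA hρ sα hΦ qα fun y => hp y _
  simp only [hD, inner_zero_right, integral_zero] at m
  set f := fun y => ∑ a, (‖n a y‖ ^ 2 - 2 * ⟪n a y, nabE I F.e A a Q y (β y)⟫_ℝ) +
    (c * (‖α y‖ ^ 2 - r) ^ 2 + c' * ‖β y‖ ^ 2) with hf
  have cα := sα.continuous
  have cβ := sβ.continuous
  have c1 : Continuous fun y => ∑ a, (‖n a y‖ ^ 2 - 2 * ⟪n a y, nabE I F.e A a Q y (β y)⟫_ℝ) :=
    continuous_finsetSum univ fun a _ => ((sn a).continuous.norm.pow 2).sub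
      (continuous_const.mul ((sn a).continuous.inner ((sN a).continuous.clm_apply cβ)))
  have c2 : Continuous fun y => c * (‖α y‖ ^ 2 - r) ^ 2 + c' * ‖β y‖ ^ 2 := by fun_prop
  have c3 := (((sm_wK (F := F) C.sm C.sρ).sub (sm_K0 (F := F) C.sm h)).continuous.clm_apply
    cα).inner (𝕜 := ℝ) hΦ.continuous
  have cf : Continuous f := c1.add c2
  have i1 := cf.integrable_of_hasCompactSupport (μ := F.μ) (cs _)
  have m' : ∫ y, f y ∂F.μ ≤ 0 := by
    have j1 := c1.integrable_of_hasCompactSupport (μ := F.μ) (cs _)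
    rw [hf, integral_add j1 (c2.integrable_of_hasCompactSupport (cs _)), m]
    refine (add_le_add_right hT _).trans_eq ?_
    rw [← integral_add j1 (c3.integrable_of_hasCompactSupport (cs _))]
    exact integral_congr_ae (Eventually.of_forall fun y => by simp only [← e4]; rfl)
  have b1 : ∀ y, (∑ a, ‖n a y‖ ^ 2) / 2 + c * (‖α y‖ ^ 2 - r) ^ 2 +
      (c' - 2 * B) * ‖β y‖ ^ 2 ≤ f y := fun y => by
    have k1 : ∑ a, (‖n a y‖ ^ 2 / 2 - 2 * ‖nabE I F.e A a Q y (β y)‖ ^ 2) ≤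
        ∑ a, (‖n a y‖ ^ 2 - 2 * ⟪n a y, nabE I F.e A a Q y (β y)⟫_ℝ) := sum_le_sum fun a _ => by
      have := real_inner_le_norm (n a y) (nabE I F.e A a Q y (β y))
      nlinarith [sq_nonneg (‖n a y‖ - 2 * ‖nabE I F.e A a Q y (β y)‖)]
    rw [sum_sub_distrib, ← sum_div, ← mul_sum] at k1
    have k2 := hB y
    simp only [hf]
    linarith
  have p1 := fun y => sum_nonneg fun a (_ : a ∈ univ) => sq_nonneg ‖n a y‖
  have p2 : ∀ y, 0 ≤ c * (‖α y‖ ^ 2 - r) ^ 2 := fun y => by positivity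
  have hr' : 0 < c' - 2 * B := by linarith
  have p3 : ∀ y, 0 ≤ (c' - 2 * B) * ‖β y‖ ^ 2 := fun y => by positivity
  have f0 : ∀ y, 0 ≤ f y := fun y => by linarith [b1 y, p1 y, p2 y, p3 y]
  have z : f x = 0 := congrFun ((cf.ae_eq_iff_eq F.μ continuous_zero).1
    ((integral_eq_zero_iff_of_nonneg f0 i1).1 (le_antisymm m' (integral_nonneg f0)))) x
  have z1 : β x = 0 := by
    have : (c' - 2 * B) * ‖β x‖ ^ 2 = 0 := by linarith [b1 x, p1 x, p2 x, p3 x]
    simpa [hr'.ne'] using this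
  have z2 : ‖α x‖ ^ 2 - r = 0 := by
    have : c * (‖α x‖ ^ 2 - r) ^ 2 = 0 := by linarith [b1 x, p1 x, p2 x, p3 x]
    simpa [hc.ne'] using this
  have z3 : ∑ a, ‖n a x‖ ^ 2 = 0 := by linarith [b1 x, p1 x, p2 x, p3 x]
  have z4 : Q x (Φ x) = Φ x := (sub_eq_zero.1 z1).symm
  refine ⟨z4, by rw [← z4]; linarith, fun a => ?_⟩
  rw [e2, z1, map_zero, sub_zero]
  simpa using (sum_eq_zero_iff_of_nonneg fun a _ => sq_nonneg ‖n a x‖).1 z3 a (mem_univ a)

/-- **uniqueness**; `δ` bounds an error term -/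
theorem OP.uniq [F.μ.IsOpenPosMeasure] (h : OP I Q) (C : CC I F.e F.P Γ p ρ A)
    (L : LC I F.e F.P F.c Γ) (hR : Riem F) (hA : ∀ a x, Skew (A a x)) (hρ : ∀ a x, Skew (ρ a x))
    (hΦ : Sm I Φ) (hp : ∀ y v, p y (Q y v) = Q y v) (hD : ∀ x, dir I F.e ρ A Φ x = 0)
    {c r B δ : ℝ} (hc : 2 * δ < c) (hδ : 0 ≤ δ) (hr : 4 * B + 2 * δ < c * r) {ε : M → ℝ}
    (hε : Continuous ε)
    (hB : ∀ x, ∑ a, ‖nabE I F.e A a Q x (Φ x - Q x (Φ x))‖ ^ 2 ≤ B * ‖Φ x - Q x (Φ x)‖ ^ 2)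
    (hT : ∀ x, ⟪(wK I F.e F.c ρ A x - K0 I F.e F.dv A Q x) (Q x (Φ x)), Φ x⟫_ℝ =
      c / 2 * (‖Q x (Φ x)‖ ^ 2 * (‖Φ x‖ ^ 2 - r)) + ε x)
    (hC : -δ * ∫ x, ((‖Q x (Φ x)‖ ^ 2 - r) ^ 2 + ‖Φ x - Q x (Φ x)‖ ^ 2) ∂F.μ ≤
      ∫ x, (c / 2 * r * (‖Q x (Φ x)‖ ^ 2 - ‖Φ x - Q x (Φ x)‖ ^ 2 - r) + ε x) ∂F.μ) (x : M) :
    Q x (Φ x) = Φ x ∧ ‖Φ x‖ ^ 2 = r ∧ ∀ a, Q x (Wz78.nab I F.e A a Φ x) = 0 := by
  have cs := fun f : M → ℝ => HasCompactSupport.of_compactSpace f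
  have cΦ := hΦ.continuous
  have cQ : Continuous Q := (show Sm I Q from h.sm).continuous
  have i : ∀ {f : M → ℝ}, Continuous f → Integrable f F.μ :=
    fun hf => hf.integrable_of_hasCompactSupport (cs _)
  refine h.core C L hR hA hρ hΦ hp hD (c := c / 2 - δ) (c' := c / 2 * r - δ) (by linarith)
    (by linarith) hB ?_ x
  rw [← integral_const_mul, ← sub_nonneg, ← integral_sub (i (by fun_prop)) (i (by fun_prop))] at hC
  simp only [hT]
  rw [← sub_nonneg, ← integral_sub (i (by fun_prop)) (i (by fun_prop))]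
  refine hC.trans (integral_mono (i (by fun_prop)) (i (by fun_prop)) fun y => ?_)
  have : 0 ≤ c * (‖Q y (Φ y)‖ ^ 2 * ‖Φ y - Q y (Φ y)‖ ^ 2) :=
    mul_nonneg (by linarith) (by positivity)
  simp only [h.pyth y (Φ y)]
  linarith

end Crest.Agent.X212.Taub88
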