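import Crest.Agent.X212.Taub88.Qp
import Crest.Agent.X212.Taub88.Unq

/-!
# Row 212, TAUB (helper88): the Weitzenboeck term on pure spinors
-/

set_option autoImplicit false
set_option linter.unusedSectionVars false

open scoped Manifold ContDiff Topology InnerProductSpace
open Finset Filter

noncomputable section
namespace Crest.Agent.X212.Taub88
open Wz78 Sob92

variable {E H : Type*} [NormedAddCommGroup E] [NormedSpace ℝ E] [TopologicalSpace H]
  {I : ModelWithCorners ℝ E H} {M : Type*} [TopologicalSpace M] [ChartedSpace H M]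
  {V : Type*} [NormedAddCommGroup V] [InnerProductSpace ℝ V] [FiniteDimensional ℝ V]
  {ι : Type*} [Fintype ι] [IsManifold I 1 M]

section defs
variable (I) (e : ι → (x : M) → TangentSpace I x)

/-- complex Clifford modules with connection over an almost Kaehler four-manifold -/
structure TM (P : ι → ι → M → ℝ) (c Γ : ι → ι → ι → M → ℝ) (o : ι → ι → ι → ι → M → ℝ)
    (θ : ι → ι → M → ℝ) (p : M → V →L[ℝ] V) (J : V →L[ℝ] V) (ρ A : ι → M → V →L[ℝ] V) :
    Prop where
  F : Wz78.Frm I e P c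
  L : LC I e P c Γ
  S : Sep I e P
  so : ∀ a b c d x, SA I (o a b c d) x
  ak : AK I e P c θ
  sd : ∀ x, SD (fun a b c d => o a b c d x) fun a b => θ a b x
  C : CC I e P Γ p ρ A
  pc : ∀ x, PC (fun a b => P a b x) (fun a b c d => o a b c d x) (p x) J fun a => ρ a x
  JA : ∀ a x, J * A a x = A a x * J
  sk : ∀ a x, Skew (A a x)

/-- the universal part of the curvature of the line of pure spinors -/
def un (c Γ : ι → ι → ι → M → ℝ) (θ : ι → ι → M → ℝ) (a b : ι) : M → ℝ := fun x =>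
  (dot (fun m l => Rm I e c Γ a b m l x) (fun m l => θ m l x) -
    dot (lie (fun m l => dT I e Γ θ a m l x) fun m l => dT I e Γ θ b m l x)
      (fun m l => θ m l x) / 4) / 4

/-- the bound of the derivative of the projector -/
def bnd (Γ : ι → ι → ι → M → ℝ) (θ : ι → ι → M → ℝ) : M → ℝ := fun x =>
  ∑ a, ((∑ m, ∑ l, |dT I e Γ θ a m l x|) / 8) ^ 2

end defs

/-- the projector field onto positive spinors -/
def ppf (o : ι → ι → ι → ι → M → ℝ) (p : M → V →L[ℝ] V) (ρ : ι → M → V →L[ℝ] V) :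
    M → V →L[ℝ] V := fun x => pp (fun a b c d => o a b c d x) (p x) fun a => ρ a x

/-- the projector field onto pure spinors -/
def Qf (o : ι → ι → ι → ι → M → ℝ) (p : M → V →L[ℝ] V) (J : V →L[ℝ] V) (ρ : ι → M → V →L[ℝ] V)
    (θ : ι → ι → M → ℝ) : M → V →L[ℝ] V :=
  fun x => Qt (fun a b c d => o a b c d x) (p x) J (fun a => ρ a x) fun a b => θ a b x

variable {e : ι → (x : M) → TangentSpace I x} {P θ : ι → ι → M → ℝ} {g : ι → M → ℝ}
  {c Γ : ι → ι → ι → M → ℝ} {o : ι → ι → ι → ι → M → ℝ} {A ρ : ι → M → V →L[ℝ] V}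
  {p : M → V →L[ℝ] V} {J : V →L[ℝ] V} {u : M → V} {x : M}

theorem con_ad (h : Con I P A) : Con I P fun a y => ad V (A a y) :=
  ⟨fun a x => SA.clm _ (h.sm a x), fun a x => by simp only [← map_smul, ← map_sum, h.proj]⟩

/-- endomorphisms as a Clifford module -/
theorem cc_end (C : CC I e P Γ p ρ A) :
    CC I e P Γ (fun y => ContinuousLinearMap.mul ℝ _ (p y))
      (fun a y => ContinuousLinearMap.mul ℝ _ (ρ a y)) fun a y => ad V (A a y) := by
  have m : ∀ S T : V →L[ℝ] V, ContinuousLinearMap.mul ℝ _ S * ContinuousLinearMap.mul ℝ _ T =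
      ContinuousLinearMap.mul ℝ _ (S * T) := fun S T => by ext1 X; simp [mul_assoc]
  have n : ∀ S T : V →L[ℝ] V, ad V S * ContinuousLinearMap.mul ℝ _ T -
      ContinuousLinearMap.mul ℝ _ T * ad V S = ContinuousLinearMap.mul ℝ _ (S * T - T * S) :=
    fun S T => by
      ext1 X
      simp only [sub_apply, mul_apply_eq_comp, ad_apply, ContinuousLinearMap.mul_apply']
      noncomm_ring
  refine ⟨con_ad C.toCon, fun x => SA.clm _ (C.sp x), fun a x => SA.clm _ (C.sρ a x),
    fun x => ⟨fun a b => ?_, fun a => ?_, fun a => ?_, fun a => ?_⟩, fun a x => ?_,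
    fun a b x => ?_⟩
  · rw [m, m, ← map_add, (C.cl x).rel, map_smul]
  · rw [m, (C.cl x).pl]
  · rw [m, (C.cl x).pr]
  · simp only [← map_smul, ← map_sum, (C.cl x).proj]
  · rw [dv_clm _ (C.sp x).md, n, ← map_add, C.par, map_zero]
  · simp only [dv_clm _ (C.sρ b x).md, n, ← map_add, C.comp, map_sum, map_smul]

theorem sm_dot {X Y : ι → ι → M → ℝ} (hX : ∀ a b, SA I (X a b) x) (hY : ∀ a b, SA I (Y a b) x) :
    SA I (fun y => dot (fun a b => X a b y) fun a b => Y a b y) x :=
  SA.sum _ fun a _ => SA.sum _ fun b _ => (hX a b).mul (hY a b)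

theorem sm_un (F : Wz78.Frm I e P c) (L : LC I e P c Γ) (h : ∀ a b, SA I (θ a b) x) (a b : ι) :
    SA I (un I e c Γ θ a b) x :=
  ((sm_dot (fun m l => L.sRm F a b m l x) h).sub ((sm_dot (fun m l => SA.sum _ fun k _ =>
    ((sm_dT F L h b m k).mul (sm_dT F L h a k l)).sub ((sm_dT F L h a m k).mul (sm_dT F L h b k l)))
    h).div_const 4)).div_const 4

theorem cont_bnd (F : Wz78.Frm I e P c) (L : LC I e P c Γ) (h : ∀ a b x, SA I (θ a b) x) :
    Continuous (bnd I e Γ θ) := by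
  have : ∀ a m l, Continuous (dT I e Γ θ a m l) := fun a m l =>
    continuous_iff_continuousAt.2 fun x => (sm_dT F L (fun a b => h a b x) a m l).continuousAt
  unfold bnd
  fun_prop

theorem un_skew (F : Wz78.Frm I e P c) (L : LC I e P c Γ) (S : Sep I e P) (a b : ι) (x : M) :
    un I e c Γ θ a b x = -un I e c Γ θ b a x := by
  simp only [un, dot, lie, L.Rm_s12 F S a b, sum_sub_distrib, sub_mul, neg_mul, sum_neg_distrib]
  ring

namespace TM
variable (h : TM I e P c Γ o θ p J ρ A)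
include h

theorem cx (x : M) : Cx (fun a b => P a b x) fun a b => θ a b x := h.ak.cx x

theorem sm_om (x : M) : SA I (fun y => omA (fun a b c d => o a b c d y) fun a => ρ a y) x :=
  SA.smul contMDiffAt_const (SA.sum _ fun a _ => SA.sum _ fun b _ => SA.sum _ fun c _ =>
    SA.sum _ fun d _ => SA.smul (h.so a b c d x)
      (SA.mul (SA.mul (SA.mul (h.C.sρ a x) (h.C.sρ b x)) (h.C.sρ c x)) (h.C.sρ d x)))

theorem par_om (a : ι) (x : M) :
    nabE I e A a (fun y => omA (fun a b c d => o a b c d y) fun a => ρ a y) x = 0 := by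
  set w := fun y => omA (fun a b c d => o a b c d y) fun a => ρ a y with hw
  set N := nabE I e A a w x
  have z : nabE I e A a (fun _ => 0) x = 0 := by simp [nabE]
  have hp : nabE I e A a p x = 0 := h.C.par a x
  have e1 : ∀ b, N * ρ b x = -(ρ b x * N) := fun b => by
    have k := nabE_add (e := e) (A := A) a ((h.sm_om x).mul (h.C.sρ b x))
      ((h.C.sρ b x).mul (h.sm_om x))
    have k1 : nabE I e A a (ρ b) x = ∑ k, Γ a b k x • ρ k x := h.C.comp a b x
    rw [nabE_mul a (h.sm_om x) (h.C.sρ b x), nabE_mul a (h.C.sρ b x) (h.sm_om x), k1] at k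
    simp only [(h.pc _).om_ρ, neg_add_cancel, z, mul_sum, sum_mul, mul_smul_comm, smul_mul_assoc,
      smul_neg, sum_neg_distrib] at k
    rw [eq_neg_iff_add_eq_zero, k]
    abel
  have e2 : N * w x + w x * N = 0 := by
    rw [← nabE_mul a (h.sm_om x) (h.sm_om x), ← hp]
    simp only [(h.pc _).om_om]
  have e3 : N * p x = N := by
    have k := nabE_mul (e := e) (A := A) a (h.sm_om x) (h.C.sp x)
    simp only [(h.pc _).om_p, hp, mul_zero, add_zero] at k
    exact k.symm
  have e4 : N * w x = w x * N := by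
    have k : ∀ b T, N * (ρ b x * T) = -(ρ b x * (N * T)) := fun b T => by
      rw [← mul_assoc, e1, neg_mul, mul_assoc]
    simp only [hw, omA, mul_smul_comm, smul_mul_assoc, mul_sum, sum_mul, mul_assoc, k, e1, mul_neg,
      neg_neg]
  rw [← e4, ← two_smul ℝ, smul_eq_zero_iff_right two_ne_zero] at e2
  rw [← e3, ← (h.pc x).om_om, ← mul_assoc, e2, zero_mul]

theorem sm_pp (x : M) : SA I (ppf o p ρ) x :=
  SA.smul contMDiffAt_const ((h.C.sp x).sub (h.sm_om x))

theorem par_pp (a : ι) (x : M) : nabE I e A a (ppf o p ρ) x = 0 := by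
  have hp : nabE I e A a p x = 0 := h.C.par a x
  unfold ppf pp
  rw [nabE_smul a contMDiffAt_const ((h.C.sp x).sub (h.sm_om x)),
    nabE_sub a (h.C.sp x) (h.sm_om x), h.par_om, hp]
  simp

theorem par_J (a : ι) (x : M) : nabE I e A a (fun _ => J) x = 0 := by simp [nabE, h.JA]

theorem sm_S (x : M) : SA I (sp ρ θ) x := sm_sp (fun a => h.C.sρ a x) fun a b => h.ak.sm a b x

theorem op : OP I (Qf o p J ρ θ) :=
  ⟨fun x => SA.smul contMDiffAt_const ((h.sm_pp x).sub ((h.sm_S x).mul contMDiffAt_const)),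
    fun x v => congrArg (· v) ((h.pc x).Q_Q (h.cx x) (h.sd x)), fun x => (h.pc x).Q_s (h.cx x)⟩

theorem N_eq' (a : ι) (x : M) :
    nabE I e A a (Qf o p J ρ θ) x = (-1 / 2 : ℝ) • (nabE I e A a (sp ρ θ) x * J) := by
  have k := (h.sm_S x).mul (contMDiffAt_const (c := J))
  change nabE I e A a (fun y => (1 / 2 : ℝ) • (ppf o p ρ y - sp ρ θ y * J)) x = _
  rw [nabE_smul a contMDiffAt_const ((h.sm_pp x).sub k), nabE_sub a (h.sm_pp x) k, h.par_pp,
    nabE_mul a (h.sm_S x) contMDiffAt_const, h.par_J]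
  simp only [dv_const, Pi.zero_apply, mul_zero]
  module

theorem N_eq (a : ι) (x : M) :
    nabE I e A a (Qf o p J ρ θ) x = (-1 / 2 : ℝ) • (sp ρ (dT I e Γ θ a) x * J) := by
  rw [h.N_eq', nabE_sp h.C h.F h.L (fun a b => h.ak.sm a b x) (h.cx x).proj
    ((h.cx x).proj' (h.F.pr x))]

theorem har (x : M) : ∑ a, ρ a x * nabE I e A a (Qf o p J ρ θ) x = 0 := by
  simp only [h.N_eq', mul_smul_comm, ← smul_sum, ← mul_assoc, ← sum_mul, h.ak.har h.C h.F h.L x,
    zero_mul, smul_zero]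

theorem p_N (a : ι) (x : M) :
    p x * nabE I e A a (Qf o p J ρ θ) x = nabE I e A a (Qf o p J ρ θ) x := by
  rw [h.N_eq, mul_smul_comm, ← mul_assoc, sp, (h.C.cl x).p_spin]

theorem N_le (x : M) (v : V) :
    ∑ a, ‖nabE I e A a (Qf o p J ρ θ) x v‖ ^ 2 ≤ bnd I e Γ θ x * ‖v‖ ^ 2 := by
  rw [bnd, sum_mul]
  refine sum_le_sum fun a _ => ?_
  rw [← mul_pow, h.N_eq, sp, ← (h.pc x).J_spin, smul_apply, mul_apply_eq_comp, norm_smul,
    (h.pc x).norm_J (by rw [← mul_apply_eq_comp, (h.C.cl x).p_spin])]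
  refine pow_le_pow_left₀ (by positivity) ?_ 2
  have := (h.pc x).norm_spin (fun m l => dT I e Γ θ a m l x) v
  norm_num
  linarith

theorem tw_J (a b : ι) (x : M) : tw I e c Γ p ρ A a b x * J = J * tw I e c Γ p ρ A a b x := by
  have := h.F.curv_par (fun a => h.C.sm a x) (contMDiffAt_const (c := J))
    (fun a => Eventually.of_forall (h.par_J a)) a b
  rw [tw, sub_mul, mul_sub, (h.pc x).J_spin, mul_assoc, ← (h.pc x).Jp, ← mul_assoc, this, mul_assoc]

theorem tw_p (a b : ι) (x : M) : tw I e c Γ p ρ A a b x * p x = p x * tw I e c Γ p ρ A a b x := by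
  rw [tw, sub_mul, mul_sub, (h.C.cl x).p_spin, (h.C.cl x).spin_p, ← mul_assoc, ← h.C.curv_p h.F]

theorem tw_Q (a b : ι) (x : M) :
    tw I e c Γ p ρ A a b x * Qf o p J ρ θ x = Qf o p J ρ θ x * tw I e c Γ p ρ A a b x :=
  comm_Q (fun m => h.C.tw_comm h.L h.F a b m x) (h.tw_p a b x) (h.tw_J a b x)

theorem NQ (a : ι) (x : M) : nabE I e A a (Qf o p J ρ θ) x * Qf o p J ρ θ x +
    Qf o p J ρ θ x * nabE I e A a (Qf o p J ρ θ) x = nabE I e A a (Qf o p J ρ θ) x := by
  rw [← nabE_mul a (h.op.sm x) (h.op.sm x)]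
  exact congrArg (nabE I e A a · x) (_root_.funext fun y => (h.pc y).Q_Q (h.cx y) (h.sd y))

/-- the curvature of the bundle of pure spinors -/
theorem G_eq (a b : ι) (x : M) : let Q := Qf o p J ρ θ; let N := fun a => nabE I e A a Q x
    Q x * curv I e c A a b x * Q x + (N a * N b - N b * N a) * Q x =
      (tw I e c Γ p ρ A a b x + un I e c Γ θ a b x • J) * Q x := by
  intro Q N
  have k := h.pc x
  have q : Q x * Q x = Q x := k.Q_Q (h.cx x) (h.sd x)
  have d := h.ak.dx h.F h.L x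
  have e1 : curv I e c A a b x * Q x = (tw I e c Γ p ρ A a b x +
      spin (fun a => ρ a x) fun m l => Rm I e c Γ a b m l x) * Q x := by
    rw [tw, sub_add_cancel, mul_assoc]
    exact congrArg _ k.p_Q.symm
  have e2 : ∀ a b, N a * N b * Q x = Q x * (N a * N b) * Q x := fun a b => by
    have : N a * N b * Q x = Q x * (N a * N b) := by
      rw [mul_assoc, eq_sub_of_add_eq (h.NQ b x), mul_sub, ← mul_assoc,
        eq_sub_of_add_eq (h.NQ a x), sub_mul, sub_sub_cancel, mul_assoc]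
    rw [← this, mul_assoc _ (Q x), q]
  have e3 : ∀ a b, N a * N b = (-1 / 4 : ℝ) • (sp ρ (dT I e Γ θ a) x * sp ρ (dT I e Γ θ b) x) :=
    fun a b => by
      simp only [N, Q, h.N_eq, smul_mul_smul_comm, sp, ← k.J_spin]
      rw [mul_assoc, ← mul_assoc (spin _ _), ← k.J_spin, mul_assoc,
        k.JJ' (by rw [← mul_assoc, k.cl.p_spin])]
      module
  have e4 := k.Q_spin_Q (h.cx x) (h.sd x) fun m l => h.L.Rm_s34 h.F a b m l x
  have s : ∀ a, Sk (fun a b => P a b x) fun m l => dT I e Γ θ a m l x :=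
    fun a => ⟨d.skew a, d.proj a⟩
  have e5 := k.Q_spin_Q (h.cx x) (h.sd x) ((s a).lie (s b)).skew
  rw [← spin_lie k.cl (s a)] at e5
  rw [mul_assoc, e1, sub_mul, e2 a, e2 b, ← sub_mul, ← mul_sub, e3, e3, ← smul_sub, add_mul,
    mul_add, ← mul_assoc, ← h.tw_Q, mul_assoc, q, ← mul_assoc, mul_smul_comm, smul_mul_assoc]
  erw [e4, e5]
  rw [add_mul, smul_mul_assoc, un]
  change _ + _ • (J * Q x) + _ • _ • (J * Q x) = _
  module

theorem key' (hg : ∀ k, g k x = ∑ a, Γ a k a x) : let Q := Qf o p J ρ θ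
    (wK I e c ρ A x - K0 I e g A Q x) * Q x = (1 / 2 : ℝ) • ∑ a, ∑ b, ρ a x * ρ b x *
      ((tw I e c Γ p ρ A a b x + un I e c Γ θ a b x • J) * Q x) := by
  intro Q
  have e1 := (cc_end h.C).weitz h.L h.F hg (h.op.sm x)
    (Eventually.of_forall fun y => (h.pc y).p_Q)
  have e2 : dir I e (fun a y => ContinuousLinearMap.mul ℝ _ (ρ a y)) (fun a y => ad V (A a y)) Q =
      fun _ => 0 := _root_.funext h.har
  rw [e2] at e1
  simp only [dir, nab, dv_const, Pi.zero_apply, map_zero, add_zero, sum_const_zero, wK,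
    curv_ad fun a => h.C.sm a x, smul_apply, _root_.sum_apply, mul_apply_eq_comp,
    ContinuousLinearMap.mul_apply', ad_apply] at e1
  have e3 := (h.C.cl x).weitz (V := V →L[ℝ] V) fun a b => nabE I e A b Q x * nabE I e A a Q x
  have e4 : ∀ a, ∑ b, P a b x • nabE I e A b Q x = nabE I e A a Q x :=
    fun a => h.F.projN (con_ad h.C.toCon) a Q x
  simp only [smul_eq_mul, ← smul_mul_assoc (P _ _ x), ← sum_mul, e4, mul_sum, ← mul_assoc (p x),
    h.p_N, Q] at e3
  simp only [mul_assoc (ρ _ x), ← mul_sum] at e3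
  simp only [← mul_assoc (ρ _ x) (nabE ..), ← sum_mul, h.har, zero_mul, mul_zero,
    sum_const_zero] at e3
  have q : Qf o p J ρ θ x * Qf o p J ρ θ x = Qf o p J ρ θ x := (h.pc x).Q_Q (h.cx x) (h.sd x)
  rw [Wz78.lap, eq_comm, neg_add_eq_zero] at e1
  rw [eq_comm, neg_add_eq_zero] at e3
  have e5 := fun a b => h.G_eq a b x
  simp only at e5
  simp only [← e5, K0, sum_add_distrib (g := fun a => nabE I e A a Q x * nabE I e A a Q x), Q]
  erw [e1, e3]
  simp only [wK, sub_mul, add_mul, mul_add, mul_sub, sum_add_distrib, sum_sub_distrib,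
    smul_mul_assoc, sum_mul, mul_sum, mul_assoc, q]
  module

/-- **the Weitzenboeck term on pure spinors** -/
theorem key (hg : ∀ k, g k x = ∑ a, Γ a k a x) {v : V} {f : ι → ι → ℝ}
    (hv : ∀ a b, tw I e c Γ p ρ A a b x v = f a b • J v) (w : V) : let Q := Qf o p J ρ θ
    ⟪(wK I e c ρ A x - K0 I e g A Q x) (Q x v), w⟫_ℝ =
      dot (fun a b => f a b + un I e c Γ θ a b x) (mm J (fun a => ρ a x) (Q x v) w) / 2 := by
  intro Q
  have e1 : ∀ a b, tw I e c Γ p ρ A a b x (Q x v) = f a b • J (Q x v) := fun a b => by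
    rw [← mul_apply_eq_comp, h.tw_Q, mul_apply_eq_comp, hv, map_smul, ← mul_apply_eq_comp,
      ← mul_apply_eq_comp]
    exact congrArg (fun T : V →L[ℝ] V => f a b • T v) (h.pc x).J_Q.symm
  rw [← mul_apply_eq_comp, h.key' hg]
  simp only [smul_apply, _root_.sum_apply, mul_apply_eq_comp, add_apply, e1, ← add_smul, map_smul,
    real_inner_smul_left, sum_inner, dot, mm, Q]
  ring

/-- the derivative of a parallel pure spinor -/
theorem nab_eq (hu : ∀ y, SA I u y) (hq : ∀ y, Qf o p J ρ θ y (u y) = u y)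
    (hn : ∀ a y, Qf o p J ρ θ y (nab I e A a u y) = 0) (a : ι) (x : M) :
    nab I e A a u x = nabE I e A a (Qf o p J ρ θ) x (u x) := by
  rw [h.op.nab hu hq, hn, add_zero]

theorem dir_eq (hu : ∀ y, SA I u y) (hq : ∀ y, Qf o p J ρ θ y (u y) = u y)
    (hn : ∀ a y, Qf o p J ρ θ y (nab I e A a u y) = 0) (x : M) : dir I e ρ A u x = 0 := by
  have := congrArg (· (u x)) (h.har x)
  simpa [dir, h.nab_eq hu hq hn] using this

/-- **flatness** -/
theorem flat (hu : ∀ y, SA I u y) (hq : ∀ y, Qf o p J ρ θ y (u y) = u y)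
    (hn : ∀ a y, Qf o p J ρ θ y (nab I e A a u y) = 0) (a b : ι) (x : M) :
    tw I e c Γ p ρ A a b x (u x) = -un I e c Γ θ a b x • J (u x) := by
  have e1 := congrArg (· (u x)) (h.G_eq a b x)
  have e2 := h.F.nab_comm (fun a => h.C.sm a x) a b (hu x)
  have e3 := congrArg (· (u x)) (h.F.nab_comm (fun a => (con_ad h.C.toCon).sm a x) a b (h.op.sm x))
  have e4 : ∀ a b, nab I e A a (nab I e A b u) x = nabE I e A a (nabE I e A b (Qf o p J ρ θ)) x (u x)
      + nabE I e A b (Qf o p J ρ θ) x (nabE I e A a (Qf o p J ρ θ) x (u x)) := fun a b => by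
    rw [_root_.funext (h.nab_eq hu hq hn b), nab_app' a
      (h.F.sNE (fun a => h.C.sm a x) b (h.op.sm x)) (hu x), h.nab_eq hu hq hn]
  simp only [curv_ad fun a => h.C.sm a x, ← nabE_eq, sub_apply, _root_.sum_apply, smul_apply,
    ad_apply, mul_apply_eq_comp, hq] at e3
  simp only [e4, h.nab_eq hu hq hn _ x] at e2
  simp only [add_apply, sub_apply, smul_apply, mul_apply_eq_comp, hq] at e1
  rw [neg_smul, eq_neg_iff_add_eq_zero, ← e1]
  linear_combination (norm := module) e3 - e2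

end TM

end Crest.Agent.X212.Taub88
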