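import Crest.Agent.X212.Taub88.Can
import Crest.Agent.X212.Mp86.Swb

/-!
# Row 212, TAUB (helper88): the canonical class and the leaf `TaubL`
-/

set_option autoImplicit false
set_option linter.unusedSectionVars false
noncomputable section
open scoped Manifold ContDiff Topology InnerProductSpace
open MeasureTheory Finset

namespace Crest.Agent.X212.Taub88
open An Wz78 Abel74 Sob92 Num57 Crest.Agent.R208 Crest.Agent.R208.F
open Eq82 (Bk SWs cl2 lcl lab H2)
open Line51 (Ln)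
open Dr59 (Cl Dg Ex SmAt dM)

variable {E : Type} [NormedAddCommGroup E] [NormedSpace ℝ E] [FiniteDimensional ℝ E]
  [MeasurableSpace E] [BorelSpace E]
  {HM : Type} [TopologicalSpace HM] {I : ModelWithCorners ℝ E HM} [I.Boundaryless]
  {M : Type} [TopologicalSpace M] [ChartedSpace HM M] [IsManifold I ∞ M]
  [MeasurableSpace M] [BorelSpace M] [SecondCountableTopology M] [T2Space M] [CompactSpace M]
  {ι : Type} [Fintype ι] [DecidableEq ι] {κ : Type} [Fintype κ] [DecidableEq κ]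
  {F F' : Fr I M ι} {w w' α β : M → Ext E} {x : M}

/-! ### closed forms in components -/

theorem e3_mul {u v : Ext E} (hu : FI.IsDeg 1 u) (x : M) (a b c : ι) :
    e3 (u * v) (ee F x a) (ee F x b) (ee F x c) = e1 u (ee F x a) * e2 v (ee F x b) (ee F x c)
      - e1 u (ee F x b) * e2 v (ee F x a) (ee F x c)
      + e1 u (ee F x c) * e2 v (ee F x a) (ee F x b) := by
  conv_lhs => rw [(cf F x).eq1 hu]
  simp only [sum_mul, smul_mul_assoc, e3_sum, e3_smul, e3_io_mul, (cf F x).te]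
  simp only [mul_sub, mul_add, sum_sub_distrib, sum_add_distrib, ← mul_assoc, ← sum_mul]
  have h : ∀ a, ∑ i, e1 u (ee F x i) * F.P i a x = e1 u (ee F x a) := fun a => by
    rw [← (cf F x).p1 u a]
    exact sum_congr rfl fun i _ => by rw [F.P_symm i a, mul_comm]
  rw [h, h, h]

theorem d3_mul (hα : SmAt I α x) (hβ : SmAt I β x) (dα : Dg 1 Set.univ α) (dβ : Dg 1 Set.univ β)
    (a b m : ι) : e3 (dM I (α * β) x) (ee F x a) (ee F x b) (ee F x m) =
      d3 I F.e F.c (k2 F (α * β)) a b m x + d3 I F.e F.c (k2 F (α * β)) b m a x +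
        d3 I F.e F.c (k2 F (α * β)) m a b x := by
  have e : k2 F (α * β) = fun a b y => k1 F α a y * k1 F β b y - k1 F α b y * k1 F β a y :=
    funext₂ fun a b => funext fun y => e2_mul F (dα y trivial) y a b
  have s := sa_k1 F hα
  have s' := sa_k1 F hβ
  have c := congrFun (mul_comm2 (dα.dM (I := I) isOpen_univ) β) x
  have k := k2_dM F hα (.of_forall fun y => dα y trivial)
  have k' := k2_dM F hβ (.of_forall fun y => dβ y trivial)
  simp only [k2, Pi.mul_apply] at k k' c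
  rw [Dr59.dM_mul Dr59.ne0 hα hβ, c, Dr59.inv_of_deg (dα x trivial), smul_mul_assoc, e3_add, e3_smul,
    e3_mul (dα x trivial), e3_mul (dβ x trivial), k, k, k, k', k', k']
  have t : ∀ a b m, ∑ k, F.c a b k x * (k1 F α k x * k1 F β m x - k1 F α m x * k1 F β k x) =
      (∑ k, F.c a b k x * k1 F α k x) * k1 F β m x - k1 F α m x * ∑ k, F.c a b k x * k1 F β k x :=
    fun a b m => by
      rw [sum_mul, mul_sum, ← sum_sub_distrib]
      exact sum_congr rfl fun _ _ => by ring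
  simp only [e, d3, dv_sub' ((s _).mul (s' _)) ((s _).mul (s' _)), dv_mul (s _) (s' _), Pre.D_def, t]
  simp only [c_anti F m a, neg_mul, sum_neg_distrib, k1]
  ring

theorem d3_closed (h : Cl I 2 Set.univ w) (a b m : ι) (x : M) :
    d3 I F.e F.c (k2 F w) a b m x + d3 I F.e F.c (k2 F w) b m a x +
      d3 I F.e F.c (k2 F w) m a b x = 0 := by
  have e : w = ∑ c, th F c * fm1 F fun d y => 1 / 2 * k2 F w c d y := funext fun y => by
    rw [← fm2_k2 F (h.dg y trivial), fm2_apply, Finset.sum_apply]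
    simp only [Pi.mul_apply, fm1_apply, mul_sum, mul_smul_comm, th]
  have s : ∀ c, SmAt I (fm1 F fun d y => 1 / 2 * k2 F w c d y) x := fun c =>
    smAt_fm1 F fun d => SA.mul contMDiffAt_const (sa_k2 F (h.sm x trivial) c d)
  have e1 := congrArg (e3 · (ee F x a) (ee F x b) (ee F x m)) (h.cl x trivial)
  have e2 : k2 F w = fun a b y => ∑ c, k2 F (th F c * fm1 F fun d y => 1 / 2 * k2 F w c d y) a b y :=
    funext₂ fun a b => funext fun y => by
      conv_lhs => rw [e]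
      rw [k2, Finset.sum_apply, e2_sum]
      rfl
  rw [e, Dr59.dM_sum Dr59.ne0 fun c _ => (smAt_th F c x).mul (s c)] at e1
  simp only [e3_sum, fun c => d3_mul (F := F) (smAt_th F c x) (s c) (fun y _ => Dr59.isDeg_io _)
    fun y _ => deg_fm1 F _ y] at e1
  rw [e2]
  simp only [d3, dv_sum' _ fun c => sa_k2 F ((smAt_th F c x).mul (s c)) _ _, mul_sum] at e1 ⊢
  simp only [sum_add_distrib, sum_sub_distrib] at e1
  rw [sum_comm, sum_comm (f := fun k i => F.c b m k x * _), sum_comm (f := fun k i => F.c m a k x * _)]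
  exact e1.trans (by simp [e3])

/-! ### the canonical class -/

theorem anti_alg {P θ θ' a a' : ι → ι → ℝ} {o : ι → ι → ι → ι → ℝ} {U : Fin 4 → ι → ℝ} {t t' : ℝ}
    (hU : On P o U) (h4 : ∑ i, P i i = 4) (c : Cx P θ) (s : SD o θ) (c' : Cx P θ') (s' : SD o θ')
    (ht : 0 < t) (ht' : 0 < t') (e : sdp o a = fun i j => t * θ i j)
    (e' : sdp o a' = fun i j => t' * θ' i j) (p : 0 < dot a (hs2 o a)) (p' : 0 < dot a' (hs2 o a'))
    (q : 0 ≤ dot a' (hs2 o a)) : -4 < dot θ θ' := by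
  have st : ∀ {a θ : ι → ι → ℝ} {t : ℝ}, (sdp o a = fun i j => t * θ i j) →
      hs2 o a = fun i j => 2 * t * θ i j + -1 * a i j := fun h => funext₂ fun i j => by
    have := congrFun₂ h i j
    simp only [sdp] at this
    linarith
  have d : ∀ {a θ η : ι → ι → ℝ} {t : ℝ}, (sdp o a = fun i j => t * θ i j) → SD o η →
      dot a η = t * dot η θ := fun h k => by rw [← k.dot_sdp hU, h, dot_comm, dot_mul]
  have n := dot_nonneg fun i j => t' * a i j + (t * a' i j + (-(t * t') * θ i j + -(t * t') * θ' i j))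
  rw [st e] at p q
  rw [st e'] at p'
  simp only [dot_add, dot_mul] at n p p' q
  simp only [dot_comm (fun _ _ => _ + _), dot_add, dot_mul, dot_comm θ a, dot_comm θ a',
    dot_comm θ' a, dot_comm θ' a', dot_comm a a', d e s, d e s', d e' s, d e' s', dot_comm θ' θ,
    c.dot_self h4, c'.dot_self h4] at n p p' q
  have k := mul_pos ht ht'
  nlinarith [mul_pos (mul_pos ht' ht') p, mul_pos (mul_pos ht ht) p', mul_nonneg k.le q,
    mul_pos k k]

theorem uF_neg {θ : ι → ι → M → ℝ} : uF F (fun a b x => -θ a b x) = fun a b x => -uF F θ a b x := by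
  have e : dT I F.e F.Gam (fun a b x => -θ a b x) = fun a b m x => -dT I F.e F.Gam θ a b m x := by
    funext a b m x
    have : dv I (F.e a) (fun x => -θ b m x) x = -dv I (F.e a) (θ b m) x := dv_neg _ _
    simp only [dT, this, mul_neg, neg_mul, sum_neg_distrib]
    ring
  funext a b x
  simp only [uF, un, e, lie, dot, mul_neg, neg_mul, neg_neg, sum_neg_distrib]
  ring

/-- the canonical class of an almost Kaehler frame -/
def kc (F : Fr I M ι) (θ : ι → ι → M → ℝ) : H2 I M := -Real.pi⁻¹ • cl2 I (fm2 F (uF F θ))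

open Classical in
/-- the canonical class of a positive closed form -/
def Kc (X : Bk I M ι) (w : M → Ext E) : H2 I M :=
  if h : ∃ F, Cp X w F then kc h.choose (k2 h.choose w) else 0

variable {X : Bk I M ι} {L : Ln E M κ} {θ θ' : ι → ι → M → ℝ} {r : ℝ}
  {c : Cfg M ι (κ ⊕ κ) 0} {ξ : M → c.m.A}

theorem Cp.ak (h : Cp X w F) (hw : Cl I 2 Set.univ w) (L : Ln E M κ) : Ak (X.B L) F (k2 F w) :=
  ⟨⟨fun a b x => sa_k2 F (hw.sm x trivial) a b, h.cx, h.sd⟩, d3_closed hw⟩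

theorem rat_eq (hw : Cl I 2 Set.univ w) (x : M) : Int54.rat (vol X.F X.o) (w * w') x =
    dot (fun a b => k2 X.F w' a b x) (hs2 (fun a b c d => X.o a b c d x) fun a b => k2 X.F w a b x)
      / 2 := by
  rw [rat_vol_mul X.F X.ok.h4 (X.ok.vo' x) (hw.dg x trivial), comm22]
  simp only [dot, hs2, mul_sum, sum_div, mul_div_assoc']
  exact sum_congr rfl fun _ _ => sum_congr rfl fun _ _ => sum_congr rfl fun _ _ =>
    sum_congr rfl fun _ _ => by ring

theorem Cp.anti (h : Cp X w F) (h' : Cp X w' F') (s : X.Sy w w') (x : M) :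
    -4 < dot (fun a b => k2 F w a b x) fun a b => k2 F' w' a b x := by
  have hB := B_ok X (Line51.on_triv (U := Set.univ) Dr59.Sm.zero Dr59.Dg.zero)
  obtain ⟨U, hU⟩ := b_on hB x
  obtain ⟨t, ht, e⟩ := h.dir x
  obtain ⟨t', ht', e'⟩ := h'.dir x
  have p := s.pos x
  have p' := s.pos' x
  have q := s.mix x
  rw [rat_eq s.cl] at p q
  rw [rat_eq s.cl'] at p'
  exact anti_alg (o := fun a b c d => X.o a b c d x) hU (hB.rk x) (h.cx x) (h.sd x) (h'.cx x)
    (h'.sd x) ht ht' e e' (by linarith) (by linarith) (by linarith)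

theorem Cp.neg (h : Cp X w F) : Cp X (-w) F := by
  have e : ∀ (F : Fr I M ι) a b x, k2 F (-w) a b x = -k2 F w a b x := fun F a b x => e2_neg _ _ _
  refine ⟨h.pos, fun x => ⟨fun a b => ?_, fun a b => ?_, fun a b => ?_⟩, fun x => ?_, fun x => ?_⟩
  · rw [e, e, (h.cx x).skew]
  · simp only [e, neg_mul, sum_neg_distrib, (h.cx x).proj]
  · simp only [e, neg_mul_neg, (h.cx x).sq]
  · funext a b
    simp only [hs2, e, neg_mul, sum_neg_distrib, neg_div]
    exact congrArg _ (congrFun₂ (h.sd x) a b)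
  · refine (h.dir x).imp fun t ⟨ht, k⟩ => ⟨ht, funext₂ fun a b => ?_⟩
    have := congrFun₂ k a b
    simp only [sdp, hs2, e, neg_mul, sum_neg_distrib, neg_div] at this ⊢
    linarith

variable (hL : L.On I Set.univ) (hF : X.Pos F) (K : Ak (X.B L) F θ)
  (h : Cn (X.B L) (L.geo F) θ r c ξ) (hr : 0 < r)
include hL hF K h hr

omit K hr in
theorem Cn.cl_fm : Cl I 2 Set.univ (fm F c.m c.W ξ) :=
  Red.cl_fm (G := L.geo F) h.spt.toRed (G_ok hL hF) h.adm.conn

omit K hr in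
theorem Cn.k2_fm (a b : ι) (x : M) : k2 F (fm F c.m c.W ξ) a b x = fF F c.m c.W ξ a b x :=
  Abel74.k2_fm (G := L.geo F) (G_ok hL hF) h.adm.conn a b x

theorem Cn.uF_eq (a b : ι) (x : M) :
    uF F θ a b x = -(fF F c.m c.W ξ a b x + 1 / 2 * k2 F (L.F I) a b x) := by
  have := h.fF_eq (B_ok X hL) (G_ok hL hF) K hr a b x
  rw [Mp86.fL_ln hL (B_ok X hL) rfl rfl] at this
  change fF F _ _ _ _ _ _ = -(k2 F (L.F I) a b x / 2 + uF F θ a b x) at this
  linarith

theorem Cn.fm_eq : fm2 F (uF F θ) = -(fm F c.m c.W ξ + (1 / 2 : ℝ) • L.F I) := by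
  funext x
  rw [Pi.neg_apply, Pi.add_apply, Pi.smul_apply, ← fm2_k2 F ((hL.cl_F isOpen_univ).dg x trivial)]
  simp only [fm, fm2_apply, h.uF_eq hL hF K hr, smul_sum, ← sum_add_distrib, ← sum_neg_distrib]
  exact sum_congr rfl fun _ _ => sum_congr rfl fun _ _ => by module

theorem Cn.cl_uF : Cl I 2 Set.univ (fm2 F (uF F θ)) :=
  h.fm_eq hL hF K hr ▸ ((h.cl_fm hL hF).add ((hL.cl_F isOpen_univ).smul _)).neg

theorem Cn.can : lab F c ξ + lcl I L = kc F θ := by
  have c1 := h.cl_fm hL hF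
  have c2 := hL.cl_F isOpen_univ
  rw [kc, h.fm_eq hL hF K hr, cl2_eq (c1.add (c2.smul _)).neg, Dr59.cls_neg (c1.add (c2.smul _)),
    Dr59.cls_add c1 (c2.smul _), Dr59.cls_smul _ c2, lab, lcl, cl2_eq c1, cl2_eq c2]
  module

theorem Cn.sq : X.Q (kc F θ) (kc F θ) =
    Real.pi⁻¹ ^ 2 / 4 * ∫ x, Idg99.wf X.o (uF F θ) (uF F θ) x ∂F.μ := by
  have c1 := h.cl_uF hL hF K hr
  have e : ∀ a b x, k2 F (fm2 F (uF F θ)) a b x = uF F θ a b x := fun a b x => by
    rw [h.fm_eq hL hF K hr, h.uF_eq hL hF K hr, ← h.k2_fm hL hF, ← k2_smul, ← k2_add]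
    exact e2_neg _ _ _
  simp only [kc, cl2_eq c1, map_smul, LinearMap.smul_apply, Q_eq hF, Q_cls, smul_eq_mul,
    integ_mul (okF hF) c1.dg, e]
  simp only [Idg99.wf, Idg99.c4]
  ring

theorem Cn.Q_sub (hw : Cl I 2 Set.univ w) (e : θ = k2 F w) {c' : Cfg M ι (κ ⊕ κ) 0}
    {ζ : M → c'.m.A} (A : c'.Adm (X.B L) (L.geo F)) (S : SPt F c' ζ) :
    X.Q (cl2 I w) (lab F c' ζ - lab F c ξ) = (2 * Real.pi)⁻¹ * ∫ x,
      dot (fun a b => fF F c'.m c'.W ζ a b x - fF F c.m c.W ξ a b x) (fun a b => θ a b x) ∂F.μ := by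
  have i : ∀ {c : Cfg M ι (κ ⊕ κ) 0} {ξ : M → c.m.A}, c.Adm (X.B L) (L.geo F) → SPt F c ξ →
      Integrable (pv F X.o w (fF F c.m c.W ξ)) F.μ := fun A S =>
    (sm_pv hw (Red.sm_fF (G := L.geo F) S.toRed (B_ok X hL) (G_ok hL hF) A.ok
      A.conn)).continuous.integrable_of_hasCompactSupport (.of_compactSpace _)
  have g : ∀ a b x, Abel74.gm F X.o w a b x = 2 * θ a b x := fun a b x => by
    have := congrFun₂ (K.sd x) a b
    simp only [hs2, e] at this
    rw [Abel74.gm, e, ← this, mul_div_cancel₀ _ two_ne_zero]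
    exact sum_congr rfl fun i _ => sum_congr rfl fun j _ => by
      rw [o_pair (B_ok X hL) i j, mul_comm]; rfl
  rw [cl2_eq hw, Bk.Q, Q_symm, map_sub, LinearMap.sub_apply, ← Bk.Q,
    Q_lab hL hF A.conn S.toRed, Q_lab hL hF h.adm.conn h.spt.toRed, ← mul_sub,
    ← integral_sub (i A S) (i h.adm h.spt)]
  simp only [pv, g, ← sum_sub_distrib, Fintype.sum_prod_type, dot, ← integral_const_mul, mul_sum]
  refine integral_congr_ae (.of_forall fun x => ?_)
  exact sum_congr rfl fun _ _ => sum_congr rfl fun _ _ => by ring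

omit h hr in
theorem ex_cn (hI : IsoStmt I M ι (κ ⊕ κ)) (hC : CanStmt I M ι (κ ⊕ κ)) (hr : 0 ≤ r) :
    ∃ c ξ, Cn (X.B L) (L.geo F) θ r c ξ := by
  obtain ⟨m, u, H, U⟩ := hC _ θ (B_ok X hL) K.toTh
  obtain ⟨ξ, h⟩ := exists_xi hI (B_ok X hL) K.toTh H U
  exact (h.cn (B_ok X hL) (G_ok hL hF) hr).elim fun W c => ⟨_, _, c⟩

omit h hr in
theorem kc_eq (hI : IsoStmt I M ι (κ ⊕ κ)) (hC : CanStmt I M ι (κ ⊕ κ)) (hF' : X.Pos F')
    (K' : Ak (X.B L) F' θ') (hd : ∀ x, -4 < dot (fun a b => θ a b x) fun a b => θ' a b x) :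
    kc F θ = kc F' θ' := by
  have hB := B_ok X hL
  obtain ⟨m, u, H, U⟩ := hC _ θ hB K.toTh
  obtain ⟨ξ, h⟩ := exists_xi hI hB K.toTh H U
  obtain ⟨v, h'⟩ := h.chg hB K'.toTh hd
  obtain ⟨W, c⟩ := h.cn hB (G_ok hL hF) zero_le_one
  obtain ⟨W', c'⟩ := h'.cn hB (G_ok hL hF') zero_le_one
  rw [← c.can hL hF K one_pos, ← c'.can hL hF' K' one_pos, lab, lab, cl2_eq (c.cl_fm hL hF),
    cl2_eq (c'.cl_fm hL hF'), (Dr59.cls_eq (h := c.cl_fm hL hF) (h' := c'.cl_fm hL hF')).2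
      (Red.ex_sub (G := L.geo F') (G' := L.geo F) c'.spt.toRed (G_ok hL hF') c'.adm.conn
        c.spt.toRed (G_ok hL hF) c.adm.conn)]

omit K h hr in
/-- the Taubes datum -/
theorem ex_tb (hI : IsoStmt I M ι (κ ⊕ κ)) (hC : CanStmt I M ι (κ ⊕ κ)) (hw : Cl I 2 Set.univ w)
    (K : Ak (X.B L) F (k2 F w)) : Nonempty (Eq82.Tb X L w (kc F (k2 F w))) := by
  have hB := B_ok X hL
  have hG := G_ok hL hF
  obtain ⟨m, u, H, -⟩ := hC _ _ hB K.toTh
  obtain ⟨W, C⟩ := Spn45.exists_conn hB hG H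
  have T := tm_of (G := L.geo F) hB hG H C K
  obtain ⟨b₀, hb₀⟩ := (isCompact_range (cont_bnd T.F T.L fun a b x => K.sm a b x)).bddAbove
  have hb := fun x => (hb₀ ⟨x, rfl⟩).trans (le_abs_self b₀)
  have hr : 16 * |b₀| < 16 * |b₀| + 1 := lt_add_one _
  have r0 : 0 < 16 * |b₀| + 1 := by positivity
  obtain ⟨c, ξ, h⟩ := ex_cn hL hF K hI hC r0.le
  have c1 := (h.cl_fm hL hF).add (hw.smul ((16 * |b₀| + 1) / 16))
  have e : Eq82.cmp F (fm F c.m c.W ξ + ((16 * |b₀| + 1) / 16) • w) =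
      eta (L.geo F).F c ξ (k2 F w) (16 * |b₀| + 1) := funext₂ fun x s => by
    rw [Eq82.cmp, k2_add, k2_smul, h.k2_fm hL hF]
    rfl
  refine ⟨F, _, c, ξ, hF, ⟨c1.sm, c1.dg⟩, e ▸ h.sws hB hG K, fun y e => ?_, h.can hL hF K r0,
    fun c' ζ S => ?_, h.reg hB hG K hb (abs_nonneg _) hr⟩
  · have := h.nrm y
    rw [e, norm_zero] at this
    linarith
  · rw [h.Q_sub hL hF K r0 hw rfl S.adm S.spt]
    refine (lt_or_ge 0 _).imp (mul_pos (by positivity)) fun hd => ?_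
    have h' := h.deg hB hG K hb (abs_nonneg _) hr (e ▸ S) hd
    exact ⟨h'.iso hI hB hG K h r0,
      add_right_cancel ((h'.can hL hF K r0).trans (h.can hL hF K r0).symm)⟩

omit hL hF K h hr

theorem Sy.self (s : X.Sy w w') : X.Sy w w := ⟨s.cl, s.cl, s.pos, s.pos, fun x => (s.pos x).le⟩

theorem Sy.self' (s : X.Sy w w') : X.Sy w' w' :=
  ⟨s.cl', s.cl', s.pos', s.pos', fun x => (s.pos' x).le⟩

theorem Sy.neg (s : X.Sy w w') : X.Sy (-w) (-w') :=
  ⟨s.cl.neg, s.cl'.neg, by simpa using s.pos, by simpa using s.pos', by simpa using s.mix⟩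

/-- **the leaf** from its four parts -/
theorem taubL_of (hI : ∀ (lam : Type) [Fintype lam], IsoStmt I M ι lam)
    (hC : ∀ (lam : Type) [Fintype lam], CanStmt I M ι lam) (hP : CompatStmt X)
    (hS : SqStmt X (Line51.triv 0)) : Eq82.TaubL X := by
  have hL := Line51.on_triv (I := I) (U := (Set.univ : Set M)) Dr59.Sm.zero Dr59.Dg.zero
  have k : ∀ {w w' F}, X.Sy w w' → Cp X w' F → Kc X w = kc F (k2 F w') := fun {w w' F} s h => by
    have e := hP w (Sy.self s)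
    rw [Kc, dif_pos e]
    exact kc_eq hL e.choose_spec.pos (e.choose_spec.ak s.cl _) (hI _) (hC _) h.pos (h.ak s.cl' _)
      (e.choose_spec.anti h s)
  have ⟨s, hs⟩ : ∃ s, ∀ w, X.Sy w w → X.Q (Kc X w) (Kc X w) = s := by
    by_cases n : ∃ w, X.Sy w w
    · obtain ⟨w₀, s₀⟩ := n
      obtain ⟨F₀, h₀⟩ := hP w₀ s₀
      obtain ⟨m, -, H, -⟩ := hC _ _ _ (B_ok X hL) (h₀.ak s₀.cl _).toTh
      refine (hS m H).elim fun s hs => ⟨Real.pi⁻¹ ^ 2 / 4 * s, fun w s => ?_⟩
      obtain ⟨F, h⟩ := hP w s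
      obtain ⟨c, ξ, h1⟩ := ex_cn hL h.pos (h.ak s.cl _) (hI _) (hC _) zero_le_one
      rw [k s h, h1.sq hL h.pos (h.ak s.cl _) one_pos, hs F _ h.pos (h.ak s.cl _)]
    · exact ⟨0, fun w s => (n ⟨w, s⟩).elim⟩
  refine ⟨Kc X, s, fun w w' s => ?_, fun w s => ?_, hs, fun w s κ _ _ L hL => ?_⟩
  · obtain ⟨F, h⟩ := hP w' (Sy.self' s)
    rw [k s h, k (Sy.self' s) h]
  · obtain ⟨F, h⟩ := hP w s
    obtain ⟨c, ξ, h1⟩ := ex_cn hL h.pos (h.ak s.cl _) (hI _) (hC _) zero_le_one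
    have c1 := h1.cl_uF hL h.pos (h.ak s.cl _) one_pos
    have e : fm2 F (uF F (k2 F (-w))) = -fm2 F (uF F (k2 F w)) := by
      rw [show k2 F (-w) = fun a b x => -k2 F w a b x from
        funext₂ fun a b => funext fun x => e2_neg _ _ _, uF_neg]
      funext x
      simp only [fm2_apply, Pi.neg_apply, mul_neg, neg_smul, sum_neg_distrib]
    rw [k (Sy.neg s) h.neg, k s h, kc, kc, e, cl2_eq c1.neg, cl2_eq c1, Dr59.cls_neg c1, smul_neg]
  · obtain ⟨F, h⟩ := hP w s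
    rw [k s h]
    exact ex_tb hL h.pos (hI _) (hC _) s.cl (h.ak s.cl L)

end Crest.Agent.X212.Taub88
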