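import Crest.Agent.X212.Taub88.Bas

/-!
# Row 212, TAUB (helper88): the Taubes point

* `OK.sw_can` : `(0, s u)` solves the equations with `r = s ^ 2`;
* `OK.uniq`   : for large `r` every solution is `α u` with `|α|² = r` and `α` parallel;
* `OK.reg`    : the kernel of the linearisation consists of gauge directions;
* `OK.taubes` : both for all `r > r₀`.
-/

set_option autoImplicit false
set_option linter.unusedSectionVars false

open scoped Manifold ContDiff Topology RealInnerProductSpace ComplexConjugate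
open MeasureTheory

noncomputable section

namespace Crest.Agent.X212.Taub88

open Crest.Agent.X212.Sob92

variable {E H : Type*} [NormedAddCommGroup E] [NormedSpace ℝ E] [TopologicalSpace H]
  {I : ModelWithCorners ℝ E H} {M : Type*} [TopologicalSpace M] [ChartedSpace H M]
  [MeasurableSpace M] {ι V : Type*} [Fintype ι] [NormedAddCommGroup V] [InnerProductSpace ℝ V]
  [IsManifold I 1 M]

namespace Dat

variable (d : Dat I M ι V)

/-- the component along `u` -/
def al (φ : M → V) : M → ℂ := fun x => ⟨⟪d.u x, φ x⟫, ⟪d.J x (d.u x), φ x⟫⟩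

/-- the component orthogonal to `u` -/
def be (φ : M → V) : M → V := φ - d.cf (d.al φ) d.u

/-- sections orthogonal to `u` -/
structure Ort (β : M → V) : Prop where
  sec : d.Sec β
  o1 : ∀ x, ⟪d.u x, β x⟫ = 0
  o2 : ∀ x, ⟪d.J x (d.u x), β x⟫ = 0

variable {d} {a : ι → M → ℝ} {φ ψ β : M → V} {α α' : M → ℂ} {x : M} {v w : V} {c r s B : ℝ}

theorem cf_one (φ : M → V) : d.cf (fun _ => 1) φ = φ := by
  funext x
  simp [cf, cm]

theorem cl_add (y y' : ι → ℝ) : d.cl x (y + y') v = d.cl x y v + d.cl x y' v := by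
  simp only [cl, Pi.add_apply, add_smul, Finset.sum_add_distrib]

theorem cl_smul (t : ℝ) (y : ι → ℝ) : d.cl x (t • y) v = t • d.cl x y v := by
  simp only [cl, Pi.smul_apply, smul_eq_mul, mul_smul, Finset.smul_sum]

theorem cl_zero : d.cl x (fun _ => 0) v = 0 := by simp [cl]

namespace OK

variable (h : d.OK)
include h

theorem sm_al (hφ : d.Sec φ) : ContMDiff I 𝓘(ℝ, ℂ) ∞ (d.al φ) :=
  (Complex.equivRealProdCLM.symm : ℝ × ℝ →L[ℝ] ℂ).contMDiff.comp
    ((sm_inner h.u_sec.sm hφ.sm).prodMk_space (sm_inner (h.sec_J h.u_sec).sm hφ.sm))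

theorem ort_be (hφ : d.Sec φ) : d.Ort (d.be φ) := by
  have s1 := h.sec_cf (h.sm_al hφ) h.u_sec
  refine ⟨⟨hφ.sm.sub s1.sm, fun x => sub_mem (hφ.mem x) (s1.mem x)⟩, fun x => ?_, fun x => ?_⟩
  · simp [be, cf, cm, al, inner_sub_right, inner_add_right, real_inner_smul_right, h.u_one,
      h.inner_J (h.u_sec.mem x), -inner_self_eq_norm_sq_to_K]
  · simp [be, cf, cm, al, inner_sub_right, inner_add_right, real_inner_smul_right, h.u_one,
      h.inner_J (h.u_sec.mem x), h.J_skew x _ (h.u_sec.mem x) _ (h.u_sec.mem x),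
      h.inner_JJ (h.u_sec.mem x) (h.u_sec.mem x), -inner_self_eq_norm_sq_to_K]

theorem inner_cm_b (b : ι) (x : M) (z z' : ℂ) :
    ⟪d.cm x z (d.nab 0 b d.u x), d.cm x z' (d.u x)⟫ = 0 := by
  have m1 := h.nab_mem b _ h.u_sec x
  have m2 := h.u_sec.mem x
  simp only [cm, inner_add_left, inner_add_right, real_inner_smul_left, real_inner_smul_right,
    h.inner_b_u, h.u_can, h.J_skew x _ m1 _ m2, h.inner_JJ m1 m2, mul_zero, add_zero, neg_zero]

/-- the pointwise table of products -/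
theorem table (hβ : d.Ort β) (x : M) : let u := d.u x; let b := β x; let J := d.J x
    (⟪u, u⟫ = 1 ∧ ⟪u, J u⟫ = 0 ∧ ⟪J u, u⟫ = 0 ∧ ⟪J u, J u⟫ = 1 ∧ J (J u) = -u) ∧
    (⟪u, b⟫ = 0 ∧ ⟪b, u⟫ = 0 ∧ ⟪J u, b⟫ = 0 ∧ ⟪b, J u⟫ = 0) ∧
    (⟪u, J b⟫ = 0 ∧ ⟪J b, u⟫ = 0 ∧ ⟪J u, J b⟫ = 0 ∧ ⟪J b, J u⟫ = 0) ∧ ⟪J b, b⟫ = 0 := by
  have m1 := h.u_sec.mem x
  have m2 := hβ.sec.mem x
  have e1 := h.J_skew x _ m1 _ m2
  have e2 := h.inner_JJ m1 m2
  rw [hβ.o2, eq_comm, neg_eq_zero] at e1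
  rw [hβ.o1] at e2
  exact ⟨⟨h.u_one x, h.inner_J m1, (real_inner_comm _ _).trans (h.inner_J m1),
    (h.inner_JJ m1 m1).trans (h.u_one x), h.J_sq x _ m1⟩,
    ⟨hβ.o1 x, (real_inner_comm _ _).trans (hβ.o1 x), hβ.o2 x,
      (real_inner_comm _ _).trans (hβ.o2 x)⟩,
    ⟨e1, (real_inner_comm _ _).trans e1, e2, (real_inner_comm _ _).trans e2⟩,
    (real_inner_comm _ _).trans (h.inner_J m2)⟩

theorem sw_can (c s : ℝ) : d.SW c (s ^ 2) 0 (s • d.u) := by
  have e : d.cf (fun _ => (s : ℂ)) d.u = s • d.u := by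
    funext x
    simp [cf, cm]
  refine ⟨one_zero, e ▸ h.sec_cf contMDiff_const h.u_sec, funext fun x => ?_, fun x v _ => ?_⟩
  · rw [← e, h.D_cf contMDiff_const]
    simp [dA, cl]
  · simp only [h.T_zero, q, Pi.zero_apply, zero_apply, Pi.smul_apply, map_smul,
      real_inner_smul_left, real_inner_smul_right]
    module

variable [CompactSpace M] [OpensMeasurableSpace M] [IsFiniteMeasure d.μ]

theorem identA (ha : d.One a) (hα : ContMDiff I 𝓘(ℝ, ℂ) ∞ α) (hβ : d.Ort β) :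
    ∫ x, ⟪d.D a (d.cf α d.u) x, d.D a β x⟫ ∂d.μ =
      ∫ x, (-2 * ∑ b, ⟪d.cm x (d.dA a b α x) (d.nab 0 b d.u x), β x⟫ +
        ⟪d.T a x (d.cf α d.u x), β x⟫) ∂d.μ := by
  rw [h.master ha hα hβ.sec]
  refine integral_congr_ae (Filter.Eventually.of_forall fun x => ?_)
  have e : ∀ b z, ⟪d.cm x z (d.u x), d.nab a b β x⟫ = -⟪d.cm x z (d.nab 0 b d.u x), β x⟫ :=
    fun b z => by
    obtain ⟨-, -, ⟨t1, -, t2, -⟩, -⟩ := h.table hβ x
    simp only [nab_eq a, cm, inner_add_left, inner_add_right, real_inner_smul_left,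
      real_inner_smul_right, t1, t2, h.inner_nab h.u_sec hβ.sec hβ.o1,
      h.inner_nab (h.sec_J h.u_sec) hβ.sec hβ.o2, h.nab_J h.u_sec]
    ring
  simp only [e, Finset.mul_sum]
  congr 1
  exact Finset.sum_congr rfl fun b _ => by ring

theorem identB (ha : d.One a) (hα : ContMDiff I 𝓘(ℝ, ℂ) ∞ α) (hα' : ContMDiff I 𝓘(ℝ, ℂ) ∞ α') :
    ∫ x, ⟪d.D a (d.cf α d.u) x, d.D a (d.cf α' d.u) x⟫ ∂d.μ =
      ∫ x, (∑ b, ((d.dA a b α x).re * (d.dA a b α' x).re + (d.dA a b α x).im * (d.dA a b α' x).im) +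
        ⟪d.T a x (d.cf α d.u x), d.cf α' d.u x⟫) ∂d.μ := by
  rw [h.master ha hα (h.sec_cf hα' h.u_sec)]
  refine integral_congr_ae (Filter.Eventually.of_forall fun x => ?_)
  refine congrArg (· + _) (Finset.sum_congr rfl fun b _ => ?_)
  rw [h.nab_cf hα' h.u_sec, inner_add_right, h.inner_cm_cm _ _ (h.u_sec.mem x), h.u_one,
    real_inner_comm, h.inner_cm_b, cf, h.inner_cm_b]
  ring

theorem identC (ha : d.One a) : ∫ x, ⟪d.T a x (d.u x), d.u x⟫ ∂d.μ = 0 := by
  have h1 := h.identB ha (α := fun _ => 1) (α' := fun _ => 1) contMDiff_const contMDiff_const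
  have c1 : Continuous fun x => ∑ b, a b x ^ 2 :=
    continuous_finsetSum _ fun b _ => (ha.sm b).continuous.pow 2
  have c2 : Continuous fun x => ⟪d.T a x (d.u x), d.u x⟫ :=
    ((h.T_cont a ha).clm_apply h.u_sec.sm.continuous).inner h.u_sec.sm.continuous
  have m := fun x => h.J_mem x _ (h.u_sec.mem x)
  simp only [cf_one, D_eq a, h.u_har, Pi.zero_apply, zero_add, h.cliff _ _ (ha.cov _) _ (m _) _ (m _),
    h.inner_JJ (h.u_sec.mem _) (h.u_sec.mem _), h.u_one, mul_one, dA, dv_const, Complex.mul_re,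
    Complex.mul_im, Complex.I_re, Complex.I_im, Complex.ofReal_re, Complex.ofReal_im, zero_mul,
    mul_zero, sub_zero, one_mul] at h1
  simp only [← sq] at h1
  rw [integral_add (int_of_cont c1) (int_of_cont c2)] at h1
  linarith

omit h in
theorem c_sq {γ γ' : M → ℂ} (h : Continuous γ) (h' : Continuous γ') :
    Continuous fun x => (γ x).re * (γ' x).re + (γ x).im * (γ' x).im := by fun_prop

omit h in
theorem int_comb {f g k l : M → ℝ} {A B C : ℝ} (p q r : ℝ) (e1 : A = ∫ x, f x ∂d.μ)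
    (e2 : B = ∫ x, g x ∂d.μ) (e3 : C = ∫ x, k x ∂d.μ) (hf : Continuous f) (hg : Continuous g)
    (hk : Continuous k) (e : p * A + q * B + r * C = 0)
    (e' : ∀ x, l x = p * f x + q * g x + r * k x) : ∫ x, l x ∂d.μ = 0 := by
  rw [funext e', integral_add (int_of_cont (by fun_prop)) (int_of_cont (by fun_prop)),
    integral_add (int_of_cont (by fun_prop)) (int_of_cont (by fun_prop)), integral_const_mul,
    integral_const_mul, integral_const_mul, ← e1, ← e2, ← e3, e]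

omit h in
theorem int_sub {f g : M → ℝ} (e : ∫ x, f x ∂d.μ = ∫ x, g x ∂d.μ) (hf : Continuous f)
    (hg : Continuous g) : (Continuous fun x => f x - g x) ∧ ∫ x, (f x - g x) ∂d.μ = 0 :=
  ⟨hf.sub hg, by rw [integral_sub (int_of_cont hf) (int_of_cont hg), e, sub_self]⟩

theorem zA (ha : d.One a) (hα : ContMDiff I 𝓘(ℝ, ℂ) ∞ α) (hβ : d.Ort β) :
    let f := fun x => ⟪d.D a (d.cf α d.u) x, d.D a β x⟫ -
      (-2 * ∑ b, ⟪d.cm x (d.dA a b α x) (d.nab 0 b d.u x), β x⟫ + ⟪d.T a x (d.cf α d.u x), β x⟫)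
    Continuous f ∧ ∫ x, f x ∂d.μ = 0 :=
  have s1 := h.sec_cf hα h.u_sec
  int_sub (h.identA ha hα hβ) ((h.sm_D ha s1).continuous.inner (h.sm_D ha hβ.sec).continuous)
    ((continuous_const.mul (continuous_finsetSum _ fun b _ => (h.sec_cf (h.sm_dA ha hα b)
      (h.sec_nab one_zero h.u_sec b)).sm.continuous.inner hβ.sec.sm.continuous)).add
      (((h.T_cont a ha).clm_apply s1.sm.continuous).inner hβ.sec.sm.continuous))

theorem zB (ha : d.One a) (hα : ContMDiff I 𝓘(ℝ, ℂ) ∞ α) (hα' : ContMDiff I 𝓘(ℝ, ℂ) ∞ α') :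
    let f := fun x => ⟪d.D a (d.cf α d.u) x, d.D a (d.cf α' d.u) x⟫ -
      (∑ b, ((d.dA a b α x).re * (d.dA a b α' x).re + (d.dA a b α x).im * (d.dA a b α' x).im) +
        ⟪d.T a x (d.cf α d.u x), d.cf α' d.u x⟫)
    Continuous f ∧ ∫ x, f x ∂d.μ = 0 :=
  have s1 := h.sec_cf hα h.u_sec
  have s2 := h.sec_cf hα' h.u_sec
  int_sub (h.identB ha hα hα') ((h.sm_D ha s1).continuous.inner (h.sm_D ha s2).continuous)
    ((continuous_finsetSum _ fun b _ => c_sq (h.sm_dA ha hα b).continuous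
      (h.sm_dA ha hα' b).continuous).add
      (((h.T_cont a ha).clm_apply s1.sm.continuous).inner s2.sm.continuous))

variable [d.μ.IsOpenPosMeasure]

/-- the final estimate -/
theorem est {γ : ι → M → ℂ} (hγ : ∀ b, Continuous (γ b)) (hβ : d.Sec β) {P : M → ℝ}
    (hP : Continuous P) (hB : ∀ x, ∑ b, ⟪d.nab 0 b d.u x, d.nab 0 b d.u x⟫ ≤ B)
    (h1 : ∀ x, 2 * B * ⟪β x, β x⟫ ≤ P x) {P' : M → ℝ} (hP' : Continuous P')
    (h3 : ∫ x, P x ∂d.μ ≤ ∫ x, P' x ∂d.μ)
    (h2 : ∫ x, (∑ b, ((γ b x).re * (γ b x).re + (γ b x).im * (γ b x).im) + P' x -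
      2 * ∑ b, ⟪d.cm x (γ b x) (d.nab 0 b d.u x), β x⟫) ∂d.μ = 0) (x : M) :
    (∀ b, γ b x = 0) ∧ P x = 2 * B * ⟪β x, β x⟫ := by
  have n0 : ∀ b x, 0 ≤ (γ b x).re * (γ b x).re + (γ b x).im * (γ b x).im :=
    fun b x => add_nonneg (mul_self_nonneg _) (mul_self_nonneg _)
  have e1 : ∀ x, 2 * ∑ b, ⟪d.cm x (γ b x) (d.nab 0 b d.u x), β x⟫ ≤
      (∑ b, ((γ b x).re * (γ b x).re + (γ b x).im * (γ b x).im)) / 2 + 2 * B * ⟪β x, β x⟫ := by
    intro x
    have e2 := mul_le_mul_of_nonneg_right (hB x) (real_inner_self_nonneg (x := β x))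
    rw [Finset.sum_mul] at e2
    have e3 : ∀ b, 2 * ⟪d.cm x (γ b x) (d.nab 0 b d.u x), β x⟫ ≤
        ((γ b x).re * (γ b x).re + (γ b x).im * (γ b x).im) / 2 +
          2 * (⟪d.nab 0 b d.u x, d.nab 0 b d.u x⟫ * ⟪β x, β x⟫) := fun b => by
      have e4 := real_inner_mul_inner_self_le (d.cm x (γ b x) (d.nab 0 b d.u x)) (β x)
      rw [h.inner_cm_cm _ _ (h.nab_mem b _ h.u_sec x), mul_assoc] at e4
      have e5 := mul_nonneg (real_inner_self_nonneg (x := d.nab 0 b d.u x))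
        (real_inner_self_nonneg (x := β x))
      refine le_of_sq_le_sq ?_ (by linarith [n0 b x])
      nlinarith [sq_nonneg (((γ b x).re * (γ b x).re + (γ b x).im * (γ b x).im) / 2 -
        2 * (⟪d.nab 0 b d.u x, d.nab 0 b d.u x⟫ * ⟪β x, β x⟫))]
    have e6 := Finset.sum_le_sum fun b (_ : b ∈ Finset.univ) => e3 b
    rw [Finset.sum_add_distrib, ← Finset.mul_sum, ← Finset.mul_sum, ← Finset.sum_div] at e6
    linarith
  have cb := fun b => (h.sm_nab one_zero h.u_sec b).continuous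
  have c0 : ∀ P : M → ℝ, Continuous P → Continuous fun x =>
      ∑ b, ((γ b x).re * (γ b x).re + (γ b x).im * (γ b x).im) + P x -
      2 * ∑ b, ⟪d.cm x (γ b x) (d.nab 0 b d.u x), β x⟫ := fun P hP =>
    ((continuous_finsetSum _ fun b _ => by have := hγ b; fun_prop).add hP).sub
      (continuous_const.mul (continuous_finsetSum _ fun b _ =>
        (((Complex.continuous_re.comp (hγ b)).smul (cb b)).add
          ((Complex.continuous_im.comp (hγ b)).smul (h.sm_J.continuous.clm_apply (cb b)))).inner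
            hβ.sm.continuous))
  have c1 := c0 P hP
  have s0 := fun x => Finset.sum_nonneg fun b (_ : b ∈ Finset.univ) => n0 b x
  have f0 : ∀ x, 0 ≤ ∑ b, ((γ b x).re * (γ b x).re + (γ b x).im * (γ b x).im) + P x -
      2 * ∑ b, ⟪d.cm x (γ b x) (d.nab 0 b d.u x), β x⟫ := fun x => by linarith [e1 x, h1 x, s0 x]
  have h4 := integral_add (μ := d.μ) (int_of_cont (c0 P' hP')) (int_of_cont (hP.sub hP'))
  rw [h2, integral_congr_ae (g := fun x =>
    ∑ b, ((γ b x).re * (γ b x).re + (γ b x).im * (γ b x).im) + P x -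
      2 * ∑ b, ⟪d.cm x (γ b x) (d.nab 0 b d.u x), β x⟫)
    (Filter.Eventually.of_forall fun x => by simp only [Pi.sub_apply]; ring),
    integral_sub' (int_of_cont hP) (int_of_cont hP')] at h4
  have e7 := congrFun ((c1.ae_eq_iff_eq d.μ continuous_zero).1
    ((integral_eq_zero_iff_of_nonneg f0 (int_of_cont c1)).1
      (le_antisymm (by linarith) (integral_nonneg f0)))) x
  simp only [Pi.zero_apply] at e7
  have e8 : ∑ b, ((γ b x).re * (γ b x).re + (γ b x).im * (γ b x).im) = 0 := by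
    linarith [e1 x, h1 x, s0 x]
  refine ⟨fun b => Complex.normSq_eq_zero.1 ?_, by linarith [e1 x, h1 x]⟩
  exact (Finset.sum_eq_zero_iff_of_nonneg fun b _ => n0 b x).1 e8 b (Finset.mem_univ b)

/-- **uniqueness** -/
theorem uniq (hc : 0 < c) (hB : ∀ x, ∑ b, ⟪d.nab 0 b d.u x, d.nab 0 b d.u x⟫ ≤ B)
    (hr : 4 * B < c * r) (s : d.SW c r a φ) :
    φ = d.cf (d.al φ) d.u ∧ (∀ x, Complex.normSq (d.al φ x) = r) ∧
      ∀ b x, d.dA a b (d.al φ) x = 0 := by
  have hα := h.sm_al s.sec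
  have hβ := h.ort_be s.sec
  have e0 : φ = d.cf (d.al φ) d.u + d.be φ := (add_sub_cancel _ _).symm
  generalize d.al φ = α at hα e0 ⊢
  generalize d.be φ = β at hβ e0 ⊢
  have s1 := h.sec_cf hα h.u_sec
  have cα := hα.continuous
  have cβ : Continuous fun x => ⟪β x, β x⟫ := hβ.sec.sm.continuous.inner hβ.sec.sm.continuous
  have t : ∀ x, ⟪d.T a x (d.cf α d.u x), β x⟫ = c * (Complex.normSq (α x) * ⟪β x, β x⟫) ∧
      ⟪d.T a x (d.cf α d.u x), d.cf α d.u x⟫ =
        c / 2 * (Complex.normSq (α x) * (Complex.normSq (α x) - ⟪β x, β x⟫ - r)) ∧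
      ⟪d.T a x (d.u x), d.u x⟫ = c / 2 * (Complex.normSq (α x) - ⟪β x, β x⟫ - r) := fun x => by
    obtain ⟨⟨t1, t2, t3, t4, t5⟩, ⟨t6, t7, t8, t9⟩, ⟨t10, t11, t12, t13⟩, t14⟩ := h.table hβ x
    rw [s.cur x _ (s1.mem x), s.cur x _ (h.u_sec.mem x), e0]
    simp only [q, cf, cm, Pi.add_apply, map_add, map_smul, inner_add_left, inner_add_right,
      inner_sub_left, real_inner_smul_left, real_inner_smul_right, t1, t2, t3, t4, t5, t6, t7, t8,
      t9, t11, t13, t14, inner_neg_left, smul_neg, Complex.normSq_apply]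
    refine ⟨by ring, by ring, by ring⟩
  have hA := h.identA s.one hα hβ
  have hB' := h.identB s.one hα hα
  have hC := h.identC s.one
  have e1 : ∀ x, d.D a β x = -d.D a (d.cf α d.u) x := fun x => by
    have := congrFun s.dir x
    rw [e0, D_add s1 hβ.sec] at this
    exact eq_neg_of_add_eq_zero_right this
  simp only [e1, inner_neg_right, integral_neg, (t _).1] at hA
  simp only [(t _).2.1] at hB'
  simp only [(t _).2.2] at hC
  have cγ := fun b => (h.sm_dA s.one hα b).continuous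
  have c1 : Continuous fun x => ∑ b, ⟪d.cm x (d.dA a b α x) (d.nab 0 b d.u x), β x⟫ :=
    continuous_finsetSum _ fun b _ => (h.sec_cf (h.sm_dA s.one hα b)
      (h.sec_nab one_zero h.u_sec b)).sm.continuous.inner hβ.sec.sm.continuous
  have c2 : Continuous fun x => ∑ b, ((d.dA a b α x).re * (d.dA a b α x).re +
      (d.dA a b α x).im * (d.dA a b α x).im) :=
    continuous_finsetSum _ fun b _ => c_sq (cγ b) (cγ b)
  have key := h.est cγ hβ.sec (P := fun x => c / 2 * ((Complex.normSq (α x) - r) ^ 2 +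
    Complex.normSq (α x) * ⟪β x, β x⟫ + r * ⟪β x, β x⟫)) (by fun_prop) hB
    (fun x => by
      have := real_inner_self_nonneg (x := β x)
      have := mul_nonneg (Complex.normSq_nonneg (α x)) this
      nlinarith [sq_nonneg (Complex.normSq (α x) - r)]) (by fun_prop) le_rfl
    (int_comb 1 1 (-r) hA hB' hC.symm ((continuous_const.mul c1).add (by fun_prop))
      (c2.add (by fun_prop)) (by fun_prop) (by ring) fun x => by ring)
  have e2 : ∀ x, ⟪β x, β x⟫ = 0 ∧ Complex.normSq (α x) = r := fun x => by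
    have k1 := (key x).2
    have k2 := real_inner_self_nonneg (x := β x)
    have k3 := mul_nonneg hc.le (mul_nonneg (Complex.normSq_nonneg (α x)) k2)
    have k4 := mul_nonneg hc.le (sq_nonneg (Complex.normSq (α x) - r))
    have k5 : (c * r - 4 * B) * ⟪β x, β x⟫ = 0 := by
      nlinarith [mul_nonneg (sub_pos.2 hr).le k2]
    have k6 := (mul_eq_zero.1 k5).resolve_left (sub_pos.2 hr).ne'
    refine ⟨k6, sub_eq_zero.1 (pow_eq_zero_iff two_ne_zero |>.1 ?_)⟩
    rw [k6] at k1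
    exact (mul_eq_zero.1 (by linarith : c * (Complex.normSq (α x) - r) ^ 2 = 0)).resolve_left hc.ne'
  refine ⟨e0.trans (funext fun x => ?_), fun x => (e2 x).2, fun b x => (key x).1 b⟩
  rw [Pi.add_apply, inner_self_eq_zero.1 (e2 x).1, add_zero]

/-- the linearised estimate -/
theorem reg_of (hB : ∀ x, ∑ b, ⟪d.nab 0 b d.u x, d.nab 0 b d.u x⟫ ≤ B) {c' : ℝ} (hc : 0 < c)
    (hs : 2 * B < c') (ha : d.One a) (hψ : d.Sec ψ)
    (hd : ∀ x, d.D 0 ψ x + s • d.cl x (fun b => a b x) (d.J x (d.u x)) = 0)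
    (hT : ∫ x, (c * (d.al ψ x).re ^ 2 + c' * ⟪d.be ψ x, d.be ψ x⟫) ∂d.μ ≤
      ∫ x, (s * ⟪d.T a x (d.u x), d.be ψ x⟫ +
        2 * s * ((d.al ψ x).re * ⟪d.T a x (d.u x), d.u x⟫)) ∂d.μ) :
    (∀ x, ψ x = (d.al ψ x).im • d.J x (d.u x)) ∧
      ∀ b x, s * a b x = -dv I (d.e b) (fun y => (d.al ψ y).im) x := by
  have hα := h.sm_al hψ
  have hβ := h.ort_be hψ
  have e0 : ψ = d.cf (d.al ψ) d.u + d.be ψ := (add_sub_cancel _ _).symm
  generalize d.al ψ = α at hα e0 hT ⊢
  generalize d.be ψ = β at hβ e0 hT ⊢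
  have s1 := h.sec_cf hα h.u_sec
  have cα := hα.continuous
  have cβ : Continuous fun x => ⟪β x, β x⟫ := hβ.sec.sm.continuous.inner hβ.sec.sm.continuous
  have cT := (h.T_cont a ha).clm_apply h.u_sec.sm.continuous
  have hf := sm_ofReal (sm_re hα)
  have hg : ContMDiff I 𝓘(ℝ, ℂ) ∞ fun x => α x - (α x).re := hα.sub hf
  have dre : ∀ b x, dv I (d.e b) (fun y => (α y).re) x = (dv I (d.e b) α x).re :=
    fun b x => dv_clm Complex.reCLM (md hα x)
  have dim : ∀ b x, dv I (d.e b) (fun y => (α y).im) x = (dv I (d.e b) α x).im :=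
    fun b x => dv_clm Complex.imCLM (md hα x)
  have df : ∀ b x, dv I (d.e b) (fun y => ((α y).re : ℂ)) x = ((dv I (d.e b) α x).re : ℂ) :=
    fun b x => (dv_clm Complex.ofRealCLM (md (sm_re hα) x)).trans (congrArg _ (dre b x))
  have dg : ∀ b x, dv I (d.e b) (fun y => α y - (α y).re) x =
      dv I (d.e b) α x - ((dv I (d.e b) α x).re : ℂ) :=
    fun b x => (dv_sub (md hα x) (md hf x)).trans (congrArg _ (df b x))
  have cγ : ∀ b, Continuous fun x => dv I (d.e b) α x + Complex.I * (s * a b x) := fun b => by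
    have := (dv_smooth (h.sm_e b) hα).continuous
    have := (ha.sm b).continuous
    fun_prop
  obtain ⟨c1, z1⟩ := h.zA one_zero hα hβ
  obtain ⟨c2, z2⟩ := h.zA ha (α := fun _ => 1) contMDiff_const hβ
  obtain ⟨c3, z3⟩ := h.zB one_zero hf hg
  obtain ⟨c4, z4⟩ := h.zB ha hf (α' := fun _ => 1) contMDiff_const
  have z5 := int_comb (-1) (-2) (-2 * s) z1.symm z3.symm z4.symm c1 c3 c4 (by ring) fun _ => rfl
  have key := h.est cγ hβ.sec (P := fun x => c * (α x).re ^ 2 + c' * ⟪β x, β x⟫)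
    (P' := fun x => s * ⟪d.T a x (d.u x), β x⟫ + 2 * s * ((α x).re * ⟪d.T a x (d.u x), d.u x⟫))
    (by fun_prop) hB
    (fun x => by
      have := mul_nonneg (sub_pos.2 hs).le (real_inner_self_nonneg (x := β x))
      have := mul_nonneg hc.le (sq_nonneg (α x).re)
      linarith)
    ((continuous_const.mul (cT.inner hβ.sec.sm.continuous)).add (continuous_const.mul
      ((Complex.continuous_re.comp cα).mul (cT.inner h.u_sec.sm.continuous)))) hT
    (int_comb 1 (-s) 0 z5.symm z2.symm z2.symm (by fun_prop) c2 c2 (by ring) fun x => by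
      have m1 := h.u_sec.mem x
      have m2 := h.J_mem x _ m1
      have m3 := h.J_mem x _ (hβ.sec.mem x)
      have v1 : d.Cov x fun b => (dv I (d.e b) α x).re := by
        simpa only [dre] using cov_dv (d := d) (fun y => (α y).re) x
      have v2 : d.Cov x fun b => (dv I (d.e b) α x).im := by
        simpa only [dim] using cov_dv (d := d) (fun y => (α y).im) x
      have v3 := ha.cov x
      have k1 := h.cliff x _ v1 _ m1 _ m1
      have k2 := h.cliff x _ (v2.add (v3.smul s)) _ m2 _ m2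
      have k3 := h.cliff x _ v3 _ m2 _ m2
      have k4 := h.cliff x _ v3 _ m2 _ m3
      have k5 := hd x
      obtain ⟨⟨t1, -, -, t4, -⟩, -, ⟨-, -, t12, -⟩, -⟩ := h.table hβ x
      rw [e0, D_add s1 hβ.sec, add_right_comm, add_eq_zero_iff_neg_eq] at k5
      have k6 : ∑ b, ⟪d.cm x (dv I (d.e b) α x + Complex.I * (s * a b x)) (d.nab 0 b d.u x), β x⟫ =
          ∑ b, ⟪d.cm x (d.dA 0 b α x) (d.nab 0 b d.u x), β x⟫ +
            s * ∑ b, ⟪d.cm x (d.dA a b (fun _ => 1) x) (d.nab 0 b d.u x), β x⟫ := by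
        rw [Finset.mul_sum, ← Finset.sum_add_distrib]
        refine Finset.sum_congr rfl fun b _ => ?_
        simp [cm, dA, inner_add_left, real_inner_smul_left]
        ring
      have k7 : ⟪d.T a x (d.cf (fun y => ((α y).re : ℂ)) d.u x), d.u x⟫ =
          (α x).re * ⟪d.T a x (d.u x), d.u x⟫ := by
        simp [cf, cm, real_inner_smul_left]
      have k8 : d.D a (d.cf (fun y => ((α y).re : ℂ)) d.u) x =
          d.cl x (fun b => (dv I (d.e b) α x).re) (d.u x) +
            (α x).re • d.cl x (fun b => a b x) (d.J x (d.u x)) := by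
        simp [h.D_cf hf, dA, df, cl, Finset.smul_sum, smul_smul, mul_comm]
      have k9 : d.D a d.u x = d.cl x (fun b => a b x) (d.J x (d.u x)) := by
        rw [D_eq, h.u_har, Pi.zero_apply, zero_add]
      rw [cl_add, cl_smul, t4] at k2
      rw [t4] at k3
      rw [t12] at k4
      rw [t1] at k1
      rw [k6, cf_one, k7, k8, k9, D_eq a β, ← k5, h.D_cf hα, h.D_cf hf, h.D_cf hg]
      simp only [dA, df, dg, h.T_zero, Pi.zero_apply, zero_apply, inner_zero_left, dv_const,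
        Complex.add_re, Complex.add_im, Complex.mul_re, Complex.mul_im, Complex.I_re, Complex.I_im,
        Complex.ofReal_re, Complex.ofReal_im, Complex.sub_re, Complex.sub_im,
        mul_zero, zero_mul, add_zero, zero_add, sub_zero, sub_self, one_mul, mul_one,
        cl_zero, Finset.sum_const_zero, Pi.add_apply, Pi.smul_apply, smul_eq_mul] at k1 k2 k3 k4 ⊢
      have k10 : ∑ b, a b x * (α x).re * a b x = (α x).re * ∑ b, a b x ^ 2 := by
        rw [Finset.mul_sum]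
        exact Finset.sum_congr rfl fun b _ => by ring
      rw [Finset.sum_add_distrib, k10]
      simp only [← sq]
      rw [← k1, ← k2, ← k3]
      generalize d.cl x (fun b => (dv I (d.e b) α x).re) (d.u x) = X at *
      generalize d.cl x (fun b => (dv I (d.e b) α x).im) (d.J x (d.u x)) = Y at *
      generalize d.cl x (fun b => a b x) (d.J x (d.u x)) = Z at *
      simp only [inner_add_left, inner_add_right, inner_neg_right, real_inner_smul_left,
        real_inner_smul_right, k4, real_inner_comm X Y, real_inner_comm X Z, real_inner_comm Y Z]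
      ring)
  have e2 : ∀ x, ⟪β x, β x⟫ = 0 ∧ (α x).re = 0 := fun x => by
    have k1 := (key x).2
    have k2 := real_inner_self_nonneg (x := β x)
    have k4 := mul_nonneg hc.le (sq_nonneg (α x).re)
    have k5 : (c' - 2 * B) * ⟪β x, β x⟫ = 0 := by
      nlinarith [mul_nonneg (sub_pos.2 hs).le k2]
    have k6 := (mul_eq_zero.1 k5).resolve_left (sub_pos.2 hs).ne'
    refine ⟨k6, pow_eq_zero_iff two_ne_zero |>.1 ?_⟩
    rw [k6] at k1
    exact (mul_eq_zero.1 (by linarith : c * (α x).re ^ 2 = 0)).resolve_left hc.ne'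
  refine ⟨fun x => ?_, fun b x => ?_⟩
  · rw [e0, Pi.add_apply, inner_self_eq_zero.1 (e2 x).1, cf, cm, (e2 x).2, zero_smul, zero_add,
      add_zero]
  · have := congrArg Complex.im ((key x).1 b)
    simp at this
    rw [dim]
    linarith

omit [CompactSpace M] [OpensMeasurableSpace M] [IsFiniteMeasure d.μ] [d.μ.IsOpenPosMeasure] in
theorem q_u (hψ : d.Sec ψ) (x : M) : d.q x (d.u x) (ψ x) (d.u x) + d.q x (ψ x) (d.u x) (d.u x) =
    (d.al ψ x).re • d.u x + d.be ψ x := by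
  have m := h.u_sec.mem x
  simp only [q, be, al, cf, cm, Pi.sub_apply, h.u_one, h.J_skew x _ (hψ.mem x) _ m,
    real_inner_comm (d.u x), h.inner_J m, real_inner_comm (d.J x (d.u x)) (ψ x)]
  module

/-- **regularity** -/
theorem reg (hB : ∀ x, ∑ b, ⟪d.nab 0 b d.u x, d.nab 0 b d.u x⟫ ≤ B)
    (hs : 2 * B < c * s ^ 2) (l : d.Lin c s a ψ) :
    (∀ x, ψ x = (d.al ψ x).im • d.J x (d.u x)) ∧
      ∀ b x, s * a b x = -dv I (d.e b) (fun y => (d.al ψ y).im) x := by
  rcases isEmpty_or_nonempty M with hM | ⟨⟨x⟩⟩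
  · exact ⟨fun x => hM.elim x, fun _ x => hM.elim x⟩
  have k3 : 0 < c * s ^ 2 := by
    have := (Finset.sum_nonneg fun b _ => real_inner_self_nonneg).trans (hB x)
    linarith
  refine h.reg_of hB (c := 2 * (c * s ^ 2)) (by linarith) hs l.one l.sec l.dir
    (integral_congr_ae (Filter.Eventually.of_forall fun x => ?_)).le
  have o := (h.ort_be l.sec).o1 x
  simp only [l.cur x _ (h.u_sec.mem x), h.q_u l.sec, real_inner_smul_left, inner_add_left, o,
    h.u_one, real_inner_comm (d.u x) (d.be ψ x)]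
  ring

/-- **the Taubes point** -/
theorem taubes (hc : 0 < c) : ∃ r₀ : ℝ, ∀ s : ℝ, r₀ < s ^ 2 →
    d.SW c (s ^ 2) 0 (s • d.u) ∧
    (∀ a φ, d.SW c (s ^ 2) a φ → φ = d.cf (d.al φ) d.u ∧
      (∀ x, Complex.normSq (d.al φ x) = s ^ 2) ∧ ∀ b x, d.dA a b (d.al φ) x = 0) ∧
    ∀ a ψ, d.Lin c s a ψ → (∀ x, ψ x = (d.al ψ x).im • d.J x (d.u x)) ∧
      ∀ b x, s * a b x = -dv I (d.e b) (fun y => (d.al ψ y).im) x := by
  have cb := fun b => (h.sm_nab one_zero h.u_sec b).continuous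
  obtain ⟨B, hB⟩ := (isCompact_range (continuous_finsetSum Finset.univ fun b _ =>
    (cb b).inner (𝕜 := ℝ) (cb b))).bddAbove
  have hB' := fun x => hB ⟨x, rfl⟩
  refine ⟨4 * |B| / c, fun s hs => ?_⟩
  rw [div_lt_iff₀' hc] at hs
  have := le_abs_self B
  have := abs_nonneg B
  exact ⟨h.sw_can c s, fun a φ => h.uniq hc hB' (by linarith), fun a ψ => h.reg hB' (by linarith)⟩

end OK

end Dat

end Crest.Agent.X212.Taub88
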