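import Crest.Agent.X212.Taub88.Gau
import Crest.Agent.X212.Taub88.Main

/-!
# Row 212, TAUB (helper88): regularity of the canonical configurations
-/

set_option autoImplicit false
set_option linter.unusedSectionVars false
noncomputable section
open scoped Manifold ContDiff Topology InnerProductSpace
open MeasureTheory Finset

namespace Crest.Agent.X212.Taub88
open An Wz78 Abel74 Sob92

section alg
variable {ι : Type*} [Fintype ι] {V : Type*} [NormedAddCommGroup V] [InnerProductSpace ℝ V]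
  [FiniteDimensional ℝ V] {P : ι → ι → ℝ} {o : ι → ι → ι → ι → ℝ} {p J π : V →L[ℝ] V}
  {ρ : ι → V →L[ℝ] V} {u v : V}

theorem lin_of {f : ℝ → V} {A B C : V} (h : HasDerivAt f 0 0)
    (e : ∀ s, f s = A + s • B + s ^ 2 • C) : B = 0 := by
  have := (((hasDerivAt_id (0 : ℝ)).smul_const B).const_add A).add
    ((hasDerivAt_pow 2 (0 : ℝ)).smul_const C)
  rw [funext e] at h
  simpa using this.unique h

theorem PC.dot_P (h : PC P o p J ρ) (hu : p u = u) (w : V) :
    dot P (mm J ρ u w) = -4 * ⟪J u, w⟫_ℝ := by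
  have e := congrArg (fun T : V →L[ℝ] V => ⟪T (J u), w⟫_ℝ) h.sum_sq
  have e' : p (J u) = J u := by rw [← mul_apply_eq_comp, ← h.Jp, mul_apply_eq_comp, hu]
  simp only [_root_.sum_apply, mul_apply_eq_comp, smul_apply, e', sum_inner,
    real_inner_smul_left] at e
  rw [← e]
  refine sum_congr rfl fun a _ => ?_
  conv_rhs => rw [← h.sum_ρ a (J u)]
  simp only [mm, map_sum, map_smul, sum_inner, real_inner_smul_left]

theorem PC.dot_mm8 (h : PC P o p J ρ) (h1 : P8 P o π J fun a => ρ a * π)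
    (h2 : ∀ a, π * ρ a = ρ a * π) (hu : pp o p ρ u = u) (hv : pp o p ρ v = v) (πu : π u = u)
    (πv : π v = v) (w : V) : dot (mm J ρ u v) (mm J ρ u w) = 4 * ‖u‖ ^ 2 * ⟪v, w⟫_ℝ := by
  have c : ∀ a w, π w = w → π (ρ a w) = ρ a w := fun a w hw => by
    rw [← mul_apply_eq_comp, h2, mul_apply_eq_comp, hw]
  have e : ∀ w, π w = w → pp o p ρ w = w → pp o π (fun a => ρ a * π) w = w := fun w hw hw' => by
    have : omA o (fun a => ρ a * π) w = omA o ρ w := by simp [omA, c, hw]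
    rw [← hw']
    conv_lhs => rw [hw']
    simp only [pp, smul_apply, sub_apply, this, hw, h.p_of hw']
  have πJ : π (J u) = J u := by rw [← mul_apply_eq_comp, ← h1.Jp, mul_apply_eq_comp, πu]
  have := congrArg (⟪·, w⟫_ℝ) (h1.par2 (e _ πJ (h.pp_J hu)) v)
  simp only [mul_apply_eq_comp, πJ, c, sum_inner, real_inner_smul_left, e v πv hv,
    real_inner_self_eq_norm_sq, h.norm_J (h.p_of hu)] at this
  exact this

theorem PC.pp_ρρ (h : PC P o p J ρ) (a b : ι) :
    pp o p ρ * (ρ a * ρ b) = ρ a * ρ b * pp o p ρ := by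
  rw [← mul_assoc, ← h.ρ_pm, mul_assoc, ← h.ρ_pp, mul_assoc]

end alg

variable {E : Type} [NormedAddCommGroup E] [NormedSpace ℝ E] [FiniteDimensional ℝ E]
  [MeasurableSpace E] [BorelSpace E]
  {HM : Type} [TopologicalSpace HM] {I : ModelWithCorners ℝ E HM} [I.Boundaryless]
  {M : Type} [TopologicalSpace M] [ChartedSpace HM M] [IsManifold I ∞ M]
  [MeasurableSpace M] [BorelSpace M] [SecondCountableTopology M] [T2Space M] [CompactSpace M]
  {ι : Type} [Fintype ι]

section gen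
variable {V : Type} [NormedAddCommGroup V] [InnerProductSpace ℝ V] [FiniteDimensional ℝ V]
  {F : Fr I M ι} {Γ : ι → ι → ι → M → ℝ} {A ρ : ι → M → V →L[ℝ] V} {p : M → V →L[ℝ] V}
  {J : V →L[ℝ] V} {o : ι → ι → ι → ι → M → ℝ} {θ : ι → ι → M → ℝ} {u φ : M → V} {a : ι → M → ℝ}

variable (F o p J ρ A u) in
/-- the data of the Taubes point -/
def dat : Dat I M ι V where
  e := F.e
  μ := F.μ
  W := A
  J _ := J
  ρ := ρ
  F x := LinearMap.eqLocus (ppf o p ρ x).toLinearMap LinearMap.id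
  u := u
  K := wK I F.e F.c ρ A
  T a x := (1 / 2 : ℝ) • ∑ b, ∑ k, d1 I F.e F.c a b k x • (ρ b x * ρ k x * J)

instance : IsFiniteMeasure (dat F A ρ p J o u).μ := inferInstanceAs (IsFiniteMeasure F.μ)

theorem dat_nab (b : ι) : (dat F A ρ p J o u).nab 0 b φ = nab I F.e A b φ :=
  funext fun x => by simp [Dat.nab, nab, dat]

theorem dat_D : (dat F A ρ p J o u).D 0 φ = dir I F.e ρ A φ :=
  funext fun x => by simp only [Dat.D, dat_nab]; rfl

theorem cov_proj {x : M} {y : ι → ℝ} (h : (dat F A ρ p J o u).Cov x y) (b : ι) :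
    ∑ k, F.P b k x * y k = y b := by
  obtain ⟨ξ, hξ⟩ := h
  rw [hξ b]
  change _ = ξ (F.e b x)
  rw [← (frm F).proj b x, map_sum]
  exact sum_congr rfl fun k _ => by rw [map_smul, hξ k]; rfl

theorem one_of (ha : ∀ b, Sm I (a b)) (hP : ∀ b x, ∑ k, F.P b k x * a k x = a b x) :
    (dat F A ρ p J o u).One a :=
  ⟨ha, fun x => ⟨LinearMap.toContinuousLinearMap (𝕜 := ℝ) (E := E) (∑ k, a k x • Num57.tl F x k),
    fun b => by
      change a b x = (∑ k, a k x • Num57.tl F x k) (Num57.ee F x b)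
      rw [← hP b x, LinearMap.sum_apply]
      exact sum_congr rfl fun k _ => by
        rw [LinearMap.smul_apply, (Num57.cf F x).te, (frPr F x).symm k b, smul_eq_mul, mul_comm]⟩⟩

theorem sm_d1 (ha : ∀ b, Sm I (a b)) (b k : ι) : Sm I (d1 I F.e F.c a b k) := fun x =>
  (((frm F).sD b (ha k x)).sub ((frm F).sD k (ha b x))).sub
    (SA.sum _ fun l _ => SA.smul ((frm F).sc b k l x) (ha l x))

theorem sk_d1 (ha : ∀ b, Sm I (a b)) (hP : ∀ b x, ∑ k, F.P b k x * a k x = a b x) (x : M) :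
    Sk (fun b k => F.P b k x) fun b k => d1 I F.e F.c a b k x := by
  refine sk_of (frPr F x) (fun b l => ?_) fun b l => ?_
  · simp only [d1, c_anti F b l, neg_smul, sum_neg_distrib]
    abel
  · have e := (lc_gam F).curv_p1 (frm F) (sep F) (con_zero.add (B := fun b y => a b y • (1 : ℝ →L[ℝ] ℝ))
      ⟨fun b x => SA.smul (ha b x) contMDiffAt_const,
        fun b x => by simp only [smul_smul, ← sum_smul, hP]⟩) b l x
    simp only [curv_add_smul (e := F.e) (c := F.c) (A := fun _ _ => (0 : ℝ →L[ℝ] ℝ)) (x := x)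
      (J := fun _ => 1) (fun _ => contMDiffAt_const) (fun b => ha b x) contMDiffAt_const
      fun _ => by simp [nabE], curv_zero, zero_add, smul_smul, ← sum_smul] at e
    simpa using congrArg (· 1) e

variable (h : TM I F.e F.P F.c Γ o θ p J ρ A)
include h

theorem TM.ok (hR : Riem F) (hu : Sm I u) (hq : ∀ x, Qf o p J ρ θ x (u x) = u x)
    (h1 : ∀ x, ‖u x‖ = 1) (hn : ∀ b x, Qf o p J ρ θ x (nab I F.e A b u x) = 0) :
    (dat F A ρ p J o u).OK := by
  have cm : ∀ {T : M → V →L[ℝ] V} x, SA I T x → (∀ b y, nabE I F.e A b T y = 0) →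
      (∀ b k, T x * (ρ b x * ρ k x) = ρ b x * ρ k x * T x) → ∀ v,
      T x (wK I F.e F.c ρ A x v) = wK I F.e F.c ρ A x (T x v) := fun {T} x s1 s2 s3 v => by
    have := h.F.curv_par (fun b => h.C.sm b x) s1 fun b => .of_forall (s2 b)
    rw [← mul_apply_eq_comp, ← mul_apply_eq_comp (wK _ _ _ _ _ _)]
    simp only [wK, smul_mul_assoc, mul_smul_comm, sum_mul, mul_sum, ← mul_assoc (T x) (_ * _), s3,
      mul_assoc (_ * _), this]
  have sρ : ∀ b, Sm I (ρ b) := fun b x => h.C.sρ b x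
  refine ⟨⟨F.sm, fun b x => h.C.sm b x, contMDiff_const, sρ, h.sk,
    fun x v hv => (h.pc x).pp_J hv, fun x v hv => (h.pc x).J_J ((h.pc x).p_of hv),
    fun x v _ w _ => (h.pc x).Js v w, fun b x v _ => ?_, fun b φ hφ x => ?_,
    fun b x v _ => ((h.pc x).J_ρ b v).symm, fun x y hy v hv w hw => ?_⟩,
    (sm_wK (fun b x => h.C.sm b x) sρ).continuous, fun x v _ => (cm x contMDiffAt_const h.par_J
      (fun b k => by rw [← mul_assoc, (h.pc x).Jρ, mul_assoc, (h.pc x).Jρ, mul_assoc]) v).symm,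
    fun x v hv => (cm x (h.sm_pp x) h.par_pp (h.pc x).pp_ρρ v).trans (congrArg _ hv), fun a ha => ?_, ?_, fun a φ ψ ha hφ hψ => ?_,
    ⟨hu, fun x => ?_⟩, fun x => ?_, fun b x => ?_, ?_⟩
  · change dv I (F.e b) (fun _ => J) x v + A b x (J v) = J (A b x v)
    rw [dv_const, ← mul_apply_eq_comp, ← h.JA]
    simp
  · rw [dat_nab]
    have := nab_app' (e := F.e) (A := A) b (h.sm_pp x) (hφ.sm x)
    rw [h.par_pp, show (fun y => ppf o p ρ y (φ y)) = φ from funext hφ.mem] at this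
    exact (this.trans (by simp)).symm
  · have e := congrArg (fun T : V →L[ℝ] V => ⟪v, T w⟫_ℝ)
      ((h.pc x).cl.sym_sum (S := fun b k => y b * y k) fun b k => mul_comm _ _)
    simp only [mul_assoc, mul_comm (y _) (F.P _ _ x), ← mul_sum, cov_proj hy, smul_apply,
      (h.pc x).p_of hw, real_inner_smul_right, _root_.sum_apply, inner_sum, mul_apply_eq_comp,
      ← sq] at e
    simp only [Dat.cl, dat, sum_inner, inner_sum, real_inner_smul_left, real_inner_smul_right,
      (h.pc x).ρs, mul_neg, sum_neg_distrib]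
    simp only [mul_sum] at e ⊢
    rw [sum_comm, neg_eq_iff_eq_neg, ← neg_mul, ← e]
    exact sum_congr rfl fun _ _ => sum_congr rfl fun _ _ => mul_left_comm _ _ _
  · have c1 := fun b k => (sm_d1 (F := F) ha.sm b k).continuous
    have c2 := fun b => (sρ b).continuous
    unfold dat
    fun_prop
  · funext x
    simp [dat, d1]
  · have C := h.C.addA (B := fun b y => a b y • J) ⟨fun b x => SA.smul (ha.sm b x) contMDiffAt_const,
      fun b x => by simp only [smul_smul, ← sum_smul, cov_proj (ha.cov x)]⟩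
      (fun b x => by rw [smul_mul_assoc, mul_smul_comm, (h.pc x).Jp])
      fun b k x => by rw [smul_mul_assoc, mul_smul_comm, (h.pc x).Jρ]
    have e := integral_weitz C h.L hR (fun b x v w => by
      simp only [Pi.add_apply, add_apply, smul_apply, inner_add_left, inner_add_right,
        real_inner_smul_left, real_inner_smul_right, h.sk b x v w, (h.pc x).Js v w]; ring)
      (fun b x => (h.pc x).ρs b) hφ.sm hψ.sm (fun x => (h.pc x).p_of (hφ.mem x))
      (HasCompactSupport.of_compactSpace _)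
    have sA : ∀ b, Sm I ((A + fun b y => a b y • J) b) := fun b x => C.sm b x
    have i : ∀ {f : M → ℝ}, Continuous f → Integrable f F.μ := fun hf =>
      hf.integrable_of_hasCompactSupport (HasCompactSupport.of_compactSpace _)
    rw [← integral_add (i (continuous_finsetSum _ fun b _ =>
      (sm_nab sA b hφ.sm).continuous.inner (sm_nab sA b hψ.sm).continuous))
      (i (((sm_wK sA sρ).continuous.clm_apply hφ.sm.continuous).inner hψ.sm.continuous))] at e
    simp only [fun x => wK_add_smul (e := F.e) (c := F.c) (ρ := ρ) (fun b => h.C.sm b x)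
      (fun b => ha.sm b x) contMDiffAt_const fun b => h.par_J b x, dir, nab_addA] at e
    exact e
  · exact (congrArg _ (hq x).symm).trans (((h.pc x).pp_Q' (h.cx x) (h.sd x) _).trans (hq x))
  · change ⟪u x, u x⟫_ℝ = 1
    rw [real_inner_self_eq_norm_sq, h1, one_pow]
  · rw [dat_nab]
    change ⟪_, J (u x)⟫_ℝ = 0
    rw [← hq x, ← mul_apply_eq_comp, Qf, (h.pc x).J_Q, mul_apply_eq_comp, ← (h.pc x).Q_s (h.cx x)]
    exact (congrArg (⟪·, _⟫_ℝ) (hn b x)).trans (inner_zero_left _)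
  · rw [dat_D]
    exact funext (h.dir_eq hu hq hn)

/-- **regularity** for a module of rank eight -/
theorem TM.reg [F.μ.IsOpenPosMeasure] (hR : Riem F) (hu : Sm I u)
    (hq : ∀ x, Qf o p J ρ θ x (u x) = u x) (h1 : ∀ x, ‖u x‖ = 1)
    (hn : ∀ b x, Qf o p J ρ θ x (nab I F.e A b u x) = 0) {k s B : ℝ} (hs : s ≠ 0) (hk : 0 < k)
    (hB : ∀ x, bnd I F.e Γ θ x ≤ B) (hr : B < 2 * k * s ^ 2) (ha : ∀ b, Sm I (a b))
    (hP : ∀ b x, ∑ k, F.P b k x * a k x = a b x) (hφ : Sm I φ)
    (pos : ∀ x, ppf o p ρ x (φ x) = φ x)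
    (h8 : ∀ x, ∃ π, P8 (fun a b => F.P a b x) (fun a b c d => o a b c d x) π J (fun a => ρ a x * π) ∧
      (∀ a, π * ρ a x = ρ a x * π) ∧ π (u x) = u x ∧ π (φ x) = φ x)
    (hD : ∀ x, dir I F.e ρ A φ x + s • ∑ b, a b x • ρ b x (J (u x)) = 0)
    (hC : ∀ x, sdp (fun a b c d => o a b c d x) (fun b l => d1 I F.e F.c a b l x) = fun b l =>
      2 * k * s * (mm J (fun a => ρ a x) (u x) (φ x) b l + F.P b l x * ⟪J (u x), φ x⟫_ℝ)) :
    ∃ g : M → ℝ, Sm I g ∧ (∀ b x, a b x = -F.D b g x) ∧ ∀ x, φ x = (g x * s) • J (u x) := by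
  have H := h.ok hR hu hq h1 hn
  have S : (dat F A ρ p J o u).Sec φ := ⟨hφ, pos⟩
  have T : ∀ x w, ⟪(dat F A ρ p J o u).T a x (u x), w⟫_ℝ =
      4 * k * s * (⟪φ x, w⟫_ℝ - ⟪J (u x), φ x⟫_ℝ * ⟪J (u x), w⟫_ℝ) := fun x w => by
    obtain ⟨π, p1, p2, p3, p4⟩ := h8 x
    have m : pp (fun a b c d => o a b c d x) (p x) (fun a => ρ a x) (u x) = u x := H.u_sec.mem x
    have e := (h.pc x).spin_mm (sk_d1 ha hP x).skew m w
    simp only [hC, mul_comm (F.P _ _ x)] at e
    rw [dot_comm (fun _ _ => _ * _), dot_mul, dot_add, dot_mul, dot_comm _ (mm _ _ _ (φ x)),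
      (h.pc x).dot_mm8 p1 p2 m (pos x) p3 p4, dot_comm _ fun _ _ => F.P _ _ x,
      (h.pc x).dot_P ((h.pc x).p_of m), h1] at e
    simp only [dat, smul_apply, _root_.sum_apply, mul_apply_eq_comp, real_inner_smul_left,
      sum_inner]
    simp only [dot, mm] at e
    rw [e]
    ring
  have : (dat F A ρ p J o u).μ.IsOpenPosMeasure := ‹_›
  refine (H.reg_of (s := s) (B := B) (c := 8 * k * s ^ 2) (c' := 4 * k * s ^ 2)
    (fun x => ?_) (by positivity) (by linarith) (one_of ha hP) S (fun x => by rw [dat_D]; exact hD x)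
    (integral_congr_ae (.of_forall fun x => ?_)).le).elim fun e1 e2 => ?_
  rotate_left 2
  · have g := sm_im (H.sm_al S)
    refine ⟨fun x => s⁻¹ * ((dat F A ρ p J o u).al φ x).im, contMDiff_const.mul g, fun b x => ?_,
      fun x => ?_⟩
    · have e := dv_const_smul (e := F.e b) s⁻¹ (md g x)
      change a b x = -dv I (F.e b) (s⁻¹ • fun y => ((dat F A ρ p J o u).al φ y).im) x
      rw [e, ← smul_neg]
      exact (inv_mul_cancel_left₀ hs _).symm.trans (congrArg (s⁻¹ * ·) (e2 b x))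
    · rw [mul_right_comm, inv_mul_cancel₀ hs, one_mul]
      exact e1 x
  · have := h.N_le x (u x)
    rw [h1, one_pow, mul_one] at this
    simp only [dat_nab, real_inner_self_eq_norm_sq]
    exact (sum_congr rfl fun b _ => congrArg (‖·‖ ^ 2) (h.nab_eq hu hq hn b x)).trans_le
      (this.trans (hB x))
  · have O := H.ort_be S
    obtain ⟨⟨t1, -, t2, -⟩, ⟨t3, -, t4, -⟩, -⟩ := H.table O x
    have e : φ x = (dat F A ρ p J o u).be φ x + (dat F A ρ p J o u).cf
      ((dat F A ρ p J o u).al φ) u x := (sub_add_cancel _ _).symm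
    have e1 : ⟪φ x, (dat F A ρ p J o u).be φ x⟫_ℝ = ⟪(dat F A ρ p J o u).be φ x,
        (dat F A ρ p J o u).be φ x⟫_ℝ := by
      refine (congrArg (⟪·, _⟫_ℝ) e).trans ?_
      rw [inner_add_left, Dat.cf, Dat.cm, inner_add_left, real_inner_smul_left,
        real_inner_smul_left, show ⟪u x, _⟫_ℝ = 0 from t3, show ⟪Dat.J _ x (u x), _⟫_ℝ = 0 from t4]
      ring
    rw [show (dat F A ρ p J o u).u = u from rfl, T, T, e1, show ⟪J (u x), _⟫_ℝ = 0 from t4,
      show ⟪J (u x), u x⟫_ℝ = 0 from t2, real_inner_comm (u x)]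
    change _ = _ + 2 * s * (((dat F A ρ p J o u).al φ x).re * (4 * k * s *
      (((dat F A ρ p J o u).al φ x).re - _)))
    ring

end gen

variable [DecidableEq ι] {lam : Type} [Fintype lam] {B : Base M ι lam} {G : Geo I M ι lam}
  {θ : ι → ι → M → ℝ} {c : Cfg M ι lam 0} {ξ : M → c.m.A} {r : ℝ}

/-- **regularity** of canonical configurations -/
theorem Cn.reg (hB : B.OK I) (hG : G.OK B) (K : Ak B G.F θ) (h : Cn B G θ r c ξ) {b : ℝ}
    (hb : ∀ x, bnd I G.F.e G.F.Gam θ x ≤ b) (b0 : 0 ≤ b) (hr : 16 * b < r) :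
    Eq82.TRig B G c ξ := by
  intro a φ ha hP hφ pos hξ hD hC
  have T := tm_of hB hG h.adm.ok h.adm.conn K
  have H := h.adm.ok
  have R := h.spt.toRed
  have r0 : 0 < r := by linarith
  have s0 : √r ≠ 0 := (Real.sqrt_pos.2 r0).ne'
  have eu : ∀ x, √r • (√r)⁻¹ • c.Φ x = c.Φ x := fun x => smul_inv_smul₀ s0 _
  have := Sob92.openPos G.F.toPre
  refine (TM.reg (F := G.F) (u := fun x => (√r)⁻¹ • c.Φ x) (hG.P ▸ T)
    (riem_of_vol hG.vol) (fun x => SA.smul contMDiffAt_const (h.adm.sm x))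
    (fun x => by rw [map_smul, h.Q]) (fun x => ?_)
    (fun b x => by rw [nab_csmul _ _ (h.adm.sm x), map_smul, h.par, smul_zero]) (k := 1 / 16) s0
    (by norm_num) hb (by rw [Real.sq_sqrt r0.le]; linarith) ha (hG.P ▸ hP) hφ pos
    (fun x => ⟨_, hG.P ▸ p8 hB H R x, fun a => (rho_hf H (R.mem x) a).symm,
      by rw [map_smul, h.spt.hf_Φ h.adm], hf_fix H (R.mem x) ((pc hB H x).p_of (pos x)) (hξ x)⟩)
    (fun x => ?_) fun x => ?_).imp fun g ⟨g1, g2, g3⟩ =>
      ⟨g1, g2, fun x => by rw [g3, mul_smul, ← map_smul, eu]⟩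
  · rw [norm_smul, ← h.nrm x, Real.sqrt_sq (norm_nonneg _), norm_inv, norm_norm, inv_mul_cancel₀]
    rwa [← h.nrm x, Real.sqrt_sq (norm_nonneg _)] at s0
  · refine (lin_of (hD x) (A := dir I G.F.e c.m.ρ c.W c.Φ x)
      (C := ∑ b, a b x • c.m.ρ b x (opL (ξ x) (φ x))) fun s => ?_)
    change dir I G.F.e c.m.ρ (c.W + fun b y => opL (s • a b y • ξ y)) (fun y => c.Φ y + s • φ y) x
      - 0 = _
    simp only [sub_zero, dir, nab_addA,
      nab_add _ (h.adm.sm x) (SA.smul contMDiffAt_const (hφ x)), nab_csmul _ _ (hφ x), map_add,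
      map_smul, smul_apply, h.spt.Φ, smul_sum, ← sum_add_distrib, smul_add]
    refine sum_congr rfl fun b _ => ?_
    rw [smul_comm √r, smul_inv_smul₀ s0]
    module
  · funext b l
    have n : ∀ (s : ℝ) k, nabE I G.F.e c.W k (fun y => s • opL (ξ y)) x = 0 := fun s k => by
      rw [nabE_eq, nab_csmul _ _ (R.sm_opL x), ← nabE_eq, R.nE, smul_zero]
    have e := lin_of (hC x (b, l)) (A := (c.m.p2 B x (c.m.Fg G.F c.W x) - c.m.mu B x (c.Φ x) (c.Φ x))
      (b, l)) (B := (c.m.p2 B x (WithLp.toLp 2 fun t => d1 I G.F.e G.F.c a t.1 t.2 x • ξ x) -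
        (2 : ℝ) • c.m.mu B x (φ x) (c.Φ x)) (b, l)) (C := -c.m.mu B x (φ x) (φ x) (b, l)) fun s => by
      have e : (c.W + fun b y => opL (s • a b y • ξ y)) =
        c.W + fun b y => a b y • s • opL (ξ y) := by simp only [map_smul, smul_comm s]
      have e' : c.m.Fg G.F (c.W + fun b y => a b y • s • opL (ξ y)) x = c.m.Fg G.F c.W x +
          s • WithLp.toLp 2 fun t => d1 I G.F.e G.F.c a t.1 t.2 x • ξ x := by
        ext1 t
        simp only [Md.Fg, curv_add_smul (fun k => h.adm.conn.cc.sm k x) (fun k => ha k x)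
          (SA.smul contMDiffAt_const (R.sm_opL x)) (n s), map_add, map_smul, hsL_opL,
          pg_of_mem (R.mem x), PiLp.add_apply, PiLp.smul_apply, smul_comm s]
      change (c.m.p2 B x (c.m.Fg G.F (c.W + fun b y => opL (s • a b y • ξ y)) x) -
        c.m.mu B x (c.Φ x + s • φ x) (c.Φ x + s • φ x) - 0) (b, l) = _
      rw [e, e']
      simp only [sub_zero, ← muL_apply, map_add, map_smul, add_apply, smul_apply]
      simp only [muL_apply, mu_symm hB H (c.Φ x) (φ x), PiLp.add_apply, PiLp.sub_apply,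
        PiLp.smul_apply]
      module
    have x1 : opL (ξ x) (rp c.m B x (b, l) (c.Φ x)) = c.m.J (rp c.m B x (b, l) (c.Φ x)) := by
      rw [← mul_apply_eq_comp, g_rp H (R.mem x), mul_apply_eq_comp, h.spt.Φ, ← mul_apply_eq_comp,
        ← J_rp H, mul_apply_eq_comp]
    rw [p2_smul (R.mem x), PiLp.sub_apply, PiLp.smul_apply, mu_apply hB H,
      q_eq hB H (R.mem x) (R.sq x) (hξ x) x1, inner_rp hB H (h.adm.pos x), smul_smul, sub_eq_zero] at e
    have e2 := R.smul_inj H e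
    have e3 := sd_sum (x := x) hB (hG.P ▸ sk_d1 (F := G.F) ha (hG.P ▸ hP) x) (b, l)
    rw [← e3, e2, hG.P]
    simp only [mm, map_smul, real_inner_smul_left]
    field_simp

end Crest.Agent.X212.Taub88
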