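import Crest.Agent.X212.Taub88.Alg
import Crest.Agent.X212.Wz78.On

/-!
# Row 212, TAUB (helper88): products of spin lifts in dimension four
-/

set_option autoImplicit false

open Finset

noncomputable section
namespace Crest.Agent.X212.Taub88
open Wz78

variable {ι : Type*} [Fintype ι] {𝔸 : Type*} [Ring 𝔸] [Algebra ℝ 𝔸]

/-- skew matrices on the range of `P` -/
structure Sk (P X : ι → ι → ℝ) : Prop where
  skew : ∀ a b, X a b = -X b a
  proj : ∀ a b, ∑ k, X a k * P k b = X a b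

/-- the scalar product of two-tensors -/
def dot (X Y : ι → ι → ℝ) : ℝ := ∑ a, ∑ b, X a b * Y a b

/-- the Hodge star -/
def hs2 (o : ι → ι → ι → ι → ℝ) (X : ι → ι → ℝ) (c d : ι) : ℝ := (∑ a, ∑ b, X a b * o a b c d) / 2

/-- the self-dual part of a two-form -/
def sdp (o : ι → ι → ι → ι → ℝ) (X : ι → ι → ℝ) (c d : ι) : ℝ := (X c d + hs2 o X c d) / 2

/-- the bracket -/
def lie (X Y : ι → ι → ℝ) (k l : ι) : ℝ := ∑ m, (Y k m * X m l - X k m * Y m l)

/-- frame components -/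
def fc (U : Fin 4 → ι → ℝ) (X : ι → ι → ℝ) (i j : Fin 4) : ℝ := ∑ a, ∑ b, X a b * (U i a * U j b)

variable {P X Y θ : ι → ι → ℝ} {o : ι → ι → ι → ι → ℝ} {p : 𝔸} {ρ : ι → 𝔸} {U : Fin 4 → ι → ℝ}

theorem Cx.sk (h : Cx P θ) : Sk P θ := ⟨h.skew, h.proj⟩

theorem Sk.proj' (h : Sk P X) (hP : Pr P) (a b : ι) : ∑ k, P a k * X k b = X a b := by
  rw [h.skew a b, ← h.proj b a, ← sum_neg_distrib]
  exact sum_congr rfl fun k _ => by rw [h.skew b k, hP.symm k a]; ring

theorem Sk.add (h : Sk P X) (h' : Sk P Y) : Sk P fun a b => X a b + Y a b :=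
  ⟨fun a b => by rw [h.skew, h'.skew]; ring,
    fun a b => by simp only [add_mul, sum_add_distrib, h.proj, h'.proj]⟩

theorem Sk.mul (h : Sk P X) (t : ℝ) : Sk P fun a b => t * X a b :=
  ⟨fun a b => by rw [h.skew]; ring, fun a b => by simp only [mul_assoc, ← mul_sum, h.proj]⟩

theorem Sk.lie (h : Sk P X) (h' : Sk P Y) : Sk P (lie X Y) := by
  refine ⟨fun a b => ?_, fun a b => ?_⟩
  · rw [Taub88.lie, Taub88.lie, ← sum_neg_distrib]
    exact sum_congr rfl fun m _ => by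
      rw [h.skew m b, h.skew a m, h'.skew a m, h'.skew m b]; ring
  · simp only [Taub88.lie, sum_mul, sub_mul, mul_assoc]
    rw [sum_comm]
    simp only [sum_sub_distrib, ← mul_sum, h.proj, h'.proj]

theorem dot_comm (X Y : ι → ι → ℝ) : dot X Y = dot Y X := by simp only [dot, mul_comm]

theorem Cx.dot_self (h : Cx P θ) (h4 : ∑ a, P a a = 4) : dot θ θ = 4 := by
  rw [← h4, ← neg_inj, dot, ← sum_neg_distrib, ← sum_neg_distrib]
  refine sum_congr rfl fun a _ => ?_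
  rw [← h.sq, ← sum_neg_distrib]
  exact sum_congr rfl fun b _ => by rw [h.skew b a]; ring

theorem spin_lie (C : Cl P p ρ) (h : Sk P X) (Y : ι → ι → ℝ) :
    spin ρ X * spin ρ Y - spin ρ Y * spin ρ X = spin ρ (lie X Y) := by
  have e : ∀ m l, spin ρ X * (ρ m * ρ l) - ρ m * ρ l * spin ρ X =
      ∑ k, X m k • (ρ k * ρ l) + ∑ k, X l k • (ρ m * ρ k) := fun m l => by
    have e1 := congrArg (· * ρ l) (C.spin_comm h.skew h.proj m)
    have e2 := congrArg (ρ m * ·) (C.spin_comm h.skew h.proj l)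
    simp only [sum_mul, mul_sum, smul_mul_assoc, mul_smul_comm] at e1 e2
    rw [← e1, ← e2]
    noncomm_ring
  have e1 : ∑ m, ∑ l, Y m l • ∑ k, X m k • (ρ k * ρ l) =
      -∑ k, ∑ l, (∑ m, X k m * Y m l) • (ρ k * ρ l) := by
    simp only [smul_sum, smul_smul, sum_smul, ← sum_neg_distrib, ← neg_smul]
    rw [sum_comm, sum_congr rfl fun _ _ => sum_comm, sum_comm]
    exact sum_congr rfl fun k _ => sum_congr rfl fun l _ => sum_congr rfl fun m _ => by
      rw [h.skew m k]; ring_nf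
  have e2 : ∑ m, ∑ l, Y m l • ∑ k, X l k • (ρ m * ρ k) =
      ∑ k, ∑ l, (∑ m, Y k m * X m l) • (ρ k * ρ l) := by
    simp only [smul_sum, smul_smul, sum_smul]
    exact sum_congr rfl fun k _ => sum_comm
  conv_lhs => rw [spin.eq_1 ρ Y]
  simp only [mul_smul_comm, smul_mul_assoc, ← smul_sub, mul_sum, sum_mul, ← sum_sub_distrib, e,
    smul_add, sum_add_distrib, e1, e2]
  simp only [spin, lie, sum_sub_distrib, sub_smul, smul_sub, smul_neg]
  abel

theorem spin_fc (h : On0 P U) (C : Cl P p ρ) (X : ι → ι → ℝ) :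
    spin ρ X = spin (rr U ρ) (fc U X) := by
  have e : ∀ a b, ρ a * ρ b = ∑ i, ∑ j, (U i a * U j b) • (rr U ρ i * rr U ρ j) := fun a b => by
    rw [← rr_mul, ← h.rho C, ← h.rho C]
  simp only [spin, e, fc, smul_sum, sum_smul, smul_smul]
  rw [sum_congr rfl fun _ _ => sum_comm, sum_comm]
  refine sum_congr rfl fun i _ => ?_
  rw [sum_congr rfl fun _ _ => sum_comm, sum_comm]

theorem fc_skew (h : ∀ a b, X a b = -X b a) (i j : Fin 4) : fc U X i j = -fc U X j i := by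
  rw [fc, fc, sum_comm, ← sum_neg_distrib]
  refine sum_congr rfl fun a _ => ?_
  rw [← sum_neg_distrib]
  exact sum_congr rfl fun b _ => by rw [h b a]; ring

theorem dot_fc (U : Fin 4 → ι → ℝ) (X : ι → ι → ℝ) (Z : Fin 4 → Fin 4 → ℝ) :
    dot X (fun c d => ∑ k, ∑ l, Z k l * (U k c * U l d)) = dot (fc U X) Z := by
  simp only [dot, fc, mul_sum, sum_mul]
  rw [sum_congr rfl fun _ _ => sum_comm, sum_comm]
  refine sum_congr rfl fun i _ => ?_
  rw [sum_congr rfl fun _ _ => sum_comm, sum_comm]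
  exact sum_congr rfl fun _ _ => sum_congr rfl fun _ _ => sum_congr rfl fun _ _ => by ring

theorem Sk.fc (hX : Sk P X) (h : On0 P U) (hP : Pr P) :
    (fun c d => ∑ k, ∑ l, fc U X k l * (U k c * U l d)) = X := by
  funext c d
  have e : ∀ a b, ∑ k, ∑ l, X a b * (U k a * U l b) * (U k c * U l d) =
      P c a * (X a b * P b d) := fun a b => by
    rw [← h.pr, ← h.pr, mul_sum, sum_mul_sum]
    exact sum_congr rfl fun _ _ => sum_congr rfl fun _ _ => by ring
  simp only [Taub88.fc, sum_mul]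
  rw [sum_congr rfl fun _ _ => sum_comm, sum_comm, sum_congr rfl fun _ _ =>
    (sum_congr rfl fun _ _ => sum_comm).trans sum_comm]
  simp only [e, ← mul_sum, hX.proj, hX.proj' hP]

theorem hs2_fc (h : On P o U) (X : ι → ι → ℝ) : hs2 o X = fun c d =>
    ∑ k, ∑ l, ((∑ i, ∑ j, (Ind95.eps i j k l : ℝ) * fc U X i j) / 2) * (U k c * U l d) := by
  funext c d
  simp only [hs2, h.vol, vol_eq, fc, div_mul_eq_mul_div, ← sum_div, mul_sum, sum_mul]
  congr 1
  rw [sum_congr rfl fun _ _ => sum_comm, sum_comm]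
  refine sum_congr rfl fun k _ => ?_
  rw [sum_congr rfl fun _ _ => sum_comm, sum_comm]
  refine sum_congr rfl fun l _ => ?_
  rw [sum_congr rfl fun _ _ => sum_comm, sum_comm]
  refine sum_congr rfl fun i _ => ?_
  rw [sum_congr rfl fun _ _ => sum_comm, sum_comm]
  exact sum_congr rfl fun _ _ => sum_congr rfl fun _ _ => sum_congr rfl fun _ _ => by ring

theorem spin4 {γ : Fin 4 → 𝔸} (C : Ind95.Cl (0 : 𝔸 →ₗ[ℝ] ℝ) γ p) {X Y : Fin 4 → Fin 4 → ℝ}
    (hX : ∀ a b, X a b = -X b a) (hY : ∀ a b, Y a b = -Y b a) :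
    spin γ X * spin γ Y + spin γ Y * spin γ X = (-dot X Y / 4) • p +
      ((X 0 1 * Y 2 3 - X 0 2 * Y 1 3 + X 0 3 * Y 1 2 + X 2 3 * Y 0 1 - X 1 3 * Y 0 2 +
        X 1 2 * Y 0 3) / 2) • Ind95.om γ := by
  have a10 := C.anti 1 0 (by decide)
  have a20 := C.anti 2 0 (by decide)
  have a30 := C.anti 3 0 (by decide)
  have a21 := C.anti 2 1 (by decide)
  have a31 := C.anti 3 1 (by decide)
  have a32 := C.anti 3 2 (by decide)
  have d : ∀ {X : Fin 4 → Fin 4 → ℝ}, (∀ a b, X a b = -X b a) → ∀ a, X a a = 0 := fun h a => by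
    linarith [h a a]
  have e : ∀ {X : Fin 4 → Fin 4 → ℝ}, (∀ a b, X a b = -X b a) → spin γ X = (1 / 2 : ℝ) •
      (X 0 1 • (γ 0 * γ 1) + X 0 2 • (γ 0 * γ 2) + X 0 3 • (γ 0 * γ 3) + X 1 2 • (γ 1 * γ 2) +
        X 1 3 • (γ 1 * γ 3) + X 2 3 • (γ 2 * γ 3)) := fun h => by
    simp only [spin, Fin.sum_univ_four, d h, h 1 0, h 2 0, h 3 0, h 2 1, h 3 1, h 3 2, a10, a20,
      a30, a21, a31, a32]
    module
  rw [e hX, e hY]
  simp only [dot, Fin.sum_univ_four, d hX, hX 1 0, hX 2 0, hX 3 0, hX 2 1, hX 3 1, hX 3 2,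
    hY 1 0, hY 2 0, hY 3 0, hY 2 1, hY 3 1, hY 3 2, Ind95.om, mul_add, add_mul, smul_mul_assoc,
    mul_smul_comm, mul_assoc, C.s10, C.s20, C.s30, C.s21, C.s31, C.s32, C.sq', C.Pγ', C.Pγ, C.sq,
    C.γP, a10, a20, a21, a31, a32, mul_neg, neg_neg]
  module

/-- the anticommutator of two spin lifts -/
theorem spin_acomm (h : On P o U) (C : Cl P p ρ) (hP : Pr P) (hX : ∀ a b, X a b = -X b a)
    (hY : Sk P Y) : spin ρ X * spin ρ Y + spin ρ Y * spin ρ X =
      (-dot X Y / 4) • p + (dot X (hs2 o Y) / 4) • omA o ρ := by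
  have x := fc_skew (U := U) hX
  have y := fc_skew (U := U) hY.skew
  have d : ∀ {X : Fin 4 → Fin 4 → ℝ}, (∀ a b, X a b = -X b a) → ∀ a, X a a = 0 := fun h a => by
    linarith [h a a]
  rw [spin_fc h.toOn0 C, spin_fc h.toOn0 C, spin4 (h.cl4 C) x y, h.om_eq C, hs2_fc h, dot_fc,
    ← dot_fc, hY.fc h.toOn0 hP]
  congr 2
  simp [dot, Fin.sum_univ_four, Ind95.eps, Ind95.sg, x 1 0, x 2 0, x 3 0, x 2 1, x 3 1, x 3 2,
    y 1 0, y 2 0, y 3 0, y 2 1, y 3 1, y 3 2]
  ring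

theorem spin_hs2 (h : On P o U) (C : Cl P p ρ) (hX : ∀ a b, X a b = -X b a) :
    spin ρ (hs2 o X) = -(spin ρ X * omA o ρ) := by
  have e1 : ∑ c, ∑ d, (∑ a, ∑ b, X a b * o a b c d) • (ρ c * ρ d) =
      ∑ a, ∑ b, X a b • ∑ c, ∑ d, o a b c d • (ρ c * ρ d) := by
    simp only [sum_smul, smul_sum, smul_smul]
    rw [sum_congr rfl fun _ _ => sum_comm, sum_comm]
    refine sum_congr rfl fun i _ => ?_
    rw [sum_congr rfl fun _ _ => sum_comm, sum_comm]
  have e2 : ∑ a, ∑ b, X a b • (ρ b * ρ a) = -∑ a, ∑ b, X a b • (ρ a * ρ b) := by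
    rw [sum_comm]
    simp only [← sum_neg_distrib, ← neg_smul, ← hX]
  have e3 : ∑ c, ∑ d, hs2 o X c d • (ρ c * ρ d) =
      (2 : ℝ)⁻¹ • ∑ c, ∑ d, (∑ a, ∑ b, X a b * o a b c d) • (ρ c * ρ d) := by
    simp only [hs2, div_eq_inv_mul, mul_smul, smul_sum]
  rw [spin, e3, e1, spin]
  simp only [h.star C]
  simp only [sub_mul, smul_neg, smul_sub, sum_neg_distrib, sum_sub_distrib]
  simp only [← smul_mul_assoc (X _ _) (ρ _ * ρ _), ← sum_mul, e2]
  rw [smul_mul_assoc, neg_mul]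
  module

theorem On.o34 (h : On P o U) (a b c d : ι) : o a b c d = -o a b d c := by
  simp only [h.vol, Wz78.vol, Ind95.E4_eq]; ring

theorem On.pair (h : On P o U) (a b c d : ι) : o a b c d = o c d a b := by
  simp only [h.vol, Wz78.vol, Ind95.E4_eq]; ring

theorem On.oP (h : On P o U) (a b c d : ι) : ∑ k, o a b c k * P k d = o a b c d := by
  have e : ∀ Z : Fin 4 → Fin 4 → ℝ, ∑ m, (∑ k, ∑ l, Z k l * (U k c * U l m)) * P m d =
      ∑ k, ∑ l, Z k l * (U k c * U l d) := fun Z => by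
    simp only [sum_mul, mul_assoc]
    rw [sum_comm]
    refine sum_congr rfl fun k _ => ?_
    rw [sum_comm]
    simp only [← mul_sum, h.UP]
  simp only [h.vol, vol_eq, e]

theorem sk_hs2 (h : On P o U) (X : ι → ι → ℝ) : Sk P (hs2 o X) := by
  refine ⟨fun c d => ?_, fun c d => ?_⟩
  · simp only [hs2, fun a b => On.o34 h a b c d, mul_neg, sum_neg_distrib, neg_div]
  · simp only [hs2, div_mul_eq_mul_div, ← sum_div, sum_mul, mul_assoc]
    rw [sum_comm, sum_congr rfl fun _ _ => sum_comm]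
    simp only [← mul_sum, On.oP h]

theorem dot_hs2 (h : On P o U) (X Y : ι → ι → ℝ) : dot X (hs2 o Y) = dot (hs2 o X) Y := by
  simp only [dot, hs2, div_mul_eq_mul_div, ← mul_div_assoc, ← sum_div, sum_mul, mul_sum]
  congr 1
  rw [sum_congr rfl fun _ _ => sum_comm, sum_comm]
  refine sum_congr rfl fun i _ => ?_
  rw [sum_congr rfl fun _ _ => sum_comm, sum_comm]
  exact sum_congr rfl fun _ _ => sum_congr rfl fun _ _ => sum_congr rfl fun _ _ => by
    rw [On.pair h]; ring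

/-- self-dual two-forms -/
def SD (o : ι → ι → ι → ι → ℝ) (θ : ι → ι → ℝ) : Prop := hs2 o θ = θ

theorem SD.dot_sdp (hθ : SD o θ) (h : On P o U) (X : ι → ι → ℝ) : dot (sdp o X) θ = dot X θ := by
  have := dot_hs2 h X θ
  rw [hθ] at this
  simp only [dot, sdp, div_mul_eq_mul_div, ← sum_div, add_mul, sum_add_distrib] at this ⊢
  linarith

theorem spin_sdp (h : On P o U) (C : Cl P p ρ) (hX : ∀ a b, X a b = -X b a) :
    spin ρ (sdp o X) = spin ρ X * (1 / 2 : ℝ) • (p - omA o ρ) := by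
  have : sdp o X = fun a b => (1 / 2) * (X a b + hs2 o X a b) := by
    funext a b; rw [sdp]; ring
  rw [this, spin_smul, spin_add, spin_hs2 h C hX, mul_smul_comm, mul_sub, C.spin_p, sub_eq_add_neg]

end Crest.Agent.X212.Taub88
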